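import Vale.Agent.P152.MathlibUsed
import Mathlib.Probability.Distributions.Gaussian.Multivariate
import Mathlib.MeasureTheory.Function.ConvergenceInDistribution

/-!
Definitions for the full-plane height representation of the self-dual Ashkin-Teller model.
-/

namespace Vale.Agent.P145.FP

open Finset Filter Topology MeasureTheory ProbabilityTheory

/-- The sites: `Sum.inl v` is the vertex `v` of `ℤ²`, and `Sum.inr f` is the face of `ℤ²` (unit
square) whose bottom-left corner is `f`. -/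
abbrev Site := (ℤ × ℤ) ⊕ (ℤ × ℤ)

/-- A pair `(τ, τ†)` of spin configurations: `σ (Sum.inl v)` is `τ(v)` and `σ (Sum.inr f)` is
`τ†(f)`, where `true` stands for the spin `1` and `false` for the spin `-1`. -/
abbrev Conf := Site → Bool

/-- The value `±1` of a spin. -/
noncomputable def sp (b : Bool) : ℝ := if b = true then 1 else -1

/-- The weight of an edge `uv` separating the faces `f, f'`, as a function of
`τ(u), τ(v), τ†(f), τ†(f')`: it is `0` if `(τ(u) - τ(v)) (τ†(f) - τ†(f')) ≠ 0`, and otherwise `t`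
to the number of pairs of different spins among `{τ(u), τ(v)}` and `{τ†(f), τ†(f')}`. -/
noncomputable def ew (t : ℝ) (a b p q : Bool) : ℝ :=
  if a = b ∨ p = q then t ^ ((if a = b then 0 else 1) + (if p = q then 0 else 1)) else 0

/-- Weight of the horizontal edge from `e` to `e + (1, 0)`, which separates the faces `e` (above)
and `e - (0, 1)` (below). -/
noncomputable def hw (t : ℝ) (σ : Conf) (e : ℤ × ℤ) : ℝ :=
  ew t (σ (Sum.inl e)) (σ (Sum.inl (e.1 + 1, e.2))) (σ (Sum.inr e)) (σ (Sum.inr (e.1, e.2 - 1)))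

/-- Weight of the vertical edge from `e` to `e + (0, 1)`, which separates the faces `e` (right)
and `e - (1, 0)` (left). -/
noncomputable def vw (t : ℝ) (σ : Conf) (e : ℤ × ℤ) : ℝ :=
  ew t (σ (Sum.inl e)) (σ (Sum.inl (e.1, e.2 + 1))) (σ (Sum.inr e)) (σ (Sum.inr (e.1 - 1, e.2)))

/-- The product of the weights of all interior edges of the square `[-n, n]²`. -/
noncomputable def W (t : ℝ) (n : ℕ) (σ : Conf) : ℝ :=
  (∏ e ∈ Icc (-(n : ℤ)) (n - 1) ×ˢ Icc (-(n : ℤ) + 1) (n - 1), hw t σ e) *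
    ∏ e ∈ Icc (-(n : ℤ) + 1) (n - 1) ×ˢ Icc (-(n : ℤ)) (n - 1), vw t σ e

/-- The vertices and faces of the square `[-n, n]²`. -/
noncomputable def B (n : ℕ) : Finset Site :=
  (Icc (-(n : ℤ)) n ×ˢ Icc (-(n : ℤ)) n).disjSum
    (Icc (-(n : ℤ)) (n - 1) ×ˢ Icc (-(n : ℤ)) (n - 1))

/-- The configurations that agree with `σ` on the finite set `S` of sites. -/
def cyl (S : Finset Site) (σ : Conf) : Set Conf := {ρ | ∀ x ∈ S, ρ x = σ x}

/-- `Q` is an infinite-volume Gibbs measure of the height representation with parameter `t`: if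
`σ` and `ρ` agree outside the square `[-n, n]²`, then the probabilities that the spins in the
square `[-(n+1), n+1]²` are given by `σ`, respectively by `ρ`, are proportional to the weights. -/
def Gibbs (t : ℝ) (Q : Measure Conf) : Prop :=
  ∀ (n : ℕ) (σ ρ : Conf), (∀ x, x ∉ B n → σ x = ρ x) →
    Q.real (cyl (B (n + 1)) σ) * W t (n + 1) ρ = Q.real (cyl (B (n + 1)) ρ) * W t (n + 1) σ

/-- Translation by `a`. -/
def tr (a : ℤ × ℤ) (σ : Conf) : Conf := fun x => σ (Sum.map (· + a) (· + a) x)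

/-- Flip of all spins `τ`. -/
def flipV (σ : Conf) : Conf := Sum.elim (fun v => !(σ (Sum.inl v))) (fun f => σ (Sum.inr f))

/-- Flip of all spins `τ†`. -/
def flipF (σ : Conf) : Conf := Sum.elim (fun v => σ (Sum.inl v)) (fun f => !(σ (Sum.inr f)))

/-- `H` is a height function of `(τ, τ†)`: `H(f) - H(v) = τ(v) τ†(f) / 2` whenever the vertex `v`
is a corner of the face `f`. -/
def IsHeight (σ : Conf) (H : Site → ℝ) : Prop :=
  ∀ (f : ℤ × ℤ) (a b : ℤ), (a = 0 ∨ a = 1) → (b = 0 ∨ b = 1) →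
    H (Sum.inr f) - H (Sum.inl (f.1 + a, f.2 + b)) =
      1 / 2 * sp (σ (Sum.inl (f.1 + a, f.2 + b))) * sp (σ (Sum.inr f))

/-- `H_δ(φ) = δ² ∑_v H(v) φ(δ v)`, the sum being over the vertices `v` of `ℤ²`. -/
noncomputable def fld (H : Site → ℝ) (δ : ℝ) (φ : ℝ × ℝ → ℝ) : ℝ :=
  δ ^ 2 * ∑' v : ℤ × ℤ, H (Sum.inl v) * φ (δ * v.1, δ * v.2)

/-- Smooth compactly supported function on the plane with integral zero. -/
def Test (f : ℝ × ℝ → ℝ) : Prop :=
  ContDiff ℝ ((⊤ : ℕ∞) : WithTop ℕ∞) f ∧ HasCompactSupport f ∧ ∫ x, f x = 0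

/-- `G(x, y) = -(2π)⁻¹ log |x - y|`. -/
noncomputable def green (x y : ℝ × ℝ) : ℝ :=
  -(2 * Real.pi)⁻¹ * Real.log (Real.sqrt ((x.1 - y.1) ^ 2 + (x.2 - y.2) ^ 2))

/-- The covariance `∬ G(x, y) f(x) g(y) dx dy` of the Gaussian free field on the plane modulo
constants. -/
noncomputable def gffCov (f g : ℝ × ℝ → ℝ) : ℝ := ∫ x, ∫ y, green x y * f x * g y

end Vale.Agent.P145.FP
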