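import Vale.Agent.P152.Defs2

/-!
The Gibbs property of the infinite-volume limit of the six-vertex model, from the torus.
-/

namespace Vale.Agent.P145.FP

open Finset Filter Topology MeasureTheory
open Vale.Agent.P152 (Edge Ori wt unroll cyl)

/-- Projection of the vertices to the torus. -/
def prV (M L : ℕ) (v : ℤ × ℤ) : ZMod M × ZMod L := ((v.1 : ZMod M), (v.2 : ZMod L))

/-- Projection of the edges to the torus. -/
def pr (M L : ℕ) (e : Edge (ℤ × ℤ)) : Edge (ZMod M × ZMod L) := Sum.map (prV M L) (prV M L) e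

lemma unroll_pr {M L : ℕ} (ω : Ori (ZMod M × ZMod L)) (e : Edge (ℤ × ℤ)) :
    unroll ω e = ω (pr M L e) := rfl

/-- Weight of the vertex `v`. -/
noncomputable def vwt (c : ℝ) (ξ : Ori (ℤ × ℤ)) (v : ℤ × ℤ) : ℝ :=
  P152.vw c (ξ (Sum.inl (v.1 - 1, v.2))) (ξ (Sum.inl v)) (ξ (Sum.inr (v.1, v.2 - 1)))
    (ξ (Sum.inr v))

/-- Weight of a vertex of the torus. -/
noncomputable def tvw (c : ℝ) {M L : ℕ} (ω : Ori (ZMod M × ZMod L)) (v : ZMod M × ZMod L) : ℝ :=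
  P152.vw c (ω (Sum.inl (v.1 - 1, v.2))) (ω (Sum.inl v)) (ω (Sum.inr (v.1, v.2 - 1)))
    (ω (Sum.inr v))

lemma tvw_prV (c : ℝ) {M L : ℕ} (ω : Ori (ZMod M × ZMod L)) (v : ℤ × ℤ) :
    tvw c ω (prV M L v) = vwt c (unroll ω) v := by
  unfold tvw vwt
  simp only [unroll_pr, pr, prV, Sum.map_inl, Sum.map_inr]
  push_cast
  rfl

/-- The four arrows at a vertex. -/
def star (v : ℤ × ℤ) : Finset (Edge (ℤ × ℤ)) :=
  {Sum.inl (v.1 - 1, v.2), Sum.inl v, Sum.inr (v.1, v.2 - 1), Sum.inr v}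

/-- The two endpoints of an edge lie in `V`. -/
def Ends (V : Finset (ℤ × ℤ)) : Edge (ℤ × ℤ) → Prop
  | Sum.inl v => v ∈ V ∧ (v.1 + 1, v.2) ∈ V
  | Sum.inr v => v ∈ V ∧ (v.1, v.2 + 1) ∈ V

lemma vwt_congr (c : ℝ) {ξ ξ' : Ori (ℤ × ℤ)} {v : ℤ × ℤ} (h : ∀ e ∈ star v, ξ e = ξ' e) :
    vwt c ξ v = vwt c ξ' v := by
  unfold vwt
  rw [h _ (by simp [star]), h (Sum.inl v) (by simp [star]), h _ (by simp [star]),
    h (Sum.inr v) (by simp [star])]

open Classical in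
/-- Replace the arrows on the projection of `E` by those of `ξ`. -/
noncomputable def repl {M L : ℕ} (E : Finset (Edge (ℤ × ℤ))) (ξ : Ori (ℤ × ℤ))
    (ω : Ori (ZMod M × ZMod L)) : Ori (ZMod M × ZMod L) := fun g =>
  if h : ∃ e ∈ E, pr M L e = g then ξ h.choose else ω g

lemma repl_pr {M L : ℕ} {E : Finset (Edge (ℤ × ℤ))} (hE : Set.InjOn (pr M L) E)
    (ξ : Ori (ℤ × ℤ)) (ω : Ori (ZMod M × ZMod L)) {e : Edge (ℤ × ℤ)} (he : e ∈ E) :
    repl E ξ ω (pr M L e) = ξ e := by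
  unfold repl
  have h : ∃ e' ∈ E, pr M L e' = pr M L e := ⟨e, he, rfl⟩
  rw [dif_pos h]
  have h1 := h.choose_spec
  rw [hE (Finset.mem_coe.2 h1.1) (Finset.mem_coe.2 he) h1.2]

lemma repl_off {M L : ℕ} {E : Finset (Edge (ℤ × ℤ))} (ξ : Ori (ℤ × ℤ))
    (ω : Ori (ZMod M × ZMod L)) {g : Edge (ZMod M × ZMod L)} (hg : ¬ ∃ e ∈ E, pr M L e = g) :
    repl E ξ ω g = ω g := by
  unfold repl
  rw [dif_neg hg]

/-- `ω` agrees with `ξ` on `E`. -/
def Agr {M L : ℕ} (E : Finset (Edge (ℤ × ℤ))) (ξ : Ori (ℤ × ℤ)) (ω : Ori (ZMod M × ZMod L)) :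
    Prop := ∀ e ∈ E, ω (pr M L e) = ξ e

lemma agr_iff {M L : ℕ} (E : Finset (Edge (ℤ × ℤ))) (ξ : Ori (ℤ × ℤ))
    (ω : Ori (ZMod M × ZMod L)) : unroll ω ∈ cyl E ξ ↔ Agr E ξ ω := Iff.rfl

lemma repl_repl {M L : ℕ} {E : Finset (Edge (ℤ × ℤ))} (hE : Set.InjOn (pr M L) E)
    (ξ ξ' : Ori (ℤ × ℤ)) (ω : Ori (ZMod M × ZMod L)) (h : Agr E ξ ω) :
    repl E ξ (repl E ξ' ω) = ω := by
  funext g
  by_cases hg : ∃ e ∈ E, pr M L e = g
  · obtain ⟨e, he, rfl⟩ := hg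
    rw [repl_pr hE ξ _ he, h e he]
  · rw [repl_off ξ _ hg, repl_off ξ' _ hg]

variable {M L : ℕ} [NeZero M] [NeZero L]

lemma wt_repl (c : ℝ) {E : Finset (Edge (ℤ × ℤ))} {V : Finset (ℤ × ℤ)}
    (hE : Set.InjOn (pr M L) E) (hV : Set.InjOn (prV M L) V) {ξ ξ' : Ori (ℤ × ℤ)}
    (hin : ∀ v ∈ V, star v ⊆ E) (hout : ∀ e ∈ E, ξ e ≠ ξ' e → Ends V e)
    (ω : Ori (ZMod M × ZMod L)) (hω : Agr E ξ ω) :
    wt c (repl E ξ' ω) * ∏ v ∈ V, vwt c ξ v = wt c ω * ∏ v ∈ V, vwt c ξ' v := by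
  classical
  have hsplit : ∀ η : Ori (ZMod M × ZMod L), wt c η =
      (∏ v ∈ V, vwt c (unroll η) v) * ∏ v ∈ univ \ V.image (prV M L), tvw c η v := by
    intro η
    have h1 : wt c η = ∏ v, tvw c η v := rfl
    rw [h1, ← Finset.prod_sdiff (Finset.subset_univ (V.image (prV M L))), mul_comm]
    congr 1
    rw [Finset.prod_image hV]
    exact Finset.prod_congr rfl (fun v _ => tvw_prV c η v)
  have hA : ∏ v ∈ V, vwt c (unroll ω) v = ∏ v ∈ V, vwt c ξ v :=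
    Finset.prod_congr rfl (fun v hv => vwt_congr c (fun e he => hω e (hin v hv he)))
  have hB : ∏ v ∈ V, vwt c (unroll (repl E ξ' ω)) v = ∏ v ∈ V, vwt c ξ' v :=
    Finset.prod_congr rfl (fun v hv => vwt_congr c (fun e he => by
      rw [unroll_pr, repl_pr hE ξ' ω (hin v hv he)]))
  have hC : ∏ v ∈ univ \ V.image (prV M L), tvw c (repl E ξ' ω) v =
      ∏ v ∈ univ \ V.image (prV M L), tvw c ω v := by
    refine Finset.prod_congr rfl (fun v hv => ?_)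
    rw [Finset.mem_sdiff, Finset.mem_image] at hv
    have hv2 : ∀ w ∈ V, prV M L w ≠ v := fun w hw h => hv.2 ⟨w, hw, h⟩
    -- arrows at `v` do not change
    have key : ∀ g : Edge (ZMod M × ZMod L),
        (∀ e ∈ E, pr M L e = g → ¬ Ends V e) → repl E ξ' ω g = ω g := by
      intro g hg
      by_cases h : ∃ e ∈ E, pr M L e = g
      · obtain ⟨e, he, rfl⟩ := h
        rw [repl_pr hE ξ' ω he, hω e he]
        by_contra hne
        exact hg e he rfl (hout e he (fun h => hne h.symm))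
      · exact repl_off ξ' ω h
    unfold tvw
    rw [key, key, key, key]
    · rintro (w | w) _ h hE'
      · simp [pr] at h
      · simp only [pr, Sum.map_inr, Sum.inr.injEq] at h
        exact hv2 w hE'.1 h
    · rintro (w | w) _ h hE'
      · simp [pr] at h
      · simp only [pr, Sum.map_inr, Sum.inr.injEq] at h
        refine hv2 (w.1, w.2 + 1) hE'.2 ?_
        have h1 := congrArg Prod.fst h
        have h2 := congrArg Prod.snd h
        simp only [prV] at h1 h2 ⊢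
        refine Prod.ext h1 ?_
        simp only
        push_cast
        rw [h2]; ring
    · rintro (w | w) _ h hE'
      · simp only [pr, Sum.map_inl, Sum.inl.injEq] at h
        exact hv2 w hE'.1 h
      · simp [pr] at h
    · rintro (w | w) _ h hE'
      · simp only [pr, Sum.map_inl, Sum.inl.injEq] at h
        refine hv2 (w.1 + 1, w.2) hE'.2 ?_
        have h1 := congrArg Prod.fst h
        have h2 := congrArg Prod.snd h
        simp only [prV] at h1 h2 ⊢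
        refine Prod.ext ?_ h2
        simp only
        push_cast
        rw [h1]; ring
      · simp [pr] at h
  rw [hsplit, hsplit ω, hA, hB, hC]
  ring

/-- The swap identity on the torus. -/
theorem torus_swap (c : ℝ) {E : Finset (Edge (ℤ × ℤ))} {V : Finset (ℤ × ℤ)}
    (hE : Set.InjOn (pr M L) E) (hV : Set.InjOn (prV M L) V) {ξ ξ' : Ori (ℤ × ℤ)}
    (hin : ∀ v ∈ V, star v ⊆ E) (hout : ∀ e ∈ E, ξ e ≠ ξ' e → Ends V e) :
    (∑ ω : Ori (ZMod M × ZMod L), wt c ω * (cyl E ξ).indicator (fun _ => (1 : ℝ)) (unroll ω)) *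
      ∏ v ∈ V, vwt c ξ' v =
    (∑ ω : Ori (ZMod M × ZMod L), wt c ω * (cyl E ξ').indicator (fun _ => (1 : ℝ)) (unroll ω)) *
      ∏ v ∈ V, vwt c ξ v := by
  classical
  have h1 : ∀ η : Ori (ℤ × ℤ), (∑ ω : Ori (ZMod M × ZMod L),
      wt c ω * (cyl E η).indicator (fun _ => (1 : ℝ)) (unroll ω)) =
      ∑ ω ∈ univ.filter (fun ω : Ori (ZMod M × ZMod L) => Agr E η ω), wt c ω := by
    intro η
    rw [Finset.sum_filter]
    refine Finset.sum_congr rfl (fun ω _ => ?_)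
    by_cases h : Agr E η ω
    · rw [if_pos h, Set.indicator_of_mem ((agr_iff E η ω).2 h), mul_one]
    · rw [if_neg h, Set.indicator_of_notMem (fun h' => h ((agr_iff E η ω).1 h')), mul_zero]
  rw [h1, h1, Finset.sum_mul, Finset.sum_mul]
  refine Finset.sum_nbij' (fun ω => repl E ξ' ω) (fun ω => repl E ξ ω) ?_ ?_ ?_ ?_ ?_
  · intro ω hω
    rw [Finset.mem_filter]
    exact ⟨Finset.mem_univ _, fun e he => repl_pr hE ξ' ω he⟩
  · intro ω hω
    rw [Finset.mem_filter]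
    exact ⟨Finset.mem_univ _, fun e he => repl_pr hE ξ ω he⟩
  · intro ω hω
    rw [Finset.mem_filter] at hω
    exact repl_repl hE ξ ξ' ω hω.2
  · intro ω hω
    rw [Finset.mem_filter] at hω
    exact repl_repl hE ξ' ξ ω hω.2
  · intro ω hω
    rw [Finset.mem_filter] at hω
    exact (wt_repl c hE hV hin hout ω hω.2).symm

omit [NeZero M] [NeZero L] in
lemma prV_inj {K : ℤ} (hM : 2 * K < M) (hL : 2 * K < L) {V : Finset (ℤ × ℤ)}
    (hV : ∀ v ∈ V, |v.1| ≤ K ∧ |v.2| ≤ K) : Set.InjOn (prV M L) V := by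
  intro v hv w hw h
  have h1 := congrArg Prod.fst h
  have h2 := congrArg Prod.snd h
  simp only [prV] at h1 h2
  have hv' := hV v hv
  have hw' := hV w hw
  rw [abs_le, abs_le] at hv' hw'
  rw [ZMod.intCast_eq_intCast_iff_dvd_sub] at h1 h2
  have k1 := Int.eq_zero_of_abs_lt_dvd h1 (by rw [abs_lt]; constructor <;> linarith [hv'.1.1, hv'.1.2, hw'.1.1, hw'.1.2])
  have k2 := Int.eq_zero_of_abs_lt_dvd h2 (by rw [abs_lt]; constructor <;> linarith [hv'.2.1, hv'.2.2, hw'.2.1, hw'.2.2])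
  exact Prod.ext (by linarith) (by linarith)

omit [NeZero M] [NeZero L] in
lemma pr_inj {K : ℤ} (hM : 2 * K < M) (hL : 2 * K < L) {E : Finset (Edge (ℤ × ℤ))}
    (hE : ∀ v, (Sum.inl v ∈ E ∨ Sum.inr v ∈ E) → |v.1| ≤ K ∧ |v.2| ≤ K) :
    Set.InjOn (pr M L) E := by
  intro e he e' he' h
  have key : ∀ v w : ℤ × ℤ, (|v.1| ≤ K ∧ |v.2| ≤ K) → (|w.1| ≤ K ∧ |w.2| ≤ K) →
      prV M L v = prV M L w → v = w := by
    intro v w hv hw h
    have := prV_inj (M := M) (L := L) hM hL (V := {v, w}) (by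
      intro u hu
      rw [Finset.mem_insert, Finset.mem_singleton] at hu
      rcases hu with rfl | rfl
      · exact hv
      · exact hw)
    exact this (by simp) (by simp) h
  rcases e with v | v <;> rcases e' with w | w
  · simp only [pr, Sum.map_inl, Sum.inl.injEq] at h
    rw [key v w (hE v (Or.inl (Finset.mem_coe.1 he))) (hE w (Or.inl (Finset.mem_coe.1 he'))) h]
  · simp [pr] at h
  · simp [pr] at h
  · simp only [pr, Sum.map_inr, Sum.inr.injEq] at h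
    rw [key v w (hE v (Or.inr (Finset.mem_coe.1 he))) (hE w (Or.inr (Finset.mem_coe.1 he'))) h]

/-- The swap identity in infinite volume. -/
theorem plane_swap (c : ℝ) {P : Measure (Ori (ℤ × ℤ))}
    (hT : ∀ Λ ξ, Tendsto (fun n : ℕ × ℕ =>
        (∑ ω : Ori (ZMod (n.1 + 1) × ZMod (n.2 + 1)),
          wt c ω * (cyl Λ ξ).indicator (fun _ => (1 : ℝ)) (unroll ω)) /
        ∑ ω : Ori (ZMod (n.1 + 1) × ZMod (n.2 + 1)), wt c ω) atTop (𝓝 (P.real (cyl Λ ξ))))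
    {E : Finset (Edge (ℤ × ℤ))} {V : Finset (ℤ × ℤ)} {K : ℤ}
    (hE : ∀ v, (Sum.inl v ∈ E ∨ Sum.inr v ∈ E) → |v.1| ≤ K ∧ |v.2| ≤ K)
    (hV : ∀ v ∈ V, |v.1| ≤ K ∧ |v.2| ≤ K) {ξ ξ' : Ori (ℤ × ℤ)}
    (hin : ∀ v ∈ V, star v ⊆ E) (hout : ∀ e ∈ E, ξ e ≠ ξ' e → Ends V e) :
    P.real (cyl E ξ) * ∏ v ∈ V, vwt c ξ' v = P.real (cyl E ξ') * ∏ v ∈ V, vwt c ξ v := by
  have h1 := (hT E ξ).mul_const (∏ v ∈ V, vwt c ξ' v)
  have h2 := (hT E ξ').mul_const (∏ v ∈ V, vwt c ξ v)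
  refine tendsto_nhds_unique h1 (h2.congr' ?_)
  filter_upwards [eventually_ge_atTop (((2 * K).toNat, (2 * K).toNat) : ℕ × ℕ)] with n hn
  have hn1 : (2 * K).toNat ≤ n.1 := hn.1
  have hn2 : (2 * K).toNat ≤ n.2 := hn.2
  have a1 : 2 * K < ((n.1 + 1 : ℕ) : ℤ) := by omega
  have a2 : 2 * K < ((n.2 + 1 : ℕ) : ℤ) := by omega
  rw [div_mul_eq_mul_div, div_mul_eq_mul_div,
    torus_swap c (pr_inj a1 a2 hE) (prV_inj a1 a2 hV) hin hout]

end Vale.Agent.P145.FP
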