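import Vale.Agent.P145.FP.Defs
import Vale.Agent.P145.FP.Torus
import Vale.Agent.P152.Bdl.B4

/-!
Spins and arrows: the height representation on `ℤ²` is the six-vertex model on the rotated lattice.
-/

namespace Vale.Agent.P145.FP

open Finset Filter Topology MeasureTheory
open Vale.Agent.P152 (Edge Ori Ice sgb pth pth_isHeight)

/-- The face of the rotated lattice corresponding to a site. -/
def fc : Site → ℤ × ℤ
  | Sum.inl v => (v.1 - v.2, v.1 + v.2)
  | Sum.inr f => (f.1 - f.2, f.1 + f.2 + 1)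

/-- The site corresponding to a face of the rotated lattice. -/
def cf (q : ℤ × ℤ) : Site :=
  if (q.1 + q.2) % 2 = 0 then Sum.inl ((q.1 + q.2) / 2, (q.2 - q.1) / 2)
  else Sum.inr ((q.1 + q.2 - 1) / 2, (q.2 - q.1 - 1) / 2)

lemma cf_fc (x : Site) : cf (fc x) = x := by
  rcases x with ⟨i, j⟩ | ⟨i, j⟩
  · unfold cf fc
    simp only
    rw [if_pos (by omega)]
    congr 2 <;> omega
  · unfold cf fc
    simp only
    rw [if_neg (by omega)]
    congr 2 <;> omega

lemma fc_cf (q : ℤ × ℤ) : fc (cf q) = q := by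
  unfold cf
  split_ifs with h
  · unfold fc
    refine Prod.ext ?_ ?_ <;> simp only <;> omega
  · unfold fc
    refine Prod.ext ?_ ?_ <;> simp only <;> omega

/-- The arrows of a spin configuration. -/
def arr (σ : Conf) : Ori (ℤ × ℤ)
  | Sum.inl v => xor (xor (σ (cf v)) (σ (cf (v.1, v.2 - 1)))) (decide (¬ (v.1 + v.2) % 2 = 0))
  | Sum.inr v => xor (xor (σ (cf v)) (σ (cf (v.1 - 1, v.2)))) (decide ((v.1 + v.2) % 2 = 0))

lemma arr_inl (σ : Conf) (v : ℤ × ℤ) : arr σ (Sum.inl v) =
    xor (xor (σ (cf v)) (σ (cf (v.1, v.2 - 1)))) (decide (¬ (v.1 + v.2) % 2 = 0)) := by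
  simp only [arr]

lemma arr_inr (σ : Conf) (v : ℤ × ℤ) : arr σ (Sum.inr v) =
    xor (xor (σ (cf v)) (σ (cf (v.1 - 1, v.2)))) (decide ((v.1 + v.2) % 2 = 0)) := by
  simp only [arr]

/-- Total spin flip. -/
def flip (σ : Conf) : Conf := fun x => !(σ x)

lemma arr_flip (σ : Conf) : arr (flip σ) = arr σ := by
  funext e
  rcases e with v | v
  · rw [arr_inl, arr_inl]; simp [flip]
  · rw [arr_inr, arr_inr]; simp [flip]

/-- The spin of a height. -/
def sgn2 (h : ℤ) : Bool := decide (h / 2 % 2 = 0)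

/-- The spin configuration of an arrow configuration. -/
noncomputable def Psi (ω : Ori (ℤ × ℤ)) : Conf := fun x => sgn2 (pth ω (fc x))

lemma plane_ind {p : ℤ × ℤ → Prop} (h0 : p 0) (hv : ∀ x y, p (x, y) ↔ p (x, y - 1))
    (hh : ∀ x y, p (x - 1, y) ↔ p (x, y)) (q : ℤ × ℤ) : p q := by
  obtain ⟨x, y⟩ := q
  have h1 : ∀ y, p (0, y) := by
    intro y
    induction y using Int.induction_on with
    | zero => exact h0
    | succ i ih => rw [hv]; rw [add_sub_cancel_right]; exact ih
    | pred i ih => rw [← hv]; exact ih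
  induction x using Int.induction_on with
  | zero => exact h1 y
  | succ i ih => rw [← hh]; rw [add_sub_cancel_right]; exact ih
  | pred i ih => rw [hh]; exact ih

lemma sgb_cases (b : Bool) : sgb b = 1 ∨ sgb b = -1 := by cases b <;> simp [sgb]

lemma isHeight_pth {ω : Ori (ℤ × ℤ)} (h : ∀ x y, Ice ω x y) (x y : ℤ) :
    pth ω (x, y) - pth ω (x, y - 1) = sgb (ω (Sum.inl (x, y))) ∧
    pth ω (x - 1, y) - pth ω (x, y) = sgb (ω (Sum.inr (x, y))) := pth_isHeight h x y

lemma pth_parity {ω : Ori (ℤ × ℤ)} (h : ∀ x y, Ice ω x y) (q : ℤ × ℤ) :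
    (pth ω q - (q.1 + q.2)) % 2 = 0 := by
  refine plane_ind (p := fun q => (pth ω q - (q.1 + q.2)) % 2 = 0) ?_ ?_ ?_ q
  · show (pth ω 0 - (0 + 0)) % 2 = 0
    rw [P152.pth_zero]; rfl
  · intro x y
    have h1 := (isHeight_pth h x y).1
    rcases sgb_cases (ω (Sum.inl (x, y))) with h2 | h2 <;> rw [h2] at h1 <;> simp only <;> omega
  · intro x y
    have h1 := (isHeight_pth h x y).2
    rcases sgb_cases (ω (Sum.inr (x, y))) with h2 | h2 <;> rw [h2] at h1 <;> simp only <;> omega

lemma arr_Psi {ω : Ori (ℤ × ℤ)} (h : ∀ x y, Ice ω x y) : arr (Psi ω) = ω := by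
  funext e
  rcases e with ⟨x, y⟩ | ⟨x, y⟩
  · have h1 := (isHeight_pth h x y).1
    have h2 := pth_parity h (x, y)
    simp only at h2
    rw [arr_inl]
    unfold Psi
    simp only [fc_cf]
    unfold sgn2
    generalize pth ω (x, y) = a at *
    generalize pth ω (x, y - 1) = b at *
    cases hω : ω (Sum.inl (x, y))
    · rw [hω] at h1
      simp only [sgb, Bool.false_eq_true, if_false] at h1
      by_cases hp : (x + y) % 2 = 0
      · have e1 : (a / 2 % 2 = 0) ↔ (b / 2 % 2 = 0) := by omega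
        simp [hp, e1]
      · have e1 : (a / 2 % 2 = 0) ↔ ¬ (b / 2 % 2 = 0) := by omega
        simp [hp, e1]
        omega
    · rw [hω] at h1
      simp only [sgb, if_true] at h1
      by_cases hp : (x + y) % 2 = 0
      · have e1 : (a / 2 % 2 = 0) ↔ ¬ (b / 2 % 2 = 0) := by omega
        simp [hp, e1]
        omega
      · have e1 : (a / 2 % 2 = 0) ↔ (b / 2 % 2 = 0) := by omega
        simp [hp, e1]
  · have h1 := (isHeight_pth h x y).2
    have h2 := pth_parity h (x, y)
    simp only at h2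
    rw [arr_inr]
    unfold Psi
    simp only [fc_cf]
    unfold sgn2
    generalize pth ω (x, y) = a at *
    generalize pth ω (x - 1, y) = b at *
    cases hω : ω (Sum.inr (x, y))
    · rw [hω] at h1
      simp only [sgb, Bool.false_eq_true, if_false] at h1
      by_cases hp : (x + y) % 2 = 0
      · have e1 : (a / 2 % 2 = 0) ↔ ¬ (b / 2 % 2 = 0) := by omega
        simp [hp, e1]
        omega
      · have e1 : (a / 2 % 2 = 0) ↔ (b / 2 % 2 = 0) := by omega
        simp [hp, e1]
    · rw [hω] at h1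
      simp only [sgb, if_true] at h1
      by_cases hp : (x + y) % 2 = 0
      · have e1 : (a / 2 % 2 = 0) ↔ (b / 2 % 2 = 0) := by omega
        simp [hp, e1]
      · have e1 : (a / 2 % 2 = 0) ↔ ¬ (b / 2 % 2 = 0) := by omega
        simp [hp, e1]
        omega

/-- The diamond. -/
def inD (n : ℤ) (q : ℤ × ℤ) : Prop :=
  (-n ≤ q.1 + q.2 ∧ q.1 + q.2 ≤ n) ∧ (-n ≤ q.1 - q.2 ∧ q.1 - q.2 ≤ n)

instance (n : ℤ) (q : ℤ × ℤ) : Decidable (inD n q) := by unfold inD; infer_instance

/-- The arrows between two faces of the diamond. -/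
noncomputable def ED (n : ℤ) : Finset (Edge (ℤ × ℤ)) :=
  ((Icc (-n) n ×ˢ Icc (-n) n).filter (fun v => inD n v ∧ inD n (v.1, v.2 - 1))).disjSum
    ((Icc (-n) n ×ˢ Icc (-n) n).filter (fun v => inD n v ∧ inD n (v.1 - 1, v.2)))

/-- The vertices surrounded by four faces of the diamond. -/
noncomputable def VD (n : ℤ) : Finset (ℤ × ℤ) :=
  (Icc (-n) n ×ˢ Icc (-n) n).filter (fun v => inD n v ∧ inD n (v.1, v.2 - 1) ∧
    inD n (v.1 - 1, v.2) ∧ inD n (v.1 - 1, v.2 - 1))

lemma mem_ED_inl {n : ℤ} {v : ℤ × ℤ} :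
    (Sum.inl v : Edge (ℤ × ℤ)) ∈ ED n ↔ inD n v ∧ inD n (v.1, v.2 - 1) := by
  unfold ED
  rw [Finset.inl_mem_disjSum, Finset.mem_filter, Finset.mem_product, Finset.mem_Icc,
    Finset.mem_Icc]
  constructor
  · exact fun h => h.2
  · intro h
    refine ⟨?_, h⟩
    have := h.1
    unfold inD at this
    omega

lemma mem_ED_inr {n : ℤ} {v : ℤ × ℤ} :
    (Sum.inr v : Edge (ℤ × ℤ)) ∈ ED n ↔ inD n v ∧ inD n (v.1 - 1, v.2) := by
  unfold ED
  rw [Finset.inr_mem_disjSum, Finset.mem_filter, Finset.mem_product, Finset.mem_Icc,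
    Finset.mem_Icc]
  constructor
  · exact fun h => h.2
  · intro h
    refine ⟨?_, h⟩
    have := h.1
    unfold inD at this
    omega

lemma mem_VD {n : ℤ} {v : ℤ × ℤ} : v ∈ VD n ↔ inD n v ∧ inD n (v.1, v.2 - 1) ∧
    inD n (v.1 - 1, v.2) ∧ inD n (v.1 - 1, v.2 - 1) := by
  unfold VD
  rw [Finset.mem_filter, Finset.mem_product, Finset.mem_Icc, Finset.mem_Icc]
  constructor
  · exact fun h => h.2
  · intro h
    refine ⟨?_, h⟩
    have := h.1
    unfold inD at this
    omega

lemma mem_B {n : ℕ} {x : Site} : x ∈ B n ↔ inD (2 * n) (fc x) := by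
  unfold B
  rcases x with ⟨i, j⟩ | ⟨i, j⟩
  · rw [Finset.inl_mem_disjSum, Finset.mem_product, Finset.mem_Icc, Finset.mem_Icc]
    unfold inD fc
    simp only
    omega
  · rw [Finset.inr_mem_disjSum, Finset.mem_product, Finset.mem_Icc, Finset.mem_Icc]
    unfold inD fc
    simp only
    omega

lemma cf_mem_B {n : ℕ} {q : ℤ × ℤ} (h : inD (2 * n) q) : cf q ∈ B n := by
  rw [mem_B, fc_cf]; exact h

/-- Spins in a diamond are determined by the arrows and the spin at the origin. -/
lemma conn {σ ρ : Conf} {n : ℕ} (h0 : σ (cf 0) = ρ (cf 0)) (h : ∀ e ∈ ED n, arr σ e = arr ρ e) :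
    ∀ q, inD n q → σ (cf q) = ρ (cf q) := by
  have key : ∀ k : ℕ, ∀ q : ℤ × ℤ, q.1.natAbs + q.2.natAbs = k → inD n q →
      σ (cf q) = ρ (cf q) := by
    intro k
    induction k with
    | zero =>
      intro q hq _
      have : q = 0 := by
        refine Prod.ext ?_ ?_
        · show q.1 = 0; omega
        · show q.2 = 0; omega
      rw [this]; exact h0
    | succ k ih =>
      intro q hq hD
      obtain ⟨x, y⟩ := q
      simp only at hq
      have xor_inj : ∀ a a' b b' d : Bool, xor (xor a b) d = xor (xor a' b') d → b = b' →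
          a = a' := by decide
      have xor_inj' : ∀ a a' b b' d : Bool, xor (xor b a) d = xor (xor b' a') d → b = b' →
          a = a' := by decide
      unfold inD at hD
      simp only at hD
      by_cases hy : 0 < y
      · have h1 := ih (x, y - 1) (by simp only; omega) (by unfold inD; simp only; omega)
        have h2 := h (Sum.inl (x, y)) (mem_ED_inl.2 ⟨by unfold inD; simp only; omega,
          by unfold inD; simp only; omega⟩)
        rw [arr_inl, arr_inl] at h2
        exact xor_inj _ _ _ _ _ h2 h1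
      · by_cases hy' : y < 0
        · have h1 := ih (x, y + 1) (by simp only; omega) (by unfold inD; simp only; omega)
          have h2 := h (Sum.inl (x, y + 1)) (mem_ED_inl.2 ⟨by unfold inD; simp only; omega,
            by unfold inD; simp only; omega⟩)
          rw [arr_inl, arr_inl] at h2
          simp only [add_sub_cancel_right] at h2
          exact xor_inj' _ _ _ _ _ h2 h1
        · by_cases hx : 0 < x
          · have h1 := ih (x - 1, y) (by simp only; omega) (by unfold inD; simp only; omega)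
            have h2 := h (Sum.inr (x, y)) (mem_ED_inr.2 ⟨by unfold inD; simp only; omega,
              by unfold inD; simp only; omega⟩)
            rw [arr_inr, arr_inr] at h2
            exact xor_inj _ _ _ _ _ h2 h1
          · have h1 := ih (x + 1, y) (by simp only; omega) (by unfold inD; simp only; omega)
            have h2 := h (Sum.inr (x + 1, y)) (mem_ED_inr.2 ⟨by unfold inD; simp only; omega,
              by unfold inD; simp only; omega⟩)
            rw [arr_inr, arr_inr] at h2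
            simp only [add_sub_cancel_right] at h2
            exact xor_inj' _ _ _ _ _ h2 h1
  exact fun q hq => key _ q rfl hq

/-- If two configurations agree on the square then their arrows agree. -/
lemma arr_congr {σ ρ : Conf} {n : ℕ} (h : ∀ x ∈ B n, σ x = ρ x) :
    ∀ e ∈ ED (2 * n), arr σ e = arr ρ e := by
  intro e he
  rcases e with v | v
  · rw [mem_ED_inl] at he
    rw [arr_inl, arr_inl, h _ (cf_mem_B he.1), h _ (cf_mem_B he.2)]
  · rw [mem_ED_inr] at he
    rw [arr_inr, arr_inr, h _ (cf_mem_B he.1), h _ (cf_mem_B he.2)]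

lemma cyl_iff {σ ρ : Conf} {n : ℕ} : ρ ∈ cyl (B n) σ ↔
    ρ (Sum.inl 0) = σ (Sum.inl 0) ∧ arr ρ ∈ P152.cyl (ED (2 * n)) (arr σ) := by
  have h0 : cf 0 = Sum.inl 0 := cf_fc (Sum.inl 0)
  constructor
  · intro h
    refine ⟨h _ ?_, arr_congr h⟩
    rw [mem_B]
    unfold inD fc
    simp
  · rintro ⟨h1, h2⟩ x hx
    rw [mem_B] at hx
    have := conn (σ := ρ) (ρ := σ) (n := 2 * n) (by rw [h0]; exact h1) (by
      intro e he
      exact h2 e (by push_cast at he; exact he)) (fc x) (by push_cast; exact hx)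
    rwa [cf_fc] at this

/-- Even vertices of the rotated lattice are horizontal edges. -/
lemma prod_VD (n : ℕ) (F : ℤ × ℤ → ℝ) : ∏ v ∈ VD (2 * n), F v =
    (∏ e ∈ Icc (-(n : ℤ)) (n - 1) ×ˢ Icc (-(n : ℤ) + 1) (n - 1), F (e.1 - e.2 + 1, e.1 + e.2 + 1)) *
    ∏ e ∈ Icc (-(n : ℤ) + 1) (n - 1) ×ˢ Icc (-(n : ℤ)) (n - 1), F (e.1 - e.2, e.1 + e.2 + 1) := by
  rw [← Finset.prod_filter_mul_prod_filter_not (VD (2 * n)) (fun v => (v.1 + v.2) % 2 = 0)]
  congr 1
  · symm
    refine Finset.prod_nbij' (fun e => (e.1 - e.2 + 1, e.1 + e.2 + 1))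
      (fun v => ((v.1 + v.2) / 2 - 1, (v.2 - v.1) / 2)) ?_ ?_ ?_ ?_ ?_
    · rintro ⟨i, j⟩ he
      rw [Finset.mem_product, Finset.mem_Icc, Finset.mem_Icc] at he
      rw [Finset.mem_filter, mem_VD]
      unfold inD
      simp only at he ⊢
      omega
    · rintro ⟨x, y⟩ he
      rw [Finset.mem_filter, mem_VD] at he
      rw [Finset.mem_product, Finset.mem_Icc, Finset.mem_Icc]
      unfold inD at he
      simp only at he ⊢
      omega
    · rintro ⟨i, j⟩ he
      refine Prod.ext ?_ ?_ <;> simp only <;> omega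
    · rintro ⟨x, y⟩ he
      rw [Finset.mem_filter] at he
      have := he.2
      simp only at this
      refine Prod.ext ?_ ?_ <;> simp only <;> omega
    · intro e _; rfl
  · symm
    refine Finset.prod_nbij' (fun e => (e.1 - e.2, e.1 + e.2 + 1))
      (fun v => ((v.1 + v.2 - 1) / 2, (v.2 - v.1 - 1) / 2)) ?_ ?_ ?_ ?_ ?_
    · rintro ⟨i, j⟩ he
      rw [Finset.mem_product, Finset.mem_Icc, Finset.mem_Icc] at he
      rw [Finset.mem_filter, mem_VD]
      unfold inD
      simp only at he ⊢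
      omega
    · rintro ⟨x, y⟩ he
      rw [Finset.mem_filter, mem_VD] at he
      rw [Finset.mem_product, Finset.mem_Icc, Finset.mem_Icc]
      unfold inD at he
      simp only at he ⊢
      omega
    · rintro ⟨i, j⟩ he
      refine Prod.ext ?_ ?_ <;> simp only <;> omega
    · rintro ⟨x, y⟩ he
      rw [Finset.mem_filter] at he
      have := he.2
      simp only at this
      refine Prod.ext ?_ ?_ <;> simp only <;> omega
    · intro e _; rfl

lemma loc_h (t : ℝ) (ht : t ≠ 0) (a b p q : Bool) :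
    t * P152.vw (1 / t) (xor (xor p a) true) (xor (xor b q) false) (xor (xor q a) false)
      (xor (xor b p) true) = ew t a b p q := by
  cases a <;> cases b <;> cases p <;> cases q <;> simp [P152.vw, ew, ht]

lemma loc_v (t : ℝ) (ht : t ≠ 0) (a b p q : Bool) :
    t * P152.vw (1 / t) (xor (xor b q) false) (xor (xor p a) true) (xor (xor a q) true)
      (xor (xor p b) false) = ew t a b p q := by
  cases a <;> cases b <;> cases p <;> cases q <;> simp [P152.vw, ew, ht]

lemma cf_l (i j : ℤ) : cf (i - j, i + j) = Sum.inl (i, j) := cf_fc (Sum.inl (i, j))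

lemma cf_r (i j : ℤ) : cf (i - j, i + j + 1) = Sum.inr (i, j) := cf_fc (Sum.inr (i, j))

lemma hw_eq (t : ℝ) (ht : t ≠ 0) (σ : Conf) (e : ℤ × ℤ) :
    hw t σ e = t * vwt (1 / t) (arr σ) (e.1 - e.2 + 1, e.1 + e.2 + 1) := by
  obtain ⟨i, j⟩ := e
  unfold hw vwt
  rw [arr_inl, arr_inl, arr_inr, arr_inr]
  simp only [add_sub_cancel_right]
  have e1 : cf (i - j + 1, i + j + 1) = Sum.inl (i + 1, j) := by
    rw [← cf_l]; congr 2 <;> ring
  have e2 : cf (i - j + 1, i + j) = Sum.inr (i, j - 1) := by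
    rw [← cf_r]; congr 2 <;> ring
  rw [e1, e2, cf_l, cf_r]
  have p1 : ¬ (i - j + (i + j + 1)) % 2 = 0 := by omega
  have p2 : (i - j + 1 + (i + j + 1)) % 2 = 0 := by omega
  have p3 : ¬ (i - j + 1 + (i + j)) % 2 = 0 := by omega
  rw [decide_eq_true p1, decide_eq_true p2, decide_eq_false p3,
    decide_eq_false (not_not.2 p2)]
  exact (loc_h t ht _ _ _ _).symm

lemma vw_eq (t : ℝ) (ht : t ≠ 0) (σ : Conf) (e : ℤ × ℤ) :
    vw t σ e = t * vwt (1 / t) (arr σ) (e.1 - e.2, e.1 + e.2 + 1) := by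
  obtain ⟨i, j⟩ := e
  unfold vw vwt
  rw [arr_inl, arr_inl, arr_inr, arr_inr]
  simp only [add_sub_cancel_right]
  have e1 : cf (i - j - 1, i + j + 1) = Sum.inl (i, j + 1) := by
    rw [← cf_l]; congr 2 <;> ring
  have e2 : cf (i - j - 1, i + j) = Sum.inr (i - 1, j) := by
    rw [← cf_r]; congr 2 <;> ring
  rw [e1, e2, cf_l, cf_r]
  have p1 : (i - j - 1 + (i + j + 1)) % 2 = 0 := by omega
  have p2 : ¬ (i - j + (i + j + 1)) % 2 = 0 := by omega
  have p3 : (i - j + (i + j)) % 2 = 0 := by omega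
  rw [decide_eq_true p2, decide_eq_false p2, decide_eq_true p3,
    decide_eq_false (not_not.2 p1)]
  exact (loc_v t ht _ _ _ _).symm

lemma W_eq (t : ℝ) (ht : t ≠ 0) (n : ℕ) (σ : Conf) :
    W t n σ = t ^ (VD (2 * n)).card * ∏ v ∈ VD (2 * n), vwt (1 / t) (arr σ) v := by
  have h : t ^ (VD (2 * n)).card * ∏ v ∈ VD (2 * n), vwt (1 / t) (arr σ) v =
      ∏ v ∈ VD (2 * n), (t * vwt (1 / t) (arr σ) v) := by
    rw [Finset.prod_mul_distrib, Finset.prod_const]
  rw [h, prod_VD]
  unfold W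
  congr 1
  · exact Finset.prod_congr rfl (fun e _ => hw_eq t ht σ e)
  · exact Finset.prod_congr rfl (fun e _ => vw_eq t ht σ e)

end Vale.Agent.P145.FP
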