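import Vale.Agent.P145.FP.Clt
import Mathlib.MeasureTheory.Constructions.Cylinders

/-!
A measure on the arrows is determined by its cylinder probabilities; the properties `Hyp` from the
theorems on the six-vertex model.
-/

namespace Vale.Agent.P145.FP

open Finset Filter Topology MeasureTheory ProbabilityTheory
open Vale.Agent.P152 (Edge Ori Ice sgb pth pth_isHeight sqp sqp_integrable pth_integrable ext'
  local_sum IsLimit)
open Vale.Agent.P152.GFF.S (ar)

lemma int_local_sum {R : Measure (Ori (ℤ × ℤ))} [IsProbabilityMeasure R]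
    (Λ : Finset (Edge (ℤ × ℤ))) {f : Ori (ℤ × ℤ) → ℝ}
    (hf : ∀ ω ω', (∀ e ∈ Λ, ω e = ω' e) → f ω = f ω') : ∫ ω, f ω ∂R =
      ∑ η : Λ → Bool, f (ext' Λ η) * R.real (P152.cyl Λ (ext' Λ η)) := by
  have hfe : f = fun ω => ∑ η : Λ → Bool, f (ext' Λ η) * (P152.cyl Λ (ext' Λ η)).indicator 1 ω :=
    funext (local_sum Λ hf)
  rw [hfe]
  rw [integral_finsetSum]
  · refine Finset.sum_congr rfl (fun η _ => ?_)
    rw [integral_const_mul, integral_indicator_one (P152.measurableSet_cyl _ _)]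
    simp only
    rw [← local_sum Λ hf]
  · intro η _
    refine Integrable.const_mul ?_ _
    exact (integrable_const (1 : ℝ)).indicator (P152.measurableSet_cyl _ _)

lemma int_local_eq {P P' : Measure (Ori (ℤ × ℤ))} [IsProbabilityMeasure P]
    [IsProbabilityMeasure P'] (h : ∀ Λ ξ, P.real (P152.cyl Λ ξ) = P'.real (P152.cyl Λ ξ))
    (Λ : Finset (Edge (ℤ × ℤ))) {f : Ori (ℤ × ℤ) → ℝ}
    (hf : ∀ ω ω', (∀ e ∈ Λ, ω e = ω' e) → f ω = f ω') : ∫ ω, f ω ∂P = ∫ ω, f ω ∂P' := by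
  rw [int_local_sum Λ hf, int_local_sum Λ hf]
  exact Finset.sum_congr rfl (fun η _ => by rw [h])

theorem meas_ext {P P' : Measure (Ori (ℤ × ℤ))} [IsProbabilityMeasure P]
    [IsProbabilityMeasure P'] (h : ∀ Λ ξ, P.real (P152.cyl Λ ξ) = P'.real (P152.cyl Λ ξ)) :
    P = P' := by
  refine ext_of_generate_finite (measurableCylinders (fun _ : Edge (ℤ × ℤ) => Bool))
    generateFrom_measurableCylinders.symm isPiSystem_measurableCylinders (fun A hA => ?_)
    (by rw [measure_univ, measure_univ])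
  have hmA : MeasurableSet A := MeasurableSet.of_mem_measurableCylinders hA
  obtain ⟨s, S, hS, rfl⟩ := (mem_measurableCylinders A).1 hA
  have h1 := int_local_eq h s (f := (cylinder s S).indicator (fun _ => (1 : ℝ))) (by
    intro ω ω' hω
    have : (ω ∈ cylinder s S) ↔ (ω' ∈ cylinder s S) := by
      rw [mem_cylinder, mem_cylinder]
      have e : s.restrict ω = s.restrict ω' := by
        funext i
        exact hω i.1 i.2
      rw [e]
    by_cases h2 : ω ∈ cylinder s S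
    · rw [Set.indicator_of_mem h2, Set.indicator_of_mem (this.1 h2)]
    · rw [Set.indicator_of_notMem h2, Set.indicator_of_notMem (fun h3 => h2 (this.2 h3))])
  have e1 : ∀ R : Measure (Ori (ℤ × ℤ)), ∫ ω, (cylinder s S).indicator (fun _ => (1 : ℝ)) ω ∂R =
      R.real (cylinder s S) := fun R => integral_indicator_one hmA
  rw [e1, e1] at h1
  unfold Measure.real at h1
  exact (ENNReal.toReal_eq_toReal_iff' (measure_ne_top _ _) (measure_ne_top _ _)).1 h1

/-- The limit measure of the six-vertex model is unique. -/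
theorem limit_unique {c : ℝ} {P P' : Measure (Ori (ℤ × ℤ))} [IsProbabilityMeasure P]
    [IsProbabilityMeasure P'] (h : IsLimit c P) (h' : IsLimit c P') : P = P' := by
  obtain ⟨Q, h1, h2⟩ := h
  obtain ⟨Q', h1', h2'⟩ := h'
  have hQ : Q = Q' := by
    funext l Λ ξ
    exact tendsto_nhds_unique (h1 l Λ ξ) (h1' l Λ ξ)
  subst hQ
  exact meas_ext (fun Λ ξ => tendsto_nhds_unique (h2 Λ ξ) (h2' Λ ξ))

section

variable {P : Measure (Ori (ℤ × ℤ))} [IsProbabilityMeasure P]

lemma half_prob (hrev : P.map (fun ω e => !(ω e)) = P) (e : Edge (ℤ × ℤ)) :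
    P.real {ω : Ori (ℤ × ℤ) | ω e = true} = 1 / 2 := by
  have hm : ∀ b : Bool, MeasurableSet {ω : Ori (ℤ × ℤ) | ω e = b} := fun b => by
    have h : Measurable (fun ω : Ori (ℤ × ℤ) => ω e) := measurable_pi_apply e
    exact h (measurableSet_singleton b)
  have h1 : P {ω : Ori (ℤ × ℤ) | ω e = true} = P {ω : Ori (ℤ × ℤ) | ω e = false} := by
    conv_lhs => rw [← hrev]
    rw [Measure.map_apply rev_meas (hm true)]
    congr 1
    ext ω
    simp
  have h2 : P.real {ω : Ori (ℤ × ℤ) | ω e = true} = P.real {ω : Ori (ℤ × ℤ) | ω e = false} := by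
    unfold Measure.real
    rw [h1]
  have h3 : {ω : Ori (ℤ × ℤ) | ω e = false} = {ω : Ori (ℤ × ℤ) | ω e = true}ᶜ := by
    ext ω
    simp
  have h4 := probReal_compl_eq_one_sub (μ := P) (hm true)
  rw [h3, h4] at h2
  linarith

lemma ar_ind (ω : Ori (ℤ × ℤ)) (e : Edge (ℤ × ℤ)) :
    ar ω e = 2 * ({ω : Ori (ℤ × ℤ) | ω e = true}.indicator (fun _ => (1 : ℝ)) ω) - 1 := by
  by_cases h : ω e = true
  · rw [Set.indicator_of_mem (show ω ∈ {ω : Ori (ℤ × ℤ) | ω e = true} from h)]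
    unfold ar sgb
    rw [h]
    norm_num
  · rw [Set.indicator_of_notMem (show ω ∉ {ω : Ori (ℤ × ℤ) | ω e = true} from h)]
    unfold ar sgb
    rw [if_neg h]
    norm_num

lemma corr_eq (hrev : P.map (fun ω e => !(ω e)) = P) (e e' : Edge (ℤ × ℤ)) :
    ∫ ω, ar ω e * ar ω e' ∂P =
      4 * P.real ({ω : Ori (ℤ × ℤ) | ω e = true} ∩ {ω : Ori (ℤ × ℤ) | ω e' = true}) - 1 := by
  have hm : ∀ e : Edge (ℤ × ℤ), MeasurableSet {ω : Ori (ℤ × ℤ) | ω e = true} := fun e => by
    have h : Measurable (fun ω : Ori (ℤ × ℤ) => ω e) := measurable_pi_apply e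
    exact h (measurableSet_singleton true)
  have i1 : ∀ A : Set (Ori (ℤ × ℤ)), MeasurableSet A →
      Integrable (A.indicator (fun _ => (1 : ℝ))) P := fun A hA =>
    (integrable_const (1 : ℝ)).indicator hA
  have e0 : ∀ ω : Ori (ℤ × ℤ), ar ω e * ar ω e' =
      4 * ({ω : Ori (ℤ × ℤ) | ω e = true} ∩ {ω : Ori (ℤ × ℤ) | ω e' = true}).indicator
        (fun _ => (1 : ℝ)) ω -
      2 * ({ω : Ori (ℤ × ℤ) | ω e = true}.indicator (fun _ => (1 : ℝ)) ω) -
      2 * ({ω : Ori (ℤ × ℤ) | ω e' = true}.indicator (fun _ => (1 : ℝ)) ω) + 1 := by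
    intro ω
    rw [ar_ind, ar_ind]
    by_cases h : ω e = true <;> by_cases h' : ω e' = true <;>
      simp only [Set.indicator, Set.mem_inter_iff, Set.mem_ofPred_eq, h, h'] <;> norm_num
  have i2 := (i1 _ ((hm e).inter (hm e'))).const_mul 4
  have i3 := (i1 _ (hm e)).const_mul 2
  have i4 := (i1 _ (hm e')).const_mul 2
  have i5 : Integrable (fun ω => 4 * ({ω : Ori (ℤ × ℤ) | ω e = true} ∩
      {ω : Ori (ℤ × ℤ) | ω e' = true}).indicator (fun _ => (1 : ℝ)) ω -
      2 * ({ω : Ori (ℤ × ℤ) | ω e = true}.indicator (fun _ => (1 : ℝ)) ω)) P := i2.sub i3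
  have i6 : Integrable (fun ω => 4 * ({ω : Ori (ℤ × ℤ) | ω e = true} ∩
      {ω : Ori (ℤ × ℤ) | ω e' = true}).indicator (fun _ => (1 : ℝ)) ω -
      2 * ({ω : Ori (ℤ × ℤ) | ω e = true}.indicator (fun _ => (1 : ℝ)) ω) -
      2 * ({ω : Ori (ℤ × ℤ) | ω e' = true}.indicator (fun _ => (1 : ℝ)) ω)) P := i5.sub i4
  have e1 : ∀ A : Set (Ori (ℤ × ℤ)), MeasurableSet A →
      ∫ ω, A.indicator (fun _ => (1 : ℝ)) ω ∂P = P.real A := fun A hA => integral_indicator_one hA
  simp only [e0]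
  rw [integral_add i6 (integrable_const 1), integral_sub i5 i4,
    integral_sub i2 i3, integral_const_mul, integral_const_mul, integral_const_mul,
    e1 _ ((hm e).inter (hm e')), e1 _ (hm e), e1 _ (hm e'), half_prob hrev, half_prob hrev]
  simp

/-- The properties used for the spin model, from those of the six-vertex limit measure. -/
theorem hyp_of {c : ℝ} (hlim : IsLimit c P)
    (htra : ∀ a : ℤ × ℤ, P.map (fun ω e => ω (Sum.map (· + a) (· + a) e)) = P)
    (hrev : P.map (fun ω e => !(ω e)) = P)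
    (hmix : ∀ (Λ Λ' : Finset (Edge (ℤ × ℤ))) (ξ ξ' : Ori (ℤ × ℤ)), Tendsto (fun a : ℤ × ℤ =>
        P.real (P152.cyl Λ ξ ∩ {ω | (fun e => ω (Sum.map (· + a) (· + a) e)) ∈ P152.cyl Λ' ξ'}))
          cofinite (𝓝 (P.real (P152.cyl Λ ξ) * P.real (P152.cyl Λ' ξ'))))
    (hht : ∀ᵐ ω ∂P, ∃ h, P152.IsHeight ω h) {C : ℝ}
    (hvar : ∀ h : Ori (ℤ × ℤ) → ℤ × ℤ → ℤ, (∀ᵐ ω ∂P, P152.IsHeight ω (h ω)) →
          ∀ x y : ℤ × ℤ, x ≠ y →
            ProbabilityTheory.variance (fun ω => ((h ω x - h ω y : ℤ) : ℝ)) P ≤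
              C * (1 + Real.log (|x.1 - y.1| + |x.2 - y.2| : ℤ))) : Hyp P := by
  have hice : ∀ᵐ ω ∂P, ∀ x y, Ice ω x y := by
    filter_upwards [hht] with ω hω
    obtain ⟨h, hh⟩ := hω
    exact ice_of_height hh
  have hpth : ∀ᵐ ω ∂P, P152.IsHeight ω (pth ω) := by
    filter_upwards [hice] with ω hω
    exact pth_isHeight hω
  refine ⟨hice, ?_, htra, ?_⟩
  · have h := hmix {Sum.inl 0} {Sum.inl 0} (fun _ => true) (fun _ => true)
    have e1 : P152.cyl {Sum.inl 0} (fun _ => true) = {ω : Ori (ℤ × ℤ) | ω (Sum.inl 0) = true} := by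
      ext ω
      simp [P152.cyl]
    rw [e1, half_prob hrev] at h
    have h2 := (h.const_mul 4).sub_const 1
    have e2 : (4 : ℝ) * (1 / 2 * (1 / 2)) - 1 = 0 := by norm_num
    rw [e2] at h2
    refine h2.congr (fun a => ?_)
    rw [corr_eq hrev]
    congr 3
    ext ω
    simp
  · refine ⟨max C 0, le_max_right _ _, fun q hq => ?_⟩
    have h1 := hvar (fun ω => pth ω) hpth q 0 hq
    have h2 := P152.var_height (c := c) ⟨id, strictMono_id, hlim⟩ (fun ω => pth ω) hpth q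
    rw [h2] at h1
    simp only [Prod.fst_zero, Prod.snd_zero, sub_zero] at h1
    refine h1.trans (mul_le_mul_of_nonneg_right (le_max_left _ _) ?_)
    have h5 : (1 : ℤ) ≤ |q.1| + |q.2| := by
      by_contra hcon
      have h6 := abs_nonneg q.1
      have h7 := abs_nonneg q.2
      have h8 : |q.1| = 0 := by omega
      have h9 : |q.2| = 0 := by omega
      exact hq (Prod.ext (abs_eq_zero.1 h8) (abs_eq_zero.1 h9))
    have h6 : (1 : ℝ) ≤ ((|q.1| + |q.2| : ℤ) : ℝ) := by exact_mod_cast h5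
    linarith [Real.log_nonneg h6]

end

end Vale.Agent.P145.FP
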