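import Vale.Agent.P145.FP.Spin

/-!
The infinite-volume measure on spins and its invariance and Gibbs properties.
-/

namespace Vale.Agent.P145.FP

open Finset Filter Topology MeasureTheory
open Vale.Agent.P152 (Edge Ori Ice sgb pth pth_isHeight)

lemma ice_of_height {ω : Ori (ℤ × ℤ)} {h : ℤ × ℤ → ℤ} (hh : P152.IsHeight ω h) :
    ∀ x y, Ice ω x y := by
  intro x y
  have h1 := (hh x y).1
  have h2 := (hh x y).2
  have h3 := (hh (x - 1) y).1
  have h4 := (hh x (y - 1)).2
  unfold Ice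
  cases a : ω (Sum.inl (x, y)) <;> cases b : ω (Sum.inr (x, y)) <;>
    cases c : ω (Sum.inl (x - 1, y)) <;> cases d : ω (Sum.inr (x, y - 1)) <;>
    rw [a] at h1 <;> rw [b] at h2 <;> rw [c] at h3 <;> rw [d] at h4 <;>
    simp only [Bool.toNat_true, Bool.toNat_false, Bool.false_eq_true, if_true, if_false]
      at h1 h2 h3 h4 ⊢ <;> omega

/-- Local functions with values in `Bool` are measurable. -/
lemma meas_local (Λ : Finset (Edge (ℤ × ℤ))) {f : Ori (ℤ × ℤ) → Bool}
    (hf : ∀ ω ω', (∀ e ∈ Λ, ω e = ω' e) → f ω = f ω') : Measurable f := by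
  refine measurable_to_bool ?_
  have h := P152.local_measurable Λ (f := fun ω => if f ω = true then (1 : ℝ) else 0) (by
    intro ω ω' hω
    rw [hf ω ω' hω])
  have e : f ⁻¹' {true} = (fun ω => if f ω = true then (1 : ℝ) else 0) ⁻¹' {1} := by
    ext ω
    simp only [Set.mem_preimage, Set.mem_singleton_iff]
    by_cases hω : f ω = true <;> simp [hω]
  rw [e]
  exact h (measurableSet_singleton _)

lemma Psi_meas : Measurable Psi := by
  rw [measurable_pi_iff]
  intro x
  have h1 : |(fc x).1| ≤ ((max (fc x).1.natAbs (fc x).2.natAbs : ℕ) : ℤ) := by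
    rw [Int.abs_eq_natAbs]
    exact_mod_cast le_max_left _ _
  have h2 : |(fc x).2| ≤ ((max (fc x).1.natAbs (fc x).2.natAbs : ℕ) : ℤ) := by
    rw [Int.abs_eq_natAbs]
    exact_mod_cast le_max_right _ _
  refine meas_local (P152.box (max (fc x).1.natAbs (fc x).2.natAbs)) (fun ω ω' hω => ?_)
  unfold Psi
  rw [P152.pth_local h1 h2 ω ω' hω]

lemma meas_not : Measurable (fun b : Bool => !b) := measurable_of_countable _

lemma flip_meas : Measurable flip :=
  measurable_pi_iff.2 (fun x => meas_not.comp (measurable_pi_apply x))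

lemma flipV_meas : Measurable flipV := by
  rw [measurable_pi_iff]
  rintro (v | v)
  · exact meas_not.comp (measurable_pi_apply (Sum.inl v))
  · exact measurable_pi_apply (Sum.inr v)

lemma flipF_meas : Measurable flipF := by
  rw [measurable_pi_iff]
  rintro (v | v)
  · exact measurable_pi_apply (Sum.inl v)
  · exact meas_not.comp (measurable_pi_apply (Sum.inr v))

lemma tr_meas (a : ℤ × ℤ) : Measurable (tr a) :=
  measurable_pi_iff.2 (fun x => measurable_pi_apply (Sum.map (· + a) (· + a) x))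

lemma flip_flip (σ : Conf) : flip (flip σ) = σ := by
  funext x; simp [flip]

lemma flip_eq (σ : Conf) : flip σ = flipV (flipF σ) := by
  funext x
  rcases x with v | v <;> simp [flip, flipV, flipF]

lemma cylM (S : Finset Site) (σ : Conf) : MeasurableSet (cyl S σ) := by
  have : cyl S σ = ⋂ e ∈ S, (fun ω : Conf => ω e) ⁻¹' {σ e} := by
    ext ω; simp [cyl]
  rw [this]
  exact Finset.measurableSet_biInter S (fun e _ => measurable_pi_apply e (measurableSet_singleton _))

/-- The measure on spins. -/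
noncomputable def QQ (P : Measure (Ori (ℤ × ℤ))) : Measure Conf :=
  (2⁻¹ : ENNReal) • (P.map Psi + P.map (fun ω => flip (Psi ω)))

lemma QQ_apply (P : Measure (Ori (ℤ × ℤ))) {A : Set Conf} (hA : MeasurableSet A) :
    QQ P A = 2⁻¹ * ∫⁻ ω, (A.indicator 1 (Psi ω) + A.indicator 1 (flip (Psi ω))) ∂P := by
  unfold QQ
  have m1 : Measurable (fun ω => A.indicator (1 : Conf → ENNReal) (Psi ω)) :=
    (measurable_one.indicator hA).comp Psi_meas
  have m2 : Measurable (fun ω => flip (Psi ω)) := flip_meas.comp Psi_meas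
  rw [lintegral_add_left m1, Measure.smul_apply, Measure.add_apply,
    Measure.map_apply Psi_meas hA, Measure.map_apply m2 hA, smul_eq_mul]
  congr 2
  · have e : (fun ω => A.indicator (1 : Conf → ENNReal) (Psi ω)) = (Psi ⁻¹' A).indicator 1 := by
      funext ω; rfl
    rw [e, lintegral_indicator_one (Psi_meas hA)]
  · have e : (fun ω => A.indicator (1 : Conf → ENNReal) (flip (Psi ω))) =
        ((fun ω => flip (Psi ω)) ⁻¹' A).indicator 1 := by
      funext ω; rfl
    rw [e, lintegral_indicator_one (m2 hA)]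

lemma QQ_prob {P : Measure (Ori (ℤ × ℤ))} [IsProbabilityMeasure P] :
    IsProbabilityMeasure (QQ P) := by
  constructor
  rw [QQ_apply P MeasurableSet.univ]
  simp only [Set.indicator_univ, Pi.one_apply]
  rw [lintegral_const, measure_univ, mul_one]
  have : (1 : ENNReal) + 1 = 2 := by norm_num
  rw [this]
  exact ENNReal.inv_mul_cancel (by norm_num) (by norm_num)

lemma ae_QQ {P : Measure (Ori (ℤ × ℤ))} {p : Conf → Prop} (h : ∀ᵐ σ ∂(QQ P), p σ) :
    (∀ᵐ ω ∂P, p (Psi ω)) ∧ ∀ᵐ ω ∂P, p (flip (Psi ω)) := by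
  unfold QQ at h
  rw [Measure.ae_ennreal_smul_measure_iff (by norm_num), ae_add_measure_iff] at h
  exact ⟨ae_of_ae_map Psi_meas.aemeasurable h.1,
    ae_of_ae_map (flip_meas.comp Psi_meas).aemeasurable h.2⟩

lemma ae_QQ' {P : Measure (Ori (ℤ × ℤ))} {p : Conf → Prop} (hp : MeasurableSet {σ | p σ})
    (h1 : ∀ᵐ ω ∂P, p (Psi ω)) (h2 : ∀ᵐ ω ∂P, p (flip (Psi ω))) : ∀ᵐ σ ∂(QQ P), p σ := by
  unfold QQ
  rw [Measure.ae_ennreal_smul_measure_iff (by norm_num), ae_add_measure_iff]
  exact ⟨(ae_map_iff Psi_meas.aemeasurable hp).2 h1,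
    (ae_map_iff (flip_meas.comp Psi_meas).aemeasurable hp).2 h2⟩

section

variable {P : Measure (Ori (ℤ × ℤ))} [IsProbabilityMeasure P]

lemma Psi_zero (ω : Ori (ℤ × ℤ)) : Psi ω (Sum.inl 0) = true := by
  have : fc (Sum.inl 0) = 0 := by
    unfold fc
    rfl
  unfold Psi
  rw [this, P152.pth_zero]
  rfl

/-- Cylinder probabilities. -/
lemma QQ_cyl (hice : ∀ᵐ ω ∂P, ∀ x y, Ice ω x y) (n : ℕ) (σ : Conf) :
    (QQ P).real (cyl (B n) σ) = 2⁻¹ * P.real (P152.cyl (ED (2 * n)) (arr σ)) := by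
  unfold Measure.real
  rw [QQ_apply P (cylM _ _), ENNReal.toReal_mul]
  congr 1
  · simp
  congr 1
  have e : ∀ᵐ ω ∂P, (cyl (B n) σ).indicator (1 : Conf → ENNReal) (Psi ω) +
      (cyl (B n) σ).indicator (1 : Conf → ENNReal) (flip (Psi ω)) =
      (P152.cyl (ED (2 * n)) (arr σ)).indicator 1 ω := by
    filter_upwards [hice] with ω hω
    have h1 := cyl_iff (σ := σ) (ρ := Psi ω) (n := n)
    have h2 := cyl_iff (σ := σ) (ρ := flip (Psi ω)) (n := n)
    rw [arr_flip] at h2
    rw [arr_Psi hω] at h1 h2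
    rw [Psi_zero] at h1
    have h3 : flip (Psi ω) (Sum.inl 0) = false := by
      unfold flip
      rw [Psi_zero]
      rfl
    rw [h3] at h2
    by_cases hc : ω ∈ P152.cyl (ED (2 * n)) (arr σ)
    · rw [Set.indicator_of_mem hc]
      cases h0 : σ (Sum.inl 0)
      · rw [Set.indicator_of_notMem (fun h => by
          have := (h1.1 h).1
          rw [h0] at this
          exact Bool.noConfusion this), Set.indicator_of_mem (h2.2 ⟨h0.symm, hc⟩)]
        simp
      · rw [Set.indicator_of_mem (h1.2 ⟨h0.symm, hc⟩), Set.indicator_of_notMem (fun h => by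
          have := (h2.1 h).1
          rw [h0] at this
          exact Bool.noConfusion this)]
        simp
    · rw [Set.indicator_of_notMem hc, Set.indicator_of_notMem (fun h => hc (h1.1 h).2),
        Set.indicator_of_notMem (fun h => hc (h2.1 h).2), add_zero]
  rw [lintegral_congr_ae e, lintegral_indicator_one (P152.measurableSet_cyl _ _)]

/-- Gibbs property. -/
theorem QQ_gibbs {t : ℝ} (ht : t ≠ 0) (hice : ∀ᵐ ω ∂P, ∀ x y, Ice ω x y)
    (hT : ∀ Λ ξ, Tendsto (fun n : ℕ × ℕ =>
        (∑ ω : Ori (ZMod (n.1 + 1) × ZMod (n.2 + 1)),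
          P152.wt (1 / t) ω * (P152.cyl Λ ξ).indicator (fun _ => (1 : ℝ)) (P152.unroll ω)) /
        ∑ ω : Ori (ZMod (n.1 + 1) × ZMod (n.2 + 1)), P152.wt (1 / t) ω) atTop
          (𝓝 (P.real (P152.cyl Λ ξ)))) : Gibbs t (QQ P) := by
  intro n σ ρ h
  rw [QQ_cyl hice, QQ_cyl hice, W_eq t ht, W_eq t ht]
  have key := plane_swap (1 / t) hT (E := ED (2 * ((n + 1 : ℕ) : ℤ)))
    (V := VD (2 * ((n + 1 : ℕ) : ℤ))) (K := 2 * ((n + 1 : ℕ) : ℤ)) (ξ := arr σ) (ξ' := arr ρ)
    (by
      intro v hv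
      rw [mem_ED_inl, mem_ED_inr] at hv
      unfold inD at hv
      rw [abs_le, abs_le]
      rcases hv with hv | hv <;> omega)
    (by
      intro v hv
      rw [mem_VD] at hv
      unfold inD at hv
      rw [abs_le, abs_le]
      omega)
    (by
      intro v hv e he
      rw [mem_VD] at hv
      unfold star at he
      rw [Finset.mem_insert, Finset.mem_insert, Finset.mem_insert, Finset.mem_singleton] at he
      rcases he with rfl | rfl | rfl | rfl
      · rw [mem_ED_inl]; exact ⟨hv.2.2.1, hv.2.2.2⟩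
      · rw [mem_ED_inl]; exact ⟨hv.1, hv.2.1⟩
      · rw [mem_ED_inr]; exact ⟨hv.2.1, hv.2.2.2⟩
      · rw [mem_ED_inr]; exact ⟨hv.1, hv.2.2.1⟩)
    (by
      intro e he hne
      have hcf : ∀ q : ℤ × ℤ, ¬ inD (2 * n) q → σ (cf q) = ρ (cf q) := by
        intro q hq
        refine h _ (fun hb => hq ?_)
        rw [mem_B, fc_cf] at hb
        exact hb
      rcases e with v | v
      · rw [arr_inl, arr_inl] at hne
        have h1 : inD (2 * n) v ∨ inD (2 * n) (v.1, v.2 - 1) := by
          by_contra hcon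
          rw [not_or] at hcon
          exact hne (by rw [hcf _ hcon.1, hcf _ hcon.2])
        show v ∈ VD _ ∧ (v.1 + 1, v.2) ∈ VD _
        rw [mem_VD, mem_VD]
        unfold inD at h1 ⊢
        simp only at h1 ⊢
        omega
      · rw [arr_inr, arr_inr] at hne
        have h1 : inD (2 * n) v ∨ inD (2 * n) (v.1 - 1, v.2) := by
          by_contra hcon
          rw [not_or] at hcon
          exact hne (by rw [hcf _ hcon.1, hcf _ hcon.2])
        show v ∈ VD _ ∧ (v.1, v.2 + 1) ∈ VD _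
        rw [mem_VD, mem_VD]
        unfold inD at h1 ⊢
        simp only at h1 ⊢
        omega)
  linear_combination (2⁻¹ * t ^ (VD (2 * ((n + 1 : ℕ) : ℤ))).card) * key

end

/-! ### Invariances -/

/-- Criterion for invariance. -/
lemma QQ_inv {P : Measure (Ori (ℤ × ℤ))} {T : Conf → Conf} (hT : Measurable T)
    {S : Ori (ℤ × ℤ) → Ori (ℤ × ℤ)} (hS : Measurable S) (hP : P.map S = P)
    (h : ∀ᵐ ω ∂P, (T (Psi ω) = Psi (S ω) ∧ T (flip (Psi ω)) = flip (Psi (S ω))) ∨
      (T (Psi ω) = flip (Psi (S ω)) ∧ T (flip (Psi ω)) = Psi (S ω))) :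
    (QQ P).map T = QQ P := by
  ext A hA
  rw [Measure.map_apply hT hA, QQ_apply P (hT hA), QQ_apply P hA]
  congr 1
  have m : Measurable (fun ω => A.indicator (1 : Conf → ENNReal) (Psi ω) +
      A.indicator (1 : Conf → ENNReal) (flip (Psi ω))) :=
    ((measurable_one.indicator hA).comp Psi_meas).add
      ((measurable_one.indicator hA).comp (flip_meas.comp Psi_meas))
  have e1 : ∫⁻ ω, (A.indicator (1 : Conf → ENNReal) (Psi ω) +
      A.indicator (1 : Conf → ENNReal) (flip (Psi ω))) ∂P =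
      ∫⁻ ω, (A.indicator (1 : Conf → ENNReal) (Psi (S ω)) +
      A.indicator (1 : Conf → ENNReal) (flip (Psi (S ω)))) ∂P := by
    conv_lhs => rw [← hP]
    rw [lintegral_map m hS]
  rw [e1]
  refine lintegral_congr_ae ?_
  filter_upwards [h] with ω hω
  have e : ∀ σ : Conf, (T ⁻¹' A).indicator (1 : Conf → ENNReal) σ = A.indicator 1 (T σ) := by
    intro σ; rfl
  rw [e, e]
  rcases hω with hω | hω
  · rw [hω.1, hω.2]
  · rw [hω.1, hω.2, add_comm]

lemma pth_shift {ω : Ori (ℤ × ℤ)} (h : ∀ x y, Ice ω x y) (a q : ℤ × ℤ) :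
    pth ω (q + a) = pth (fun e => ω (Sum.map (· + a) (· + a) e)) q + pth ω a := by
  set ω' : Ori (ℤ × ℤ) := fun e => ω (Sum.map (· + a) (· + a) e) with hω'
  have hh : P152.IsHeight ω' (fun q => pth ω (q + a)) := by
    intro x y
    have h1 := isHeight_pth h (x + a.1) (y + a.2)
    constructor
    · have := h1.1
      show pth ω ((x, y) + a) - pth ω ((x, y - 1) + a) = sgb (ω (Sum.inl ((x, y) + a)))
      rw [show (x, y) + a = (x + a.1, y + a.2) from rfl,
        show (x, y - 1) + a = (x + a.1, y - 1 + a.2) from rfl,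
        show y - 1 + a.2 = y + a.2 - 1 by ring]
      exact this
    · have := h1.2
      show pth ω ((x - 1, y) + a) - pth ω ((x, y) + a) = sgb (ω (Sum.inr ((x, y) + a)))
      rw [show (x, y) + a = (x + a.1, y + a.2) from rfl,
        show (x - 1, y) + a = (x - 1 + a.1, y + a.2) from rfl,
        show x - 1 + a.1 = x + a.1 - 1 by ring]
      exact this
  have := P152.height_eq_pth hh q
  simp only [zero_add] at this
  linarith

lemma tr_Psi {ω : Ori (ℤ × ℤ)} (h : ∀ x y, Ice ω x y) (a : ℤ × ℤ) :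
    (tr a (Psi ω) = Psi (fun e => ω (Sum.map (· + (a.1 - a.2, a.1 + a.2))
      (· + (a.1 - a.2, a.1 + a.2)) e)) ∨
    tr a (Psi ω) = flip (Psi (fun e => ω (Sum.map (· + (a.1 - a.2, a.1 + a.2))
      (· + (a.1 - a.2, a.1 + a.2)) e)))) := by
  set a' : ℤ × ℤ := (a.1 - a.2, a.1 + a.2) with ha'
  have hfc : ∀ x : Site, fc (Sum.map (· + a) (· + a) x) = fc x + a' := by
    rintro (v | v)
    · show (v.1 + a.1 - (v.2 + a.2), v.1 + a.1 + (v.2 + a.2)) =
        (v.1 - v.2 + (a.1 - a.2), v.1 + v.2 + (a.1 + a.2))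
      refine Prod.ext ?_ ?_ <;> simp only <;> ring
    · show (v.1 + a.1 - (v.2 + a.2), v.1 + a.1 + (v.2 + a.2) + 1) =
        (v.1 - v.2 + (a.1 - a.2), v.1 + v.2 + 1 + (a.1 + a.2))
      refine Prod.ext ?_ ?_ <;> simp only <;> ring
  have hpar : pth ω a' % 2 = 0 := by
    have := pth_parity h a'
    rw [ha'] at this ⊢
    simp only at this
    omega
  by_cases hk : pth ω a' / 2 % 2 = 0
  · left
    funext x
    show sgn2 (pth ω (fc (Sum.map (· + a) (· + a) x))) = sgn2 (pth _ (fc x))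
    rw [hfc, pth_shift h]
    unfold sgn2
    rw [decide_eq_decide]
    generalize pth (fun e => ω (Sum.map (· + a') (· + a') e)) (fc x) = u
    omega
  · right
    funext x
    show sgn2 (pth ω (fc (Sum.map (· + a) (· + a) x))) = !(sgn2 (pth _ (fc x)))
    rw [hfc, pth_shift h]
    unfold sgn2
    rw [← decide_not, decide_eq_decide]
    generalize pth (fun e => ω (Sum.map (· + a') (· + a') e)) (fc x) = u
    omega

lemma tr_flip (a : ℤ × ℤ) (σ : Conf) : tr a (flip σ) = flip (tr a σ) := rfl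

lemma shift_meas (a : ℤ × ℤ) :
    Measurable (fun (ω : Ori (ℤ × ℤ)) e => ω (Sum.map (· + a) (· + a) e)) :=
  measurable_pi_iff.2 (fun x => measurable_pi_apply (Sum.map (· + a) (· + a) x))

theorem QQ_tr {P : Measure (Ori (ℤ × ℤ))} (hice : ∀ᵐ ω ∂P, ∀ x y, Ice ω x y)
    (hP : ∀ a : ℤ × ℤ, P.map (fun ω e => ω (Sum.map (· + a) (· + a) e)) = P) (a : ℤ × ℤ) :
    (QQ P).map (tr a) = QQ P := by
  refine QQ_inv (tr_meas a) (shift_meas (a.1 - a.2, a.1 + a.2)) (hP _) ?_
  filter_upwards [hice] with ω hω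
  rcases tr_Psi hω a with h | h
  · left
    exact ⟨h, by rw [tr_flip, h]⟩
  · right
    exact ⟨h, by rw [tr_flip, h, flip_flip]⟩

lemma flipF_Psi {ω : Ori (ℤ × ℤ)} (h : ∀ x y, Ice ω x y) :
    flipF (Psi ω) = Psi (fun e => !(ω e)) := by
  funext x
  unfold Psi
  rw [P152.pth_rev]
  have hpar := pth_parity h (fc x)
  rcases x with ⟨i, j⟩ | ⟨i, j⟩
  · show sgn2 (pth ω (fc (Sum.inl (i, j)))) = _
    unfold fc at hpar
    simp only at hpar
    unfold sgn2
    rw [decide_eq_decide]
    unfold fc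
    simp only
    generalize pth ω (i - j, i + j) = u at *
    omega
  · show (!(sgn2 (pth ω (fc (Sum.inr (i, j)))))) = _
    unfold fc at hpar
    simp only at hpar
    unfold sgn2
    rw [← decide_not, decide_eq_decide]
    unfold fc
    simp only
    generalize pth ω (i - j, i + j + 1) = u at *
    omega

lemma flipF_flip (σ : Conf) : flipF (flip σ) = flip (flipF σ) := by
  funext x
  rcases x with v | v <;> simp [flip, flipF]

lemma flipF_flipF (σ : Conf) : flipF (flipF σ) = σ := by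
  funext x
  rcases x with v | v <;> simp [flipF]

lemma rev_meas : Measurable (fun (ω : Ori (ℤ × ℤ)) e => !(ω e)) :=
  measurable_pi_iff.2 (fun x => meas_not.comp (measurable_pi_apply x))

theorem QQ_flipF {P : Measure (Ori (ℤ × ℤ))} (hice : ∀ᵐ ω ∂P, ∀ x y, Ice ω x y)
    (hP : P.map (fun ω e => !(ω e)) = P) : (QQ P).map flipF = QQ P := by
  refine QQ_inv flipF_meas rev_meas hP ?_
  filter_upwards [hice] with ω hω
  left
  exact ⟨flipF_Psi hω, by rw [flipF_flip, flipF_Psi hω]⟩

theorem QQ_flip {P : Measure (Ori (ℤ × ℤ))} : (QQ P).map flip = QQ P := by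
  refine QQ_inv (S := id) flip_meas measurable_id Measure.map_id ?_
  filter_upwards with ω
  right
  exact ⟨rfl, flip_flip _⟩

theorem QQ_flipV {P : Measure (Ori (ℤ × ℤ))} (hice : ∀ᵐ ω ∂P, ∀ x y, Ice ω x y)
    (hP : P.map (fun ω e => !(ω e)) = P) : (QQ P).map flipV = QQ P := by
  have e : flipV = flip ∘ flipF := by
    funext σ
    show flipV σ = flip (flipF σ)
    rw [flip_eq, flipF_flipF]
  rw [e, ← Measure.map_map flip_meas flipF_meas, QQ_flipF hice hP, QQ_flip]

end Vale.Agent.P145.FP
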