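import Vale.Agent.P145.FP.ConvA
import Vale.Agent.P145.FP.Meas

/-!
Comparison of the sum over the even faces with the integral of the rescaled height: expectations.
-/

namespace Vale.Agent.P145.FP

open Finset Filter Topology MeasureTheory
open Vale.Agent.P152 (Edge Ori Ice sgb pth pth_isHeight sqp sqp_integrable pth_integrable)
open Vale.Agent.P152.GFF.S (hcell hbox hint hint_cells cell_zero ar idx_mem ar_abs ar_measurable)

/-- The properties of the six-vertex measure that are used here. -/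
structure Hyp (P : Measure (Ori (ℤ × ℤ))) : Prop where
  ice : ∀ᵐ ω ∂P, ∀ x y, Ice ω x y
  cc : Tendsto (fun a : ℤ × ℤ => ∫ ω, ar ω (Sum.inl 0) * ar ω (Sum.inl a) ∂P) cofinite (𝓝 0)
  tra : ∀ a : ℤ × ℤ, P.map (fun ω e => ω (Sum.map (· + a) (· + a) e)) = P
  var : ∃ C : ℝ, 0 ≤ C ∧ ∀ q : ℤ × ℤ, q ≠ 0 →
    ∫ ω, sqp q ω ∂P ≤ C * (1 + Real.log (|q.1| + |q.2| : ℤ))

variable {P : Measure (Ori (ℤ × ℤ))} [IsProbabilityMeasure P]

lemma prod_meas (e e' : Edge (ℤ × ℤ)) : Measurable (fun ω : Ori (ℤ × ℤ) => ar ω e * ar ω e') :=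
  (ar_measurable e).mul (ar_measurable e')

lemma prod_int (e e' : Edge (ℤ × ℤ)) : Integrable (fun ω : Ori (ℤ × ℤ) => ar ω e * ar ω e') P := by
  refine Integrable.of_bound (prod_meas e e').aestronglyMeasurable 1
    (Eventually.of_forall (fun ω => ?_))
  rw [Real.norm_eq_abs, abs_mul, ar_abs, ar_abs, mul_one]

lemma corr_abs (e e' : Edge (ℤ × ℤ)) : |∫ ω, ar ω e * ar ω e' ∂P| ≤ 1 := by
  have h := norm_integral_le_of_norm_le_const (μ := P) (f := fun ω => ar ω e * ar ω e') (C := 1)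
    (Eventually.of_forall (fun ω => by rw [Real.norm_eq_abs, abs_mul, ar_abs, ar_abs, mul_one]))
  simpa using h

omit [IsProbabilityMeasure P] in
lemma corr_tr (hP : Hyp P) (q q' : ℤ × ℤ) : ∫ ω, ar ω (Sum.inl q) * ar ω (Sum.inl q') ∂P =
    ∫ ω, ar ω (Sum.inl 0) * ar ω (Sum.inl (q' - q)) ∂P := by
  conv_rhs => rw [← hP.tra q]
  rw [integral_map (shift_meas q).aemeasurable (prod_meas _ _).aestronglyMeasurable]
  refine integral_congr_ae (Eventually.of_forall (fun ω => ?_))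
  simp only [ar, Sum.map_inl, zero_add, sub_add_cancel]

lemma abs_pth_int (q : ℤ × ℤ) :
    ∫ ω, |(pth ω q : ℝ)| ∂P ≤ (1 + ∫ ω, sqp q ω ∂P) / 2 := by
  have h1 : ∫ ω, |(pth ω q : ℝ)| ∂P ≤ ∫ ω, ((1 + sqp q ω) / 2) ∂P := by
    refine integral_mono (pth_integrable q).abs (((integrable_const 1).add
      (sqp_integrable q)).div_const 2) (fun ω => ?_)
    simp only [sqp]
    have h2 : 0 ≤ (|(pth ω q : ℝ)| - 1) ^ 2 := sq_nonneg _
    have h3 : |(pth ω q : ℝ)| ^ 2 = (pth ω q : ℝ) ^ 2 := sq_abs _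
    nlinarith
  refine h1.trans (le_of_eq ?_)
  rw [integral_div, integral_add (integrable_const 1) (sqp_integrable q)]
  simp

lemma EA (S : Finset (ℤ × ℤ)) (K : ℤ × ℤ → ℝ) {k M : ℝ} (hk : ∀ q, |K q| ≤ k) (_ : 0 ≤ M)
    (hS : ∀ q ∈ S, ∫ ω, |(pth ω q : ℝ)| ∂P ≤ M) :
    ∫ ω, |∑ q ∈ S, ev q * ((pth ω q : ℝ) * K q)| ∂P ≤ S.card * (M * k) := by
  have hk0 : 0 ≤ k := (abs_nonneg _).trans (hk 0)
  have hint : ∀ q ∈ S, Integrable (fun ω => |(pth ω q : ℝ)| * k) P := fun q _ =>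
    (pth_integrable q).abs.mul_const k
  have i1 : Integrable (fun ω => |∑ q ∈ S, ev q * ((pth ω q : ℝ) * K q)|) P := by
    refine (integrable_finsetSum _ (fun q _ => ?_)).abs
    exact ((pth_integrable q).mul_const _).const_mul _
  calc ∫ ω, |∑ q ∈ S, ev q * ((pth ω q : ℝ) * K q)| ∂P
      ≤ ∫ ω, ∑ q ∈ S, |(pth ω q : ℝ)| * k ∂P := by
        refine integral_mono i1 (integrable_finsetSum _ hint) (fun ω => ?_)
        refine (Finset.abs_sum_le_sum_abs _ _).trans (Finset.sum_le_sum (fun q _ => ?_))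
        rw [abs_mul, abs_mul]
        calc |ev q| * (|(pth ω q : ℝ)| * |K q|) ≤ 1 * (|(pth ω q : ℝ)| * k) :=
              mul_le_mul (ev_abs q) (mul_le_mul_of_nonneg_left (hk q) (abs_nonneg _))
                (by positivity) zero_le_one
          _ = _ := one_mul _
    _ = ∑ q ∈ S, (∫ ω, |(pth ω q : ℝ)| ∂P) * k := by
        rw [integral_finsetSum _ hint]
        exact Finset.sum_congr rfl (fun q _ => integral_mul_const _ _)
    _ ≤ ∑ q ∈ S, M * k := Finset.sum_le_sum (fun q hq =>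
        mul_le_mul_of_nonneg_right (hS q hq) hk0)
    _ = S.card * (M * k) := by rw [Finset.sum_const, nsmul_eq_mul]

lemma EB (hP : Hyp P) (S : Finset (ℤ × ℤ)) (I : ℤ × ℤ → ℝ) {k : ℝ} (hk : ∀ q, |I q| ≤ k) :
    ∫ ω, (∑ q ∈ S, ev q * (ar ω (Sum.inl q) * I q)) ^ 2 ∂P ≤
      k ^ 2 * ∑ q ∈ S, ∑ q' ∈ S, |∫ ω, ar ω (Sum.inl 0) * ar ω (Sum.inl (q' - q)) ∂P| := by
  have hk0 : 0 ≤ k := (abs_nonneg _).trans (hk 0)
  have e : ∀ ω : Ori (ℤ × ℤ), (∑ q ∈ S, ev q * (ar ω (Sum.inl q) * I q)) ^ 2 =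
      ∑ q ∈ S, ∑ q' ∈ S, (ev q * I q * (ev q' * I q')) *
        (ar ω (Sum.inl q) * ar ω (Sum.inl q')) := by
    intro ω
    rw [sq, Finset.sum_mul_sum]
    refine Finset.sum_congr rfl (fun q _ => Finset.sum_congr rfl (fun q' _ => ?_))
    ring
  simp only [e]
  have hi : ∀ q q', Integrable (fun ω => (ev q * I q * (ev q' * I q')) *
        (ar ω (Sum.inl q) * ar ω (Sum.inl q'))) P := fun q q' => (prod_int _ _).const_mul _
  rw [integral_finsetSum _ (fun q _ => integrable_finsetSum _ (fun q' _ => hi q q')),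
    Finset.mul_sum]
  refine Finset.sum_le_sum (fun q _ => ?_)
  rw [integral_finsetSum _ (fun q' _ => hi q q'), Finset.mul_sum]
  refine Finset.sum_le_sum (fun q' _ => ?_)
  rw [integral_const_mul, corr_tr hP]
  refine (le_abs_self _).trans ?_
  rw [abs_mul]
  refine mul_le_mul_of_nonneg_right ?_ (abs_nonneg _)
  have b : ∀ q, |ev q * I q| ≤ k := by
    intro q
    rw [abs_mul]
    calc |ev q| * |I q| ≤ 1 * k := mul_le_mul (ev_abs q) (hk q) (abs_nonneg _) zero_le_one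
      _ = k := one_mul k
  rw [abs_mul, sq]
  exact mul_le_mul (b q) (b q') (abs_nonneg _) hk0

/-- `E|B| ≤ (s + E B² / s) / 2`. -/
lemma abs_le_sq {X : Ori (ℤ × ℤ) → ℝ} (h1 : Integrable X P) (h2 : Integrable (fun ω => X ω ^ 2) P)
    {s : ℝ} (hs : 0 < s) : ∫ ω, |X ω| ∂P ≤ (s + (∫ ω, X ω ^ 2 ∂P) / s) / 2 := by
  have h3 : ∫ ω, |X ω| ∂P ≤ ∫ ω, ((s + X ω ^ 2 / s) / 2) ∂P := by
    refine integral_mono h1.abs (((integrable_const s).add (h2.div_const s)).div_const 2)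
      (fun ω => ?_)
    simp only
    have h4 : 0 ≤ (|X ω| - s) ^ 2 := sq_nonneg _
    have h5 : |X ω| ^ 2 = X ω ^ 2 := sq_abs _
    have h6 : X ω ^ 2 / s * s = X ω ^ 2 := div_mul_cancel₀ _ hs.ne'
    have h7 : |X ω| * s ≤ (s + X ω ^ 2 / s) / 2 * s := by nlinarith
    exact le_of_mul_le_mul_right h7 hs
  refine h3.trans (le_of_eq ?_)
  rw [integral_div, integral_add (integrable_const s) (h2.div_const s), integral_div]
  simp

omit [IsProbabilityMeasure P] in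
lemma pth_moment (hP : Hyp P) : ∃ C : ℝ, 0 ≤ C ∧ ∀ (N : ℕ) (q : ℤ × ℤ), q ∈ hbox N → 1 ≤ N →
    ∫ ω, sqp q ω ∂P ≤ C * (1 + Real.log (2 * N)) := by
  obtain ⟨C, hC, h⟩ := hP.var
  refine ⟨C, hC, fun N q hq hN => ?_⟩
  have hN' : (1 : ℝ) ≤ N := by exact_mod_cast hN
  by_cases hq0 : q = 0
  · subst hq0
    have e : ∀ ω : Ori (ℤ × ℤ), sqp 0 ω = 0 := by
      intro ω
      simp only [sqp]
      rw [P152.pth_zero]
      simp
    simp only [e, integral_zero]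
    have : 0 ≤ Real.log (2 * N) := Real.log_nonneg (by linarith)
    positivity
  · refine (h q hq0).trans (mul_le_mul_of_nonneg_left ?_ hC)
    unfold hbox at hq
    rw [Finset.mem_product, Finset.mem_Icc, Finset.mem_Icc] at hq
    have h1 : |q.1| + |q.2| ≤ 2 * N := by
      have a1 := abs_le.2 hq.1
      have a2 := abs_le.2 hq.2
      linarith
    have h2 : 0 < |q.1| + |q.2| := by
      by_contra hcon
      have b1 := abs_nonneg q.1
      have b2 := abs_nonneg q.2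
      have b3 : |q.1| = 0 := by omega
      have b4 : |q.2| = 0 := by omega
      exact hq0 (Prod.ext (abs_eq_zero.1 b3) (abs_eq_zero.1 b4))
    have h3 : ((|q.1| + |q.2| : ℤ) : ℝ) ≤ 2 * N := by exact_mod_cast h1
    have h4 : (0 : ℝ) < ((|q.1| + |q.2| : ℤ) : ℝ) := by exact_mod_cast h2
    linarith [Real.log_le_log h4 h3]

/-- The size of the box at scale `δ`. -/
noncomputable def NN (R δ : ℝ) : ℕ := ⌈R / δ + 1⌉₊

lemma NN_ge (R δ : ℝ) : R / δ + 1 ≤ NN R δ := Nat.le_ceil _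

lemma NN_le {R δ : ℝ} (hR : 0 < R) (hδ : 0 < δ) (hδ1 : δ ≤ 1) :
    δ * (2 * (((NN R δ) + 1 : ℕ) : ℝ) + 1) ≤ 2 * R + 7 := by
  have h1 : (0 : ℝ) ≤ R / δ + 1 := by positivity
  have h2 := (Nat.ceil_lt_add_one h1).le
  have h3 : ((NN R δ : ℕ) : ℝ) ≤ R / δ + 2 := by unfold NN; linarith
  push_cast
  have h4 : δ * ((NN R δ : ℕ) : ℝ) ≤ δ * (R / δ + 2) := mul_le_mul_of_nonneg_left h3 hδ.le
  have h5 : δ * (R / δ + 2) = R + 2 * δ := by field_simp
  nlinarith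

/-- The two observables are close in `L¹`. -/
theorem xs_close (hP : Hyp P) {f : ℝ × ℝ → ℝ} (hf : Integrable f) {R F L : ℝ} (hR0 : 0 < R)
    (hR : ∀ x : ℝ × ℝ, f x ≠ 0 → |x.1| ≤ R ∧ |x.2| ≤ R) (hF : ∀ x, |f x| ≤ F) (hL0 : 0 ≤ L)
    (hL : ∀ x y, |f x - f y| ≤ L * ‖x - y‖) :
    Tendsto (fun δ : ℝ => ∫ ω, |xs (pth ω) δ f (NN R δ + 1) - hint (pth ω) δ f| ∂P) (𝓝[>] 0)
      (𝓝 0) := by
  obtain ⟨C, hC, hmom⟩ := pth_moment hP
  set A0 : ℝ := 2 * R + 7 with hA0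
  have hA0' : 7 < A0 := by linarith
  have hF0 : 0 ≤ F := (abs_nonneg _).trans (hF 0)
  rw [Metric.tendsto_nhds]
  intro ε hε
  -- the error of the smooth part
  have t1 : Tendsto (fun δ : ℝ => A0 ^ 2 * (3 * L) * (δ * ((1 + C + C * Real.log A0) / 2) -
      C / 2 * (Real.log δ * δ))) (𝓝[>] 0) (𝓝 0) := by
    have a1 : Tendsto (fun δ : ℝ => δ * ((1 + C + C * Real.log A0) / 2)) (𝓝[>] 0) (𝓝 0) := by
      have := (tendsto_id (x := 𝓝 (0 : ℝ))).mul_const ((1 + C + C * Real.log A0) / 2)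
      rw [zero_mul] at this
      exact this.mono_left nhdsWithin_le_nhds
    have a2 : Tendsto (fun δ : ℝ => Real.log δ * δ) (𝓝[>] 0) (𝓝 0) := by
      have := tendsto_log_mul_rpow_nhdsGT_zero zero_lt_one
      simpa only [Real.rpow_one] using this
    have := (a1.sub (a2.const_mul (C / 2))).const_mul (A0 ^ 2 * (3 * L))
    simpa using this
  set s : ℝ := ε / 3 with hs
  have hs0 : 0 < s := by rw [hs]; positivity
  set ε' : ℝ := s ^ 2 / (F ^ 2 * A0 ^ 4 + 1) with hε'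
  have hε'0 : 0 < ε' := by rw [hε']; positivity
  obtain ⟨N0, hN0⟩ := cesaro hP.cc (fun a => corr_abs _ _) hε'0
  have hpos : ∀ᶠ δ : ℝ in 𝓝[>] 0, 0 < δ := self_mem_nhdsWithin
  have hle : ∀ c : ℝ, 0 < c → ∀ᶠ δ : ℝ in 𝓝[>] 0, δ ≤ c := fun c hc =>
    mem_nhdsWithin_of_mem_nhds (Iic_mem_nhds hc)
  filter_upwards [hpos, hle 1 one_pos, hle (R / (N0 + 1)) (by positivity),
    (Metric.tendsto_nhds.1 t1) (ε / 3) (by positivity)] with δ hδ hδ1 hδ2 hδ3
  rw [Real.dist_eq, sub_zero, abs_of_nonneg (integral_nonneg (fun ω => abs_nonneg _))]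
  rw [Real.dist_eq, sub_zero] at hδ3
  set N := NN R δ with hN
  have hNb := NN_le hR0 hδ hδ1
  rw [← hN] at hNb
  have hNge := NN_ge R δ
  rw [← hN] at hNge
  have hN0N : N0 ≤ N + 1 := by
    have h1 : (N0 : ℝ) + 1 ≤ R / δ := by
      rw [le_div_iff₀ hδ]
      rw [le_div_iff₀ (by positivity)] at hδ2
      linarith
    have h2 : (N0 : ℝ) ≤ N := by linarith
    have h3 : N0 ≤ N := by exact_mod_cast h2
    omega
  set X1 : Ori (ℤ × ℤ) → ℝ := fun ω => ∑ q ∈ hbox (N + 1), ev q * ((pth ω q : ℝ) *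
    (2 * δ ^ 2 * f (δ * q.1, δ * q.2) - cI f δ q - cI f δ (q.1, q.2 - 1))) with hX1
  set X2 : Ori (ℤ × ℤ) → ℝ := fun ω => ∑ q ∈ hbox (N + 1), ev q * (ar ω (Sum.inl q) *
    cI f δ (q.1, q.2 - 1)) with hX2
  have hsplit : ∀ᵐ ω ∂P, |xs (pth ω) δ f (N + 1) - hint (pth ω) δ f| ≤ |X1 ω| + |X2 ω| := by
    filter_upwards [hP.ice] with ω hω
    rw [xs_sub (pth_isHeight hω) hδ hf hR hNge]
    refine le_trans (le_of_eq ?_) (abs_add_le (X1 ω) (X2 ω))
    congr 1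
    rw [hX1, hX2]
    simp only
    rw [← Finset.sum_add_distrib]
    refine Finset.sum_congr rfl (fun q _ => ?_)
    ring
  have i1 : Integrable X1 P :=
    integrable_finsetSum _ (fun q _ => ((pth_integrable q).mul_const _).const_mul _)
  have mX2 : Measurable X2 :=
    Finset.measurable_sum _ (fun q _ => ((ar_measurable _).mul_const _).const_mul _)
  have bX2 : ∀ ω, |X2 ω| ≤ ∑ q ∈ hbox (N + 1), |cI f δ (q.1, q.2 - 1)| := by
    intro ω
    rw [hX2]
    refine (Finset.abs_sum_le_sum_abs _ _).trans (Finset.sum_le_sum (fun q _ => ?_))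
    rw [abs_mul, abs_mul, ar_abs, one_mul]
    calc |ev q| * |cI f δ (q.1, q.2 - 1)| ≤ 1 * |cI f δ (q.1, q.2 - 1)| :=
          mul_le_mul_of_nonneg_right (ev_abs q) (abs_nonneg _)
      _ = _ := one_mul _
  have i2 : Integrable X2 P := Integrable.of_bound mX2.aestronglyMeasurable _
    (Eventually.of_forall (fun ω => by rw [Real.norm_eq_abs]; exact bX2 ω))
  have i3 : Integrable (fun ω => X2 ω ^ 2) P := by
    refine Integrable.of_bound (mX2.pow_const 2).aestronglyMeasurable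
      ((∑ q ∈ hbox (N + 1), |cI f δ (q.1, q.2 - 1)|) ^ 2) (Eventually.of_forall (fun ω => ?_))
    rw [Real.norm_eq_abs, abs_pow]
    exact pow_le_pow_left₀ (abs_nonneg _) (bX2 ω) 2
  -- first part
  have hcard : (((hbox (N + 1)).card : ℕ) : ℝ) = (2 * ((N + 1 : ℕ) : ℝ) + 1) ^ 2 := hbox_card _
  set Y : ℝ := 2 * ((N + 1 : ℕ) : ℝ) + 1 with hY
  have hY0 : 0 < Y := by positivity
  have hlog : Real.log (2 * ((N + 1 : ℕ) : ℝ)) ≤ Real.log A0 - Real.log δ := by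
    rw [← Real.log_div (by linarith) hδ.ne']
    refine Real.log_le_log (by positivity) ?_
    rw [le_div_iff₀ hδ]
    nlinarith
  have hA := EA (P := P) (hbox (N + 1)) (fun q => 2 * δ ^ 2 * f (δ * q.1, δ * q.2) - cI f δ q -
    cI f δ (q.1, q.2 - 1)) (k := 3 * L * δ ^ 3)
    (M := (1 + C * (1 + (Real.log A0 - Real.log δ))) / 2)
    (fun q => K_abs hf hL0 hL hδ q)
    (by
      have h1 : 0 ≤ Real.log (2 * ((N + 1 : ℕ) : ℝ)) := by
        refine Real.log_nonneg ?_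
        have : (1 : ℝ) ≤ ((N + 1 : ℕ) : ℝ) := by push_cast; linarith [Nat.cast_nonneg (α := ℝ) N]
        linarith
      have h2 : 0 ≤ C * (1 + (Real.log A0 - Real.log δ)) := mul_nonneg hC (by linarith)
      linarith)
    (fun q hq => by
      refine (abs_pth_int q).trans ?_
      have h1 := hmom (N + 1) q hq (by omega)
      have h2 : C * (1 + Real.log (2 * ((N + 1 : ℕ) : ℝ))) ≤
          C * (1 + (Real.log A0 - Real.log δ)) := mul_le_mul_of_nonneg_left (by linarith) hC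
      linarith)
  have hA' : ∫ ω, |X1 ω| ∂P ≤ A0 ^ 2 * (3 * L) * (δ * ((1 + C + C * Real.log A0) / 2) -
      C / 2 * (Real.log δ * δ)) := by
    refine hA.trans ?_
    rw [hcard]
    have h1 : 0 ≤ δ * ((1 + C * (1 + (Real.log A0 - Real.log δ))) / 2) := by
      refine mul_nonneg hδ.le ?_
      have h2 : 0 ≤ Real.log (2 * ((N + 1 : ℕ) : ℝ)) := by
        refine Real.log_nonneg ?_
        have : (1 : ℝ) ≤ ((N + 1 : ℕ) : ℝ) := by push_cast; linarith [Nat.cast_nonneg (α := ℝ) N]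
        linarith
      have h3 : 0 ≤ C * (1 + (Real.log A0 - Real.log δ)) := mul_nonneg hC (by linarith)
      linarith
    have h4 : (δ * Y) ^ 2 ≤ A0 ^ 2 := pow_le_pow_left₀ (by positivity) hNb 2
    calc Y ^ 2 * ((1 + C * (1 + (Real.log A0 - Real.log δ))) / 2 * (3 * L * δ ^ 3))
        = (δ * Y) ^ 2 * ((3 * L) * (δ * ((1 + C * (1 + (Real.log A0 - Real.log δ))) / 2))) := by
          ring
      _ ≤ A0 ^ 2 * ((3 * L) * (δ * ((1 + C * (1 + (Real.log A0 - Real.log δ))) / 2))) :=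
          mul_le_mul_of_nonneg_right h4 (mul_nonneg (by positivity) h1)
      _ = _ := by ring
  -- second part
  have hB := EB hP (hbox (N + 1)) (fun q => cI f δ (q.1, q.2 - 1)) (k := F * δ ^ 2)
    (fun q => cI_abs hF hδ _)
  have hB' : ∫ ω, X2 ω ^ 2 ∂P ≤ s ^ 2 := by
    refine hB.trans ?_
    have h1 := hN0 (N + 1) hN0N
    have h4 : (δ * Y) ^ 4 ≤ A0 ^ 4 := pow_le_pow_left₀ (by positivity) hNb 4
    calc (F * δ ^ 2) ^ 2 * _ ≤ (F * δ ^ 2) ^ 2 * (ε' * Y ^ 4) :=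
          mul_le_mul_of_nonneg_left h1 (sq_nonneg _)
      _ = F ^ 2 * ε' * (δ * Y) ^ 4 := by ring
      _ ≤ F ^ 2 * ε' * A0 ^ 4 := mul_le_mul_of_nonneg_left h4 (by positivity)
      _ = s ^ 2 * ((F ^ 2 * A0 ^ 4) / (F ^ 2 * A0 ^ 4 + 1)) := by rw [hε']; ring
      _ ≤ s ^ 2 * 1 := by
          refine mul_le_mul_of_nonneg_left ?_ (sq_nonneg _)
          rw [div_le_one (by positivity)]
          linarith
      _ = s ^ 2 := mul_one _
  have hB'' : ∫ ω, |X2 ω| ∂P ≤ s := by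
    refine (abs_le_sq i2 i3 hs0).trans ?_
    have : (∫ ω, X2 ω ^ 2 ∂P) / s ≤ s := by
      rw [div_le_iff₀ hs0]
      linarith [sq s]
    linarith
  calc ∫ ω, |xs (pth ω) δ f (N + 1) - hint (pth ω) δ f| ∂P
      ≤ ∫ ω, (|X1 ω| + |X2 ω|) ∂P := by
        refine integral_mono_of_nonneg (Eventually.of_forall (fun ω => abs_nonneg _))
          (i1.abs.add i2.abs) hsplit
    _ = ∫ ω, |X1 ω| ∂P + ∫ ω, |X2 ω| ∂P := integral_add i1.abs i2.abs
    _ < ε := by
        have h5 := (le_abs_self _).trans_lt hδ3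
        have : s = ε / 3 := hs
        linarith

end Vale.Agent.P145.FP
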