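import Vale.Agent.P145.FP.Dist
import Mathlib.MeasureTheory.Function.ConvergenceInDistribution
import Mathlib.Probability.Distributions.Gaussian.Multivariate

/-!
Convergence in law of the observables of the spin model.
-/

namespace Vale.Agent.P145.FP

open Finset Filter Topology MeasureTheory ProbabilityTheory
open Vale.Agent.P152 (Edge Ori Ice sgb pth pth_isHeight sqp sqp_integrable pth_integrable)
open Vale.Agent.P152.GFF.S (hcell hbox hint hint_cells cell_zero ar idx_mem bound_of_compact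
  hint_aemeasurable)

variable {P : Measure (Ori (ℤ × ℤ))} [IsProbabilityMeasure P]

lemma fld_integrable {φ : ℝ × ℝ → ℝ} (hφ : HasCompactSupport φ) {δ : ℝ} (hδ : 0 < δ) :
    Integrable (fun ω => fld (Hc ω) δ φ) P := by
  obtain ⟨S, hS⟩ := supp_fin hφ hδ.ne'
  have e : (fun ω => fld (Hc ω) δ φ) = fun ω => δ ^ 2 * ∑ v ∈ S,
      (1 / 2 * (pth ω (fc (Sum.inl v)) : ℝ)) * φ (δ * v.1, δ * v.2) := by
    funext ω
    unfold fld
    congr 1
    rw [tsum_eq_sum (s := S)]
    · rfl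
    · intro v hv
      rw [hS v hv, mul_zero]
  rw [e]
  exact (integrable_finsetSum _ (fun v _ => ((pth_integrable _).const_mul _).mul_const _)).const_mul _

lemma hint_integrable {f : ℝ × ℝ → ℝ} (hf : Continuous f) (hc : HasCompactSupport f) {δ : ℝ}
    (hδ : 0 < δ) : Integrable (fun ω => hint (pth ω) δ f) P := by
  obtain ⟨R, hR0, hR⟩ := bound_of_compact hc
  have hN := NN_ge R δ
  have e : (fun ω => hint (pth ω) δ f) = fun ω => ∑ v ∈ hbox (NN R δ), (pth ω v : ℝ) *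
      ∫ x in hcell δ v, f x := by
    funext ω
    exact hint_cells (pth ω) hδ (hf.integrable_of_hasCompactSupport hc) hR hN
  rw [e]
  exact integrable_finsetSum _ (fun v _ => (pth_integrable _).mul_const _)

lemma norm_toLp_le {m : ℕ} (x : Fin m → ℝ) :
    ‖(WithLp.toLp 2 x : EuclideanSpace ℝ (Fin m))‖ ≤ ∑ j, |x j| := by
  rw [EuclideanSpace.norm_eq]
  refine Real.sqrt_le_iff.2 ⟨Finset.sum_nonneg (fun j _ => abs_nonneg _), ?_⟩
  have h := Finset.sum_sq_le_sq_sum_of_nonneg (s := Finset.univ) (f := fun j => |x j|)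
    (fun j _ => abs_nonneg _)
  simpa [Real.norm_eq_abs] using h

/-- Convergence in measure of the difference. -/
lemma diff_measure (hP : Hyp P) {m : ℕ} {φ : Fin m → ℝ × ℝ → ℝ} (hφ : ∀ j, Test (φ j))
    (hX : ∀ δ, AEMeasurable (fun ω => (WithLp.toLp 2 (fun j => hint (pth ω) δ (rot (φ j))) :
      EuclideanSpace ℝ (Fin m))) P) :
    TendstoInMeasure P ((fun δ => gv φ δ) - (fun (δ : ℝ) (ω : Ori (ℤ × ℤ)) =>
      (WithLp.toLp 2 (fun j => hint (pth ω) δ (rot (φ j))) : EuclideanSpace ℝ (Fin m))))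
      (𝓝[>] 0) 0 := by
  set X : ℝ → Ori (ℤ × ℤ) → EuclideanSpace ℝ (Fin m) := fun δ ω =>
    WithLp.toLp 2 (fun j => hint (pth ω) δ (rot (φ j))) with hXd
  refine tendstoInMeasure_of_tendsto_eLpNorm (p := 1) one_ne_zero (fun δ => ?_)
    aestronglyMeasurable_zero ?_
  · exact ((gv_meas (fun j => (hφ j).2.1) δ).aemeasurable.sub (hX δ)).aestronglyMeasurable
  · have hlim : Tendsto (fun δ : ℝ => ∑ j, ENNReal.ofReal
        (∫ ω, |fld (Hc ω) δ (φ j) - hint (pth ω) δ (rot (φ j))| ∂P)) (𝓝[>] 0) (𝓝 0) := by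
      have h1 : Tendsto (fun δ : ℝ => ∑ j, ENNReal.ofReal
          (∫ ω, |fld (Hc ω) δ (φ j) - hint (pth ω) δ (rot (φ j))| ∂P)) (𝓝[>] 0)
          (𝓝 (∑ _j : Fin m, ENNReal.ofReal 0)) :=
        tendsto_finsetSum _ (fun j _ => (ENNReal.continuous_ofReal.tendsto 0).comp
          (fld_close hP (hφ j)))
      simpa using h1
    refine tendsto_of_tendsto_of_tendsto_of_le_of_le' tendsto_const_nhds hlim
      (Eventually.of_forall (fun δ => zero_le)) ?_
    filter_upwards [self_mem_nhdsWithin] with δ hδ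
    have hδ0 : 0 < δ := hδ
    rw [eLpNorm_one_eq_lintegral_enorm]
    have hint1 : ∀ j, Integrable (fun ω => |fld (Hc ω) δ (φ j) - hint (pth ω) δ (rot (φ j))|) P :=
      fun j => ((fld_integrable (hφ j).2.1 hδ0).sub (hint_integrable
        (rot_smooth (hφ j).1).continuous (rot_compact (hφ j).2.1) hδ0)).abs
    calc ∫⁻ ω, ‖(((fun δ => gv φ δ) - X) δ - 0) ω‖ₑ ∂P
        ≤ ∫⁻ ω, ∑ j, ENNReal.ofReal |fld (Hc ω) δ (φ j) - hint (pth ω) δ (rot (φ j))| ∂P := by
          refine lintegral_mono (fun ω => ?_)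
          have e : (((fun δ => gv φ δ) - X) δ - 0) ω =
              WithLp.toLp 2 (fun j => fld (Hc ω) δ (φ j) - hint (pth ω) δ (rot (φ j))) := by
            rw [sub_zero]
            rfl
          rw [e, ← ofReal_norm]
          rw [← ENNReal.ofReal_sum_of_nonneg (fun j _ => abs_nonneg _)]
          exact ENNReal.ofReal_le_ofReal (norm_toLp_le _)
      _ = ∑ j, ∫⁻ ω, ENNReal.ofReal |fld (Hc ω) δ (φ j) - hint (pth ω) δ (rot (φ j))| ∂P := by
          refine lintegral_finsetSum' _ (fun j _ => ?_)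
          exact (hint1 j).aestronglyMeasurable.aemeasurable.ennreal_ofReal
      _ = ∑ j, ENNReal.ofReal
          (∫ ω, |fld (Hc ω) δ (φ j) - hint (pth ω) δ (rot (φ j))| ∂P) := by
          refine Finset.sum_congr rfl (fun j _ => ?_)
          rw [ofReal_integral_eq_lintegral_ofReal (hint1 j)
            (Eventually.of_forall (fun ω => abs_nonneg _))]

lemma test_iff (f : ℝ × ℝ → ℝ) : P152.GFF.S.Test f ↔ Test f := Iff.rfl

lemma gffCov_iff (f g : ℝ × ℝ → ℝ) : P152.GFF.S.gffCov f g = gffCov f g := rfl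

/-- The law of the observables of the spin model. -/
theorem law (hP : Hyp P) {σ : ℝ}
    (hclt : ∀ h : Ori (ℤ × ℤ) → ℤ × ℤ → ℤ, (∀ᵐ ω ∂P, P152.IsHeight ω (h ω)) →
      ∀ (m : ℕ) (f : Fin m → ℝ × ℝ → ℝ), (∀ j, P152.GFF.S.Test (f j)) →
        (Matrix.of (fun i j => σ ^ 2 * P152.GFF.S.gffCov (f i) (f j))).PosSemidef ∧
        TendstoInDistribution (fun (δ : ℝ) (ω : Ori (ℤ × ℤ)) =>
          (WithLp.toLp 2 (fun j => hint (h ω) δ (f j)) : EuclideanSpace ℝ (Fin m))) (𝓝[>] 0)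
          (id : EuclideanSpace ℝ (Fin m) → EuclideanSpace ℝ (Fin m)) (fun _ => P)
          (multivariateGaussian 0
            (Matrix.of (fun i j => σ ^ 2 * P152.GFF.S.gffCov (f i) (f j)))))
    {H : Conf → Site → ℝ} (hH : ∀ᵐ s ∂(QQ P), IsHeight s (H s) ∧ H s (Sum.inl 0) = 0)
    [IsProbabilityMeasure (QQ P)] (m : ℕ) (φ : Fin m → ℝ × ℝ → ℝ) (hφ : ∀ j, Test (φ j)) :
    (Matrix.of (fun i j => (σ / 2) ^ 2 * gffCov (φ i) (φ j))).PosSemidef ∧
    TendstoInDistribution (fun (δ : ℝ) (s : Conf) =>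
      (WithLp.toLp 2 (fun j => fld (H s) δ (φ j)) : EuclideanSpace ℝ (Fin m))) (𝓝[>] 0)
      (id : EuclideanSpace ℝ (Fin m) → EuclideanSpace ℝ (Fin m)) (fun _ => QQ P)
      (multivariateGaussian 0 (Matrix.of (fun i j => (σ / 2) ^ 2 * gffCov (φ i) (φ j)))) := by
  have hmat : (Matrix.of (fun i j => σ ^ 2 * P152.GFF.S.gffCov (rot (φ i)) (rot (φ j))) :
      Matrix (Fin m) (Fin m) ℝ) =
      Matrix.of (fun i j => (σ / 2) ^ 2 * gffCov (φ i) (φ j)) := by
    ext i j
    simp only [Matrix.of_apply]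
    rw [gffCov_iff, gffCov_rot ((hφ j).1.continuous.integrable_of_hasCompactSupport (hφ j).2.1)
      (hφ j).2.2]
    ring
  obtain ⟨hpsd, hX⟩ := hclt (fun ω => pth ω) (by
    filter_upwards [hP.ice] with ω hω
    exact pth_isHeight hω) m (fun j => rot (φ j)) (fun j => rot_test (hφ j))
  rw [hmat] at hpsd hX
  refine ⟨hpsd, ?_⟩
  have hg : TendstoInDistribution (fun δ => gv φ δ) (𝓝[>] 0)
      (id : EuclideanSpace ℝ (Fin m) → EuclideanSpace ℝ (Fin m)) (fun _ => P)
      (multivariateGaussian 0 (Matrix.of (fun i j => (σ / 2) ^ 2 * gffCov (φ i) (φ j)))) :=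
    tendstoInDistribution_of_tendstoInMeasure_sub (fun δ => gv φ δ) id hX
      (diff_measure hP hφ hX.forall_aemeasurable)
      (fun δ => (gv_meas (fun j => (hφ j).2.1) δ).aemeasurable)
  have hae : ∀ δ : ℝ, (fun s : Conf => (WithLp.toLp 2 (fun j => fld (H s) δ (φ j)) :
      EuclideanSpace ℝ (Fin m))) =ᵐ[QQ P] fun s => gv φ δ (arr s) := by
    intro δ
    filter_upwards [QQ_H hP.ice hH] with s hs
    rw [hs]
    rfl
  have hmeas : ∀ δ : ℝ, Measurable (fun s : Conf => gv φ δ (arr s)) := fun δ =>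
    (gv_meas (fun j => (hφ j).2.1) δ).comp arr_meas
  have hY : ∀ δ : ℝ, AEMeasurable (fun s : Conf =>
      (WithLp.toLp 2 (fun j => fld (H s) δ (φ j)) : EuclideanSpace ℝ (Fin m))) (QQ P) :=
    fun δ => ⟨_, hmeas δ, hae δ⟩
  have hmap : ∀ δ : ℝ, (QQ P).map (fun s : Conf =>
      (WithLp.toLp 2 (fun j => fld (H s) δ (φ j)) : EuclideanSpace ℝ (Fin m))) =
      P.map (gv φ δ) := by
    intro δ
    rw [Measure.map_congr (hae δ)]
    have e : (fun s : Conf => gv φ δ (arr s)) = gv φ δ ∘ arr := rfl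
    rw [e, ← Measure.map_map (gv_meas (fun j => (hφ j).2.1) δ) arr_meas, QQ_arr hP.ice]
  refine ⟨hY, hg.aemeasurable_limit, ?_⟩
  refine hg.tendsto.congr (fun δ => ?_)
  exact Subtype.ext (hmap δ).symm

end Vale.Agent.P145.FP
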