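import Vale.Agent.P145.FP.Spin
import Vale.Agent.P152.GFF.S.Hint
import Vale.Agent.P152.GFF.S.JcVar

/-!
Comparison of the sum over the even faces with the integral of the rescaled height, deterministic
part.
-/

namespace Vale.Agent.P145.FP

open Finset Filter Topology MeasureTheory
open Vale.Agent.P152 (Edge Ori Ice sgb pth pth_isHeight)
open Vale.Agent.P152.GFF.S (hcell hbox hint hint_cells cell_zero ar idx_mem)

/-- Indicator of the even faces. -/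
noncomputable def ev (q : ℤ × ℤ) : ℝ := if (q.1 + q.2) % 2 = 0 then 1 else 0

/-- Twice the sum over the even faces. -/
noncomputable def xs (h : ℤ × ℤ → ℤ) (δ : ℝ) (f : ℝ × ℝ → ℝ) (N : ℕ) : ℝ :=
  2 * δ ^ 2 * ∑ q ∈ hbox N, ev q * ((h q : ℝ) * f (δ * q.1, δ * q.2))

/-- Integral over a cell. -/
noncomputable def cI (f : ℝ × ℝ → ℝ) (δ : ℝ) (q : ℤ × ℤ) : ℝ := ∫ x in hcell δ q, f x

lemma ev_abs (q : ℤ × ℤ) : |ev q| ≤ 1 := by unfold ev; split_ifs <;> simp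

lemma ev_shift (q : ℤ × ℤ) : 1 - ev (q.1, q.2 - 1) = ev q := by
  unfold ev
  simp only
  by_cases h : (q.1 + q.2) % 2 = 0
  · rw [if_pos h, if_neg (by omega)]; norm_num
  · rw [if_neg h, if_pos (by omega)]; norm_num

lemma hbox_succ {N : ℕ} {q : ℤ × ℤ} (h : (q.1, q.2 - 1) ∈ hbox N) : q ∈ hbox (N + 1) := by
  unfold hbox at h ⊢
  rw [Finset.mem_product, Finset.mem_Icc, Finset.mem_Icc] at h ⊢
  push_cast
  simp only at h
  omega

lemma hbox_mono {N : ℕ} {q : ℤ × ℤ} (h : q ∈ hbox N) : q ∈ hbox (N + 1) := by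
  unfold hbox at h ⊢
  rw [Finset.mem_product, Finset.mem_Icc, Finset.mem_Icc] at h ⊢
  push_cast
  omega

/-- The difference of the sum over the even faces and the integral. -/
theorem xs_sub {ω : Ori (ℤ × ℤ)} {h : ℤ × ℤ → ℤ} (hh : P152.IsHeight ω h) {δ : ℝ} (hδ : 0 < δ)
    {f : ℝ × ℝ → ℝ} (hf : Integrable f) {R : ℝ}
    (hR : ∀ x : ℝ × ℝ, f x ≠ 0 → |x.1| ≤ R ∧ |x.2| ≤ R) {N : ℕ} (hN : R / δ + 1 ≤ N) :
    xs h δ f (N + 1) - hint h δ f = ∑ q ∈ hbox (N + 1), ev q *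
      ((h q : ℝ) * (2 * δ ^ 2 * f (δ * q.1, δ * q.2) - cI f δ q - cI f δ (q.1, q.2 - 1)) +
        ar ω (Sum.inl q) * cI f δ (q.1, q.2 - 1)) := by
  have hN' : R / δ + 1 ≤ ((N + 1 : ℕ) : ℝ) := by push_cast; linarith
  have hz : ∀ v, v ∉ hbox N → cI f δ v = 0 := fun v hv => cell_zero hδ hN hR hv
  have h1 : hint h δ f = ∑ q ∈ hbox (N + 1), (h q : ℝ) * cI f δ q := hint_cells h hδ hf hR hN'
  set g : ℤ × ℤ → ℝ := fun q => (1 - ev q) * ((h q : ℝ) * cI f δ q) with hg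
  have g1 : ∑' q, g q = ∑ q ∈ hbox (N + 1), g q := by
    refine tsum_eq_sum (fun q hq => ?_)
    rw [hg]
    simp only
    rw [hz q (fun h => hq (hbox_mono h)), mul_zero, mul_zero]
  have g2 : ∑' q : ℤ × ℤ, g (q.1, q.2 - 1) = ∑ q ∈ hbox (N + 1), g (q.1, q.2 - 1) := by
    refine tsum_eq_sum (fun q hq => ?_)
    rw [hg]
    simp only
    rw [hz _ (fun h => hq (hbox_succ h)), mul_zero, mul_zero]
  have g3 : ∑' q : ℤ × ℤ, g (q.1, q.2 - 1) = ∑' q, g q := by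
    have := (Equiv.subRight ((0, 1) : ℤ × ℤ)).tsum_eq g
    rw [← this]
    refine tsum_congr (fun q => ?_)
    rw [Equiv.subRight_apply]
    congr 1
    refine Prod.ext ?_ ?_ <;> simp
  have h2 : hint h δ f = ∑ q ∈ hbox (N + 1), ev q * ((h q : ℝ) * cI f δ q +
      (h (q.1, q.2 - 1) : ℝ) * cI f δ (q.1, q.2 - 1)) := by
    have e1 : ∑ q ∈ hbox (N + 1), (h q : ℝ) * cI f δ q =
        ∑ q ∈ hbox (N + 1), ev q * ((h q : ℝ) * cI f δ q) + ∑ q ∈ hbox (N + 1), g q := by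
      rw [← Finset.sum_add_distrib]
      refine Finset.sum_congr rfl (fun q _ => ?_)
      rw [hg]; ring
    rw [h1, e1, ← g1, ← g3, g2, ← Finset.sum_add_distrib]
    refine Finset.sum_congr rfl (fun q _ => ?_)
    rw [hg]
    simp only
    rw [ev_shift]
    ring
  rw [h2]
  unfold xs
  rw [Finset.mul_sum, ← Finset.sum_sub_distrib]
  refine Finset.sum_congr rfl (fun q _ => ?_)
  have h3 : (h (q.1, q.2 - 1) : ℝ) = (h q : ℝ) - ar ω (Sum.inl q) := by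
    have h4 : h (q.1, q.2) - h (q.1, q.2 - 1) = sgb (ω (Sum.inl (q.1, q.2))) := (hh q.1 q.2).1
    have h5 : h (q.1, q.2 - 1) = h q - sgb (ω (Sum.inl q)) := by
      rw [show q = (q.1, q.2) from rfl]
      linarith
    rw [h5]
    push_cast
    rfl
  rw [h3]
  ring

/-! ### Bounds -/

lemma hcell_vol {δ : ℝ} (hδ : 0 < δ) (q : ℤ × ℤ) : (volume : Measure (ℝ × ℝ)).real (hcell δ q) = δ ^ 2 := by
  unfold hcell Measure.real
  rw [Measure.volume_eq_prod, Measure.prod_prod, Real.volume_Ico, Real.volume_Ico,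
    ENNReal.toReal_mul]
  rw [show δ * ((q.1 : ℝ) + 1) - δ * q.1 = δ by ring, show δ * ((q.2 : ℝ) + 1) - δ * q.2 = δ by ring,
    ENNReal.toReal_ofReal hδ.le]
  ring

lemma hcell_fin {δ : ℝ} (q : ℤ × ℤ) : (volume : Measure (ℝ × ℝ)) (hcell δ q) < ⊤ := by
  unfold hcell
  rw [Measure.volume_eq_prod, Measure.prod_prod, Real.volume_Ico, Real.volume_Ico]
  exact ENNReal.mul_lt_top ENNReal.ofReal_lt_top ENNReal.ofReal_lt_top

lemma cI_abs {f : ℝ × ℝ → ℝ} {F : ℝ} (hF : ∀ x, |f x| ≤ F) {δ : ℝ} (hδ : 0 < δ) (q : ℤ × ℤ) :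
    |cI f δ q| ≤ F * δ ^ 2 := by
  unfold cI
  rw [← hcell_vol hδ q, ← Real.norm_eq_abs]
  exact norm_setIntegral_le_of_norm_le_const (hcell_fin q) (fun x _ => by
    rw [Real.norm_eq_abs]; exact hF x)

lemma cI_sub {f : ℝ × ℝ → ℝ} (hf : Integrable f) {L : ℝ} (hL0 : 0 ≤ L)
    (hL : ∀ x y, |f x - f y| ≤ L * ‖x - y‖) {δ : ℝ} (hδ : 0 < δ) (q : ℤ × ℤ) :
    |cI f δ q - δ ^ 2 * f (δ * q.1, δ * q.2)| ≤ L * δ * δ ^ 2 := by
  have e : cI f δ q - δ ^ 2 * f (δ * q.1, δ * q.2) =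
      ∫ x in hcell δ q, (f x - f (δ * q.1, δ * q.2)) := by
    rw [integral_sub hf.integrableOn (integrableOn_const (hcell_fin q).ne), setIntegral_const,
      hcell_vol hδ, smul_eq_mul]
    rfl
  rw [e, ← hcell_vol hδ q, ← Real.norm_eq_abs]
  refine norm_setIntegral_le_of_norm_le_const (hcell_fin q) (fun x hx => ?_)
  rw [Real.norm_eq_abs]
  refine (hL _ _).trans (mul_le_mul_of_nonneg_left ?_ hL0)
  unfold hcell at hx
  rw [Set.mem_prod, Set.mem_Ico, Set.mem_Ico] at hx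
  rw [Prod.norm_def, max_le_iff, Real.norm_eq_abs, Real.norm_eq_abs, abs_le, abs_le]
  simp only [Prod.fst_sub, Prod.snd_sub]
  have h1 := hx.1.1
  have h2 := hx.1.2
  have h3 := hx.2.1
  have h4 := hx.2.2
  refine ⟨⟨?_, ?_⟩, ⟨?_, ?_⟩⟩ <;> nlinarith

lemma K_abs {f : ℝ × ℝ → ℝ} (hf : Integrable f) {L : ℝ} (hL0 : 0 ≤ L)
    (hL : ∀ x y, |f x - f y| ≤ L * ‖x - y‖) {δ : ℝ} (hδ : 0 < δ) (q : ℤ × ℤ) :
    |2 * δ ^ 2 * f (δ * q.1, δ * q.2) - cI f δ q - cI f δ (q.1, q.2 - 1)| ≤ 3 * L * δ ^ 3 := by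
  have h1 := cI_sub hf hL0 hL hδ q
  have h2 := cI_sub hf hL0 hL hδ (q.1, q.2 - 1)
  have h3 := hL (δ * q.1, δ * q.2) (δ * ((q.1, q.2 - 1) : ℤ × ℤ).1, δ * (((q.1, q.2 - 1) : ℤ × ℤ).2 : ℤ))
  have h4 : ‖((δ * q.1, δ * q.2) : ℝ × ℝ) - (δ * ((q.1, q.2 - 1) : ℤ × ℤ).1,
      δ * (((q.1, q.2 - 1) : ℤ × ℤ).2 : ℤ))‖ ≤ δ := by
    rw [Prod.norm_def, max_le_iff, Real.norm_eq_abs, Real.norm_eq_abs, abs_le, abs_le]
    simp only [Prod.fst_sub, Prod.snd_sub]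
    push_cast
    refine ⟨⟨?_, ?_⟩, ⟨?_, ?_⟩⟩ <;> nlinarith
  have h5 : |f (δ * q.1, δ * q.2) - f (δ * ((q.1, q.2 - 1) : ℤ × ℤ).1,
      δ * (((q.1, q.2 - 1) : ℤ × ℤ).2 : ℤ))| ≤ L * δ :=
    h3.trans (mul_le_mul_of_nonneg_left h4 hL0)
  rw [abs_le] at h1 h2 h5 ⊢
  have h6 : 0 ≤ δ ^ 2 := sq_nonneg δ
  constructor
  · nlinarith [h1.1, h1.2, h2.1, h2.2, mul_le_mul_of_nonneg_left h5.1 h6,
      mul_le_mul_of_nonneg_left h5.2 h6]
  · nlinarith [h1.1, h1.2, h2.1, h2.2, mul_le_mul_of_nonneg_left h5.1 h6,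
      mul_le_mul_of_nonneg_left h5.2 h6]

lemma hbox_card (N : ℕ) : ((hbox N).card : ℝ) = (2 * N + 1) ^ 2 := by
  unfold hbox
  rw [Finset.card_product, Int.card_Icc]
  have : ((N : ℤ) + 1 - -(N : ℤ)).toNat = 2 * N + 1 := by omega
  rw [this]
  push_cast
  ring

/-- Cesàro mean of a function tending to zero. -/
lemma cesaro {u : ℤ × ℤ → ℝ} (hu : Tendsto u cofinite (𝓝 0)) (h1 : ∀ a, |u a| ≤ 1) {ε : ℝ}
    (hε : 0 < ε) : ∃ N0 : ℕ, ∀ N, N0 ≤ N →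
      ∑ q ∈ hbox N, ∑ q' ∈ hbox N, |u (q' - q)| ≤ ε * (2 * N + 1) ^ 4 := by
  have hfin : {a | ¬ |u a| < ε / 2}.Finite := by
    have := (Metric.tendsto_nhds.1 hu) (ε / 2) (by positivity)
    rw [Filter.eventually_cofinite] at this
    refine this.subset (fun a ha => ?_)
    rw [Set.mem_ofPred_eq] at ha ⊢
    rwa [Real.dist_eq, sub_zero]
  set F := hfin.toFinset with hF
  obtain ⟨N0, hN0⟩ := exists_nat_ge (2 * (F.card : ℝ) / ε)
  refine ⟨N0, fun N hN => ?_⟩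
  have key : ∀ q ∈ hbox N, ∑ q' ∈ hbox N, |u (q' - q)| ≤ ε / 2 * (2 * N + 1) ^ 2 + F.card := by
    intro q _
    have h2 : ∀ q' ∈ hbox N, |u (q' - q)| ≤ ε / 2 + (if q' - q ∈ F then (1 : ℝ) else 0) := by
      intro q' _
      split_ifs with h
      · have := h1 (q' - q)
        linarith
      · rw [hF, Set.Finite.mem_toFinset, Set.mem_ofPred_eq, not_not] at h
        linarith
    refine (Finset.sum_le_sum h2).trans ?_
    rw [Finset.sum_add_distrib, Finset.sum_const, nsmul_eq_mul, hbox_card]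
    have h3 : ∑ q' ∈ hbox N, (if q' - q ∈ F then (1 : ℝ) else 0) ≤ F.card := by
      rw [← Finset.sum_filter, Finset.sum_const, nsmul_eq_mul, mul_one]
      exact_mod_cast Finset.card_le_card_of_injOn (fun q' => q' - q)
        (fun q' hq' => (Finset.mem_filter.1 hq').2) (fun a _ b _ h => sub_left_injective h)
    linarith
  refine (Finset.sum_le_sum key).trans ?_
  rw [Finset.sum_const, nsmul_eq_mul, hbox_card]
  have h4 : (F.card : ℝ) ≤ ε / 2 * (2 * N + 1) ^ 2 := by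
    have h5 : 2 * (F.card : ℝ) / ε ≤ N := hN0.trans (by exact_mod_cast hN)
    rw [div_le_iff₀ hε] at h5
    have h6 : (0 : ℝ) ≤ N := Nat.cast_nonneg N
    nlinarith [mul_nonneg hε.le h6, mul_nonneg hε.le (mul_nonneg h6 h6)]
  have h7 : (0 : ℝ) ≤ (2 * (N : ℝ) + 1) ^ 2 := sq_nonneg _
  nlinarith [mul_le_mul_of_nonneg_left h4 h7]

end Vale.Agent.P145.FP
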