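import Vale.Agent.P145.FP.Clt

/-!
The law of the observables of the spin model from weaker properties of the six-vertex measure,
available for all `0 < c ≤ 2`: decay of the correlations of the arrows in one direction only and a
linear bound for the second moment of the height.
-/

namespace Vale.Agent.P145.FP

open Finset Filter Topology MeasureTheory ProbabilityTheory
open Vale.Agent.P152 (Edge Ori Ice sgb pth pth_isHeight sqp sqp_integrable pth_integrable)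
open Vale.Agent.P152.GFF.S (hcell hbox hint hint_cells cell_zero ar idx_mem ar_abs ar_measurable
  bound_of_compact hint_aemeasurable)

/-- The properties of the six-vertex measure that are used here (weak form, for all `0 < c ≤ 2`). -/
structure HypW (P : Measure (Ori (ℤ × ℤ))) : Prop where
  ice : ∀ᵐ ω ∂P, ∀ x y, Ice ω x y
  cc : ∀ ε > 0, ∃ D : ℕ, ∀ a : ℤ × ℤ, (D : ℤ) ≤ |a.1| →
    |∫ ω, ar ω (Sum.inl 0) * ar ω (Sum.inl a) ∂P| ≤ ε
  tra : ∀ a : ℤ × ℤ, P.map (fun ω e => ω (Sum.map (· + a) (· + a) e)) = P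
  var : ∃ C : ℝ, 0 ≤ C ∧ ∀ q : ℤ × ℤ, ∫ ω, sqp q ω ∂P ≤ C * (1 + (|q.1| + |q.2| : ℤ))

variable {P : Measure (Ori (ℤ × ℤ))} [IsProbabilityMeasure P]

lemma cesaro_w {u : ℤ × ℤ → ℝ}
    (hu : ∀ ε > 0, ∃ D : ℕ, ∀ a : ℤ × ℤ, (D : ℤ) ≤ |a.1| → |u a| ≤ ε) (h1 : ∀ a, |u a| ≤ 1)
    {ε : ℝ} (hε : 0 < ε) : ∃ N0 : ℕ, ∀ N, N0 ≤ N →
      ∑ q ∈ hbox N, ∑ q' ∈ hbox N, |u (q' - q)| ≤ ε * (2 * N + 1) ^ 4 := by
  obtain ⟨D, hD⟩ := hu (ε / 2) (by positivity)
  obtain ⟨N0, hN0⟩ := exists_nat_ge (2 * (2 * (D : ℝ) + 1) / ε)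
  refine ⟨N0, fun N hN => ?_⟩
  have key : ∀ q ∈ hbox N, ∑ q' ∈ hbox N, |u (q' - q)| ≤
      ε / 2 * (2 * N + 1) ^ 2 + (2 * D + 1) * (2 * N + 1) := by
    intro q _
    have h2 : ∀ q' ∈ hbox N, |u (q' - q)| ≤
        ε / 2 + (if |(q' - q).1| < (D : ℤ) then (1 : ℝ) else 0) := by
      intro q' _
      split_ifs with h
      · have := h1 (q' - q)
        linarith
      · have := hD (q' - q) (not_lt.1 h)
        linarith
    refine (Finset.sum_le_sum h2).trans ?_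
    rw [Finset.sum_add_distrib, Finset.sum_const, nsmul_eq_mul, hbox_card]
    have h3 : ∑ q' ∈ hbox N, (if |(q' - q).1| < (D : ℤ) then (1 : ℝ) else 0) ≤
        (2 * D + 1) * (2 * N + 1) := by
      rw [← Finset.sum_filter, Finset.sum_const, nsmul_eq_mul, mul_one]
      have h4 : ((hbox N).filter (fun q' => |(q' - q).1| < (D : ℤ))).card ≤
          (Finset.Icc (q.1 - D) (q.1 + D) ×ˢ Finset.Icc (-(N : ℤ)) N).card := by
        refine Finset.card_le_card (fun q' hq' => ?_)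
        rw [Finset.mem_filter] at hq'
        unfold hbox at hq'
        rw [Finset.mem_product] at hq' ⊢
        refine ⟨?_, hq'.1.2⟩
        have h5 := abs_lt.1 hq'.2
        rw [Prod.fst_sub] at h5
        rw [Finset.mem_Icc]
        constructor <;> linarith [h5.1, h5.2]
      have h6 : (Finset.Icc (q.1 - D) (q.1 + D) ×ˢ Finset.Icc (-(N : ℤ)) N).card =
          (2 * D + 1) * (2 * N + 1) := by
        rw [Finset.card_product, Int.card_Icc, Int.card_Icc]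
        congr 1 <;> omega
      rw [h6] at h4
      exact_mod_cast h4
    linarith
  refine (Finset.sum_le_sum key).trans ?_
  rw [Finset.sum_const, nsmul_eq_mul, hbox_card]
  have h4 : (2 * (D : ℝ) + 1) ≤ ε / 2 * (2 * N + 1) := by
    have h5 : 2 * (2 * (D : ℝ) + 1) / ε ≤ N := hN0.trans (by exact_mod_cast hN)
    rw [div_le_iff₀ hε] at h5
    have h6 : (0 : ℝ) ≤ N := Nat.cast_nonneg N
    nlinarith [mul_nonneg hε.le h6]
  have h8 : (0 : ℝ) ≤ 2 * (N : ℝ) + 1 := by positivity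
  have h7 : (0 : ℝ) ≤ (2 * (N : ℝ) + 1) ^ 2 := sq_nonneg _
  have h9 : (2 * (D : ℝ) + 1) * (2 * N + 1) ≤ ε / 2 * (2 * N + 1) ^ 2 := by
    have := mul_le_mul_of_nonneg_right h4 h8
    linarith
  nlinarith [mul_le_mul_of_nonneg_left h9 h7]

omit [IsProbabilityMeasure P] in
lemma corr_tr_w (hP : HypW P) (q q' : ℤ × ℤ) : ∫ ω, ar ω (Sum.inl q) * ar ω (Sum.inl q') ∂P =
    ∫ ω, ar ω (Sum.inl 0) * ar ω (Sum.inl (q' - q)) ∂P := by
  conv_rhs => rw [← hP.tra q]
  rw [integral_map (shift_meas q).aemeasurable (prod_meas _ _).aestronglyMeasurable]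
  refine integral_congr_ae (Eventually.of_forall (fun ω => ?_))
  simp only [ar, Sum.map_inl, zero_add, sub_add_cancel]

lemma abs_pth_int_w (q : ℤ × ℤ) {r : ℝ} (hr : 0 < r) :
    ∫ ω, |(pth ω q : ℝ)| ∂P ≤ (r + (∫ ω, sqp q ω ∂P) / r) / 2 := by
  have h1 : ∫ ω, |(pth ω q : ℝ)| ∂P ≤ ∫ ω, ((r + sqp q ω / r) / 2) ∂P := by
    refine integral_mono (pth_integrable q).abs (((integrable_const r).add
      ((sqp_integrable q).div_const r)).div_const 2) (fun ω => ?_)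
    simp only [sqp]
    have h2 : 0 ≤ (|(pth ω q : ℝ)| - r) ^ 2 := sq_nonneg _
    have h3 : |(pth ω q : ℝ)| ^ 2 = (pth ω q : ℝ) ^ 2 := sq_abs _
    have h6 : (pth ω q : ℝ) ^ 2 / r * r = (pth ω q : ℝ) ^ 2 := div_mul_cancel₀ _ hr.ne'
    have h7 : |(pth ω q : ℝ)| * r ≤ (r + (pth ω q : ℝ) ^ 2 / r) / 2 * r := by nlinarith
    exact le_of_mul_le_mul_right h7 hr
  refine h1.trans (le_of_eq ?_)
  rw [integral_div, integral_add (integrable_const r) ((sqp_integrable q).div_const r),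
    integral_div]
  simp

lemma EB_w (hP : HypW P) (S : Finset (ℤ × ℤ)) (I : ℤ × ℤ → ℝ) {k : ℝ} (hk : ∀ q, |I q| ≤ k) :
    ∫ ω, (∑ q ∈ S, ev q * (ar ω (Sum.inl q) * I q)) ^ 2 ∂P ≤
      k ^ 2 * ∑ q ∈ S, ∑ q' ∈ S, |∫ ω, ar ω (Sum.inl 0) * ar ω (Sum.inl (q' - q)) ∂P| := by
  have hk0 : 0 ≤ k := (abs_nonneg _).trans (hk 0)
  have e : ∀ ω : Ori (ℤ × ℤ), (∑ q ∈ S, ev q * (ar ω (Sum.inl q) * I q)) ^ 2 =
      ∑ q ∈ S, ∑ q' ∈ S, (ev q * I q * (ev q' * I q')) *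
        (ar ω (Sum.inl q) * ar ω (Sum.inl q')) := by
    intro ω
    rw [sq, Finset.sum_mul_sum]
    refine Finset.sum_congr rfl (fun q _ => Finset.sum_congr rfl (fun q' _ => ?_))
    ring
  simp only [e]
  have hi : ∀ q q', Integrable (fun ω => (ev q * I q * (ev q' * I q')) *
        (ar ω (Sum.inl q) * ar ω (Sum.inl q'))) P := fun q q' => (prod_int _ _).const_mul _
  rw [integral_finsetSum _ (fun q _ => integrable_finsetSum _ (fun q' _ => hi q q')),
    Finset.mul_sum]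
  refine Finset.sum_le_sum (fun q _ => ?_)
  rw [integral_finsetSum _ (fun q' _ => hi q q'), Finset.mul_sum]
  refine Finset.sum_le_sum (fun q' _ => ?_)
  rw [integral_const_mul, corr_tr_w hP]
  refine (le_abs_self _).trans ?_
  rw [abs_mul]
  refine mul_le_mul_of_nonneg_right ?_ (abs_nonneg _)
  have b : ∀ q, |ev q * I q| ≤ k := by
    intro q
    rw [abs_mul]
    calc |ev q| * |I q| ≤ 1 * k := mul_le_mul (ev_abs q) (hk q) (abs_nonneg _) zero_le_one
      _ = k := one_mul k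
  rw [abs_mul, sq]
  exact mul_le_mul (b q) (b q') (abs_nonneg _) hk0

omit [IsProbabilityMeasure P] in
lemma pth_moment_w (hP : HypW P) : ∃ C : ℝ, 0 ≤ C ∧ ∀ (N : ℕ) (q : ℤ × ℤ), q ∈ hbox N →
    ∫ ω, sqp q ω ∂P ≤ C * (2 * N + 1) := by
  obtain ⟨C, hC, h⟩ := hP.var
  refine ⟨C, hC, fun N q hq => (h q).trans (mul_le_mul_of_nonneg_left ?_ hC)⟩
  unfold hbox at hq
  rw [Finset.mem_product, Finset.mem_Icc, Finset.mem_Icc] at hq
  have h1 : |q.1| + |q.2| ≤ 2 * N := by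
    have a1 := abs_le.2 hq.1
    have a2 := abs_le.2 hq.2
    linarith
  have h3 : ((|q.1| + |q.2| : ℤ) : ℝ) ≤ 2 * N := by exact_mod_cast h1
  linarith

/-- The two observables are close in `L¹`. -/
theorem xs_close_w (hP : HypW P) {f : ℝ × ℝ → ℝ} (hf : Integrable f) {R F L : ℝ} (hR0 : 0 < R)
    (hR : ∀ x : ℝ × ℝ, f x ≠ 0 → |x.1| ≤ R ∧ |x.2| ≤ R) (hF : ∀ x, |f x| ≤ F) (hL0 : 0 ≤ L)
    (hL : ∀ x y, |f x - f y| ≤ L * ‖x - y‖) :
    Tendsto (fun δ : ℝ => ∫ ω, |xs (pth ω) δ f (NN R δ + 1) - hint (pth ω) δ f| ∂P) (𝓝[>] 0)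
      (𝓝 0) := by
  obtain ⟨C, hC, hmom⟩ := pth_moment_w hP
  set A0 : ℝ := 2 * R + 7 with hA0
  have hA0' : 7 < A0 := by linarith
  have hF0 : 0 ≤ F := (abs_nonneg _).trans (hF 0)
  rw [Metric.tendsto_nhds]
  intro ε hε
  -- the error of the smooth part
  have t1 : Tendsto (fun δ : ℝ => A0 ^ 2 * (3 * L) * ((1 + C) / 2 * √A0) * √δ) (𝓝[>] 0)
      (𝓝 0) := by
    have a1 : Tendsto (fun δ : ℝ => √δ) (𝓝[>] 0) (𝓝 (√0)) :=
      (Real.continuous_sqrt.tendsto 0).mono_left nhdsWithin_le_nhds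
    rw [Real.sqrt_zero] at a1
    have := a1.const_mul (A0 ^ 2 * (3 * L) * ((1 + C) / 2 * √A0))
    simpa using this
  set s : ℝ := ε / 3 with hs
  have hs0 : 0 < s := by rw [hs]; positivity
  set ε' : ℝ := s ^ 2 / (F ^ 2 * A0 ^ 4 + 1) with hε'
  have hε'0 : 0 < ε' := by rw [hε']; positivity
  obtain ⟨N0, hN0⟩ := cesaro_w hP.cc (fun a => corr_abs _ _) hε'0
  have hpos : ∀ᶠ δ : ℝ in 𝓝[>] 0, 0 < δ := self_mem_nhdsWithin
  have hle : ∀ c : ℝ, 0 < c → ∀ᶠ δ : ℝ in 𝓝[>] 0, δ ≤ c := fun c hc =>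
    mem_nhdsWithin_of_mem_nhds (Iic_mem_nhds hc)
  filter_upwards [hpos, hle 1 one_pos, hle (R / (N0 + 1)) (by positivity),
    (Metric.tendsto_nhds.1 t1) (ε / 3) (by positivity)] with δ hδ hδ1 hδ2 hδ3
  rw [Real.dist_eq, sub_zero, abs_of_nonneg (integral_nonneg (fun ω => abs_nonneg _))]
  rw [Real.dist_eq, sub_zero] at hδ3
  set N := NN R δ with hN
  have hNb := NN_le hR0 hδ hδ1
  rw [← hN] at hNb
  have hNge := NN_ge R δ
  rw [← hN] at hNge
  have hN0N : N0 ≤ N + 1 := by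
    have h1 : (N0 : ℝ) + 1 ≤ R / δ := by
      rw [le_div_iff₀ hδ]
      rw [le_div_iff₀ (by positivity)] at hδ2
      linarith
    have h2 : (N0 : ℝ) ≤ N := by linarith
    have h3 : N0 ≤ N := by exact_mod_cast h2
    omega
  set X1 : Ori (ℤ × ℤ) → ℝ := fun ω => ∑ q ∈ hbox (N + 1), ev q * ((pth ω q : ℝ) *
    (2 * δ ^ 2 * f (δ * q.1, δ * q.2) - cI f δ q - cI f δ (q.1, q.2 - 1))) with hX1
  set X2 : Ori (ℤ × ℤ) → ℝ := fun ω => ∑ q ∈ hbox (N + 1), ev q * (ar ω (Sum.inl q) *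
    cI f δ (q.1, q.2 - 1)) with hX2
  have hsplit : ∀ᵐ ω ∂P, |xs (pth ω) δ f (N + 1) - hint (pth ω) δ f| ≤ |X1 ω| + |X2 ω| := by
    filter_upwards [hP.ice] with ω hω
    rw [xs_sub (pth_isHeight hω) hδ hf hR hNge]
    refine le_trans (le_of_eq ?_) (abs_add_le (X1 ω) (X2 ω))
    congr 1
    rw [hX1, hX2]
    simp only
    rw [← Finset.sum_add_distrib]
    refine Finset.sum_congr rfl (fun q _ => ?_)
    ring
  have i1 : Integrable X1 P :=
    integrable_finsetSum _ (fun q _ => ((pth_integrable q).mul_const _).const_mul _)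
  have mX2 : Measurable X2 :=
    Finset.measurable_sum _ (fun q _ => ((ar_measurable _).mul_const _).const_mul _)
  have bX2 : ∀ ω, |X2 ω| ≤ ∑ q ∈ hbox (N + 1), |cI f δ (q.1, q.2 - 1)| := by
    intro ω
    rw [hX2]
    refine (Finset.abs_sum_le_sum_abs _ _).trans (Finset.sum_le_sum (fun q _ => ?_))
    rw [abs_mul, abs_mul, ar_abs, one_mul]
    calc |ev q| * |cI f δ (q.1, q.2 - 1)| ≤ 1 * |cI f δ (q.1, q.2 - 1)| :=
          mul_le_mul_of_nonneg_right (ev_abs q) (abs_nonneg _)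
      _ = _ := one_mul _
  have i2 : Integrable X2 P := Integrable.of_bound mX2.aestronglyMeasurable _
    (Eventually.of_forall (fun ω => by rw [Real.norm_eq_abs]; exact bX2 ω))
  have i3 : Integrable (fun ω => X2 ω ^ 2) P := by
    refine Integrable.of_bound (mX2.pow_const 2).aestronglyMeasurable
      ((∑ q ∈ hbox (N + 1), |cI f δ (q.1, q.2 - 1)|) ^ 2) (Eventually.of_forall (fun ω => ?_))
    rw [Real.norm_eq_abs, abs_pow]
    exact pow_le_pow_left₀ (abs_nonneg _) (bX2 ω) 2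
  -- first part
  have hcard : (((hbox (N + 1)).card : ℕ) : ℝ) = (2 * ((N + 1 : ℕ) : ℝ) + 1) ^ 2 := hbox_card _
  set Y : ℝ := 2 * ((N + 1 : ℕ) : ℝ) + 1 with hY
  have hY0 : 0 < Y := by positivity
  have hYr : √Y * √Y = Y := Real.mul_self_sqrt hY0.le
  have hsY : 0 < √Y := Real.sqrt_pos.2 hY0
  have hA := EA (P := P) (hbox (N + 1)) (fun q => 2 * δ ^ 2 * f (δ * q.1, δ * q.2) - cI f δ q -
    cI f δ (q.1, q.2 - 1)) (k := 3 * L * δ ^ 3)
    (M := (1 + C) / 2 * √Y)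
    (fun q => K_abs hf hL0 hL hδ q) (by positivity)
    (fun q hq => by
      refine (abs_pth_int_w q hsY).trans ?_
      have h1 := hmom (N + 1) q hq
      have h2 : (∫ ω, sqp q ω ∂P) / √Y ≤ C * √Y := by
        rw [div_le_iff₀ hsY, mul_assoc, hYr]
        exact h1
      linarith)
  have hA' : ∫ ω, |X1 ω| ∂P ≤ A0 ^ 2 * (3 * L) * ((1 + C) / 2 * √A0) * √δ := by
    refine hA.trans ?_
    rw [hcard]
    have h4 : (δ * Y) ^ 2 ≤ A0 ^ 2 := pow_le_pow_left₀ (by positivity) hNb 2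
    have h5 : δ * √Y ≤ √A0 * √δ := by
      have e1 : δ * √Y = √(δ * Y) * √δ := by
        rw [Real.sqrt_mul hδ.le]
        have := Real.mul_self_sqrt hδ.le
        calc δ * √Y = (√δ * √δ) * √Y := by rw [this]
          _ = √δ * √Y * √δ := by ring
      rw [e1]
      exact mul_le_mul_of_nonneg_right (Real.sqrt_le_sqrt hNb) (Real.sqrt_nonneg _)
    calc Y ^ 2 * ((1 + C) / 2 * √Y * (3 * L * δ ^ 3))
        = (δ * Y) ^ 2 * ((3 * L) * ((1 + C) / 2 * (δ * √Y))) := by ring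
      _ ≤ A0 ^ 2 * ((3 * L) * ((1 + C) / 2 * (δ * √Y))) :=
          mul_le_mul_of_nonneg_right h4 (by positivity)
      _ ≤ A0 ^ 2 * ((3 * L) * ((1 + C) / 2 * (√A0 * √δ))) := by
          refine mul_le_mul_of_nonneg_left ?_ (by positivity)
          refine mul_le_mul_of_nonneg_left ?_ (by positivity)
          exact mul_le_mul_of_nonneg_left h5 (by positivity)
      _ = _ := by ring
  -- second part
  have hB := EB_w hP (hbox (N + 1)) (fun q => cI f δ (q.1, q.2 - 1)) (k := F * δ ^ 2)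
    (fun q => cI_abs hF hδ _)
  have hB' : ∫ ω, X2 ω ^ 2 ∂P ≤ s ^ 2 := by
    refine hB.trans ?_
    have h1 := hN0 (N + 1) hN0N
    have h4 : (δ * Y) ^ 4 ≤ A0 ^ 4 := pow_le_pow_left₀ (by positivity) hNb 4
    calc (F * δ ^ 2) ^ 2 * _ ≤ (F * δ ^ 2) ^ 2 * (ε' * Y ^ 4) :=
          mul_le_mul_of_nonneg_left h1 (sq_nonneg _)
      _ = F ^ 2 * ε' * (δ * Y) ^ 4 := by ring
      _ ≤ F ^ 2 * ε' * A0 ^ 4 := mul_le_mul_of_nonneg_left h4 (by positivity)
      _ = s ^ 2 * ((F ^ 2 * A0 ^ 4) / (F ^ 2 * A0 ^ 4 + 1)) := by rw [hε']; ring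
      _ ≤ s ^ 2 * 1 := by
          refine mul_le_mul_of_nonneg_left ?_ (sq_nonneg _)
          rw [div_le_one (by positivity)]
          linarith
      _ = s ^ 2 := mul_one _
  have hB'' : ∫ ω, |X2 ω| ∂P ≤ s := by
    refine (abs_le_sq i2 i3 hs0).trans ?_
    have : (∫ ω, X2 ω ^ 2 ∂P) / s ≤ s := by
      rw [div_le_iff₀ hs0]
      linarith [sq s]
    linarith
  calc ∫ ω, |xs (pth ω) δ f (N + 1) - hint (pth ω) δ f| ∂P
      ≤ ∫ ω, (|X1 ω| + |X2 ω|) ∂P := by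
        refine integral_mono_of_nonneg (Eventually.of_forall (fun ω => abs_nonneg _))
          (i1.abs.add i2.abs) hsplit
    _ = ∫ ω, |X1 ω| ∂P + ∫ ω, |X2 ω| ∂P := integral_add i1.abs i2.abs
    _ < ε := by
        have h5 := (le_abs_self _).trans_lt hδ3
        have : s = ε / 3 := hs
        linarith

/-- The observables are close. -/
lemma fld_close_w (hP : HypW P) {φ : ℝ × ℝ → ℝ} (hφ : Test φ) :
    Tendsto (fun δ : ℝ => ∫ ω, |fld (Hc ω) δ φ - hint (pth ω) δ (rot φ)| ∂P) (𝓝[>] 0) (𝓝 0) := by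
  have hc : Continuous (rot φ) := (rot_smooth hφ.1).continuous
  obtain ⟨R, hR0, hR⟩ := bound_of_compact (rot_compact hφ.2.1)
  obtain ⟨F, hF⟩ := hc.bounded_above_of_compact_support (rot_compact hφ.2.1)
  obtain ⟨L, hL⟩ := ((rot_smooth hφ.1).of_le (m := 1) (by
    exact_mod_cast le_top)).lipschitzWith_of_hasCompactSupport (rot_compact hφ.2.1) one_ne_zero
  have h := xs_close_w hP (hc.integrable_of_hasCompactSupport (rot_compact hφ.2.1)) (R := R) (F := F)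
    (L := L) hR0 hR (fun x => by have := hF x; rwa [Real.norm_eq_abs] at this) L.coe_nonneg
    (fun x y => by
      have := hL.dist_le_mul x y
      rwa [Real.dist_eq, dist_eq_norm] at this)
  refine h.congr' ?_
  filter_upwards [self_mem_nhdsWithin] with δ hδ
  have hδ0 : 0 < δ := hδ
  have hN := NN_ge R δ
  refine integral_congr_ae (Eventually.of_forall (fun ω => ?_))
  simp only
  rw [← fld_eq (h := pth ω) (H := Hc ω) (fun v => rfl) hR hδ0 (N := NN R δ + 1)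
    (by push_cast; linarith)]

/-- Convergence in measure of the difference. -/
lemma diff_measure_w (hP : HypW P) {m : ℕ} {φ : Fin m → ℝ × ℝ → ℝ} (hφ : ∀ j, Test (φ j))
    (hX : ∀ δ, AEMeasurable (fun ω => (WithLp.toLp 2 (fun j => hint (pth ω) δ (rot (φ j))) :
      EuclideanSpace ℝ (Fin m))) P) :
    TendstoInMeasure P ((fun δ => gv φ δ) - (fun (δ : ℝ) (ω : Ori (ℤ × ℤ)) =>
      (WithLp.toLp 2 (fun j => hint (pth ω) δ (rot (φ j))) : EuclideanSpace ℝ (Fin m))))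
      (𝓝[>] 0) 0 := by
  set X : ℝ → Ori (ℤ × ℤ) → EuclideanSpace ℝ (Fin m) := fun δ ω =>
    WithLp.toLp 2 (fun j => hint (pth ω) δ (rot (φ j))) with hXd
  refine tendstoInMeasure_of_tendsto_eLpNorm (p := 1) one_ne_zero (fun δ => ?_)
    aestronglyMeasurable_zero ?_
  · exact ((gv_meas (fun j => (hφ j).2.1) δ).aemeasurable.sub (hX δ)).aestronglyMeasurable
  · have hlim : Tendsto (fun δ : ℝ => ∑ j, ENNReal.ofReal
        (∫ ω, |fld (Hc ω) δ (φ j) - hint (pth ω) δ (rot (φ j))| ∂P)) (𝓝[>] 0) (𝓝 0) := by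
      have h1 : Tendsto (fun δ : ℝ => ∑ j, ENNReal.ofReal
          (∫ ω, |fld (Hc ω) δ (φ j) - hint (pth ω) δ (rot (φ j))| ∂P)) (𝓝[>] 0)
          (𝓝 (∑ _j : Fin m, ENNReal.ofReal 0)) :=
        tendsto_finsetSum _ (fun j _ => (ENNReal.continuous_ofReal.tendsto 0).comp
          (fld_close_w hP (hφ j)))
      simpa using h1
    refine tendsto_of_tendsto_of_tendsto_of_le_of_le' tendsto_const_nhds hlim
      (Eventually.of_forall (fun δ => zero_le)) ?_
    filter_upwards [self_mem_nhdsWithin] with δ hδ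
    have hδ0 : 0 < δ := hδ
    rw [eLpNorm_one_eq_lintegral_enorm]
    have hint1 : ∀ j, Integrable (fun ω => |fld (Hc ω) δ (φ j) - hint (pth ω) δ (rot (φ j))|) P :=
      fun j => ((fld_integrable (hφ j).2.1 hδ0).sub (hint_integrable
        (rot_smooth (hφ j).1).continuous (rot_compact (hφ j).2.1) hδ0)).abs
    calc ∫⁻ ω, ‖(((fun δ => gv φ δ) - X) δ - 0) ω‖ₑ ∂P
        ≤ ∫⁻ ω, ∑ j, ENNReal.ofReal |fld (Hc ω) δ (φ j) - hint (pth ω) δ (rot (φ j))| ∂P := by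
          refine lintegral_mono (fun ω => ?_)
          have e : (((fun δ => gv φ δ) - X) δ - 0) ω =
              WithLp.toLp 2 (fun j => fld (Hc ω) δ (φ j) - hint (pth ω) δ (rot (φ j))) := by
            rw [sub_zero]
            rfl
          rw [e, ← ofReal_norm]
          rw [← ENNReal.ofReal_sum_of_nonneg (fun j _ => abs_nonneg _)]
          exact ENNReal.ofReal_le_ofReal (norm_toLp_le _)
      _ = ∑ j, ∫⁻ ω, ENNReal.ofReal |fld (Hc ω) δ (φ j) - hint (pth ω) δ (rot (φ j))| ∂P := by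
          refine lintegral_finsetSum' _ (fun j _ => ?_)
          exact (hint1 j).aestronglyMeasurable.aemeasurable.ennreal_ofReal
      _ = ∑ j, ENNReal.ofReal
          (∫ ω, |fld (Hc ω) δ (φ j) - hint (pth ω) δ (rot (φ j))| ∂P) := by
          refine Finset.sum_congr rfl (fun j _ => ?_)
          rw [ofReal_integral_eq_lintegral_ofReal (hint1 j)
            (Eventually.of_forall (fun ω => abs_nonneg _))]

/-- The law of the observables of the spin model. -/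
theorem law_w (hP : HypW P) {σ : ℝ}
    (hclt : ∀ h : Ori (ℤ × ℤ) → ℤ × ℤ → ℤ, (∀ᵐ ω ∂P, P152.IsHeight ω (h ω)) →
      ∀ (m : ℕ) (f : Fin m → ℝ × ℝ → ℝ), (∀ j, P152.GFF.S.Test (f j)) →
        (Matrix.of (fun i j => σ ^ 2 * P152.GFF.S.gffCov (f i) (f j))).PosSemidef ∧
        TendstoInDistribution (fun (δ : ℝ) (ω : Ori (ℤ × ℤ)) =>
          (WithLp.toLp 2 (fun j => hint (h ω) δ (f j)) : EuclideanSpace ℝ (Fin m))) (𝓝[>] 0)
          (id : EuclideanSpace ℝ (Fin m) → EuclideanSpace ℝ (Fin m)) (fun _ => P)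
          (multivariateGaussian 0
            (Matrix.of (fun i j => σ ^ 2 * P152.GFF.S.gffCov (f i) (f j)))))
    {H : Conf → Site → ℝ} (hH : ∀ᵐ s ∂(QQ P), IsHeight s (H s) ∧ H s (Sum.inl 0) = 0)
    [IsProbabilityMeasure (QQ P)] (m : ℕ) (φ : Fin m → ℝ × ℝ → ℝ) (hφ : ∀ j, Test (φ j)) :
    (Matrix.of (fun i j => (σ / 2) ^ 2 * gffCov (φ i) (φ j))).PosSemidef ∧
    TendstoInDistribution (fun (δ : ℝ) (s : Conf) =>
      (WithLp.toLp 2 (fun j => fld (H s) δ (φ j)) : EuclideanSpace ℝ (Fin m))) (𝓝[>] 0)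
      (id : EuclideanSpace ℝ (Fin m) → EuclideanSpace ℝ (Fin m)) (fun _ => QQ P)
      (multivariateGaussian 0 (Matrix.of (fun i j => (σ / 2) ^ 2 * gffCov (φ i) (φ j)))) := by
  have hmat : (Matrix.of (fun i j => σ ^ 2 * P152.GFF.S.gffCov (rot (φ i)) (rot (φ j))) :
      Matrix (Fin m) (Fin m) ℝ) =
      Matrix.of (fun i j => (σ / 2) ^ 2 * gffCov (φ i) (φ j)) := by
    ext i j
    simp only [Matrix.of_apply]
    rw [gffCov_iff, gffCov_rot ((hφ j).1.continuous.integrable_of_hasCompactSupport (hφ j).2.1)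
      (hφ j).2.2]
    ring
  obtain ⟨hpsd, hX⟩ := hclt (fun ω => pth ω) (by
    filter_upwards [hP.ice] with ω hω
    exact pth_isHeight hω) m (fun j => rot (φ j)) (fun j => rot_test (hφ j))
  rw [hmat] at hpsd hX
  refine ⟨hpsd, ?_⟩
  have hg : TendstoInDistribution (fun δ => gv φ δ) (𝓝[>] 0)
      (id : EuclideanSpace ℝ (Fin m) → EuclideanSpace ℝ (Fin m)) (fun _ => P)
      (multivariateGaussian 0 (Matrix.of (fun i j => (σ / 2) ^ 2 * gffCov (φ i) (φ j)))) :=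
    tendstoInDistribution_of_tendstoInMeasure_sub (fun δ => gv φ δ) id hX
      (diff_measure_w hP hφ hX.forall_aemeasurable)
      (fun δ => (gv_meas (fun j => (hφ j).2.1) δ).aemeasurable)
  have hae : ∀ δ : ℝ, (fun s : Conf => (WithLp.toLp 2 (fun j => fld (H s) δ (φ j)) :
      EuclideanSpace ℝ (Fin m))) =ᵐ[QQ P] fun s => gv φ δ (arr s) := by
    intro δ
    filter_upwards [QQ_H hP.ice hH] with s hs
    rw [hs]
    rfl
  have hmeas : ∀ δ : ℝ, Measurable (fun s : Conf => gv φ δ (arr s)) := fun δ =>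
    (gv_meas (fun j => (hφ j).2.1) δ).comp arr_meas
  have hY : ∀ δ : ℝ, AEMeasurable (fun s : Conf =>
      (WithLp.toLp 2 (fun j => fld (H s) δ (φ j)) : EuclideanSpace ℝ (Fin m))) (QQ P) :=
    fun δ => ⟨_, hmeas δ, hae δ⟩
  have hmap : ∀ δ : ℝ, (QQ P).map (fun s : Conf =>
      (WithLp.toLp 2 (fun j => fld (H s) δ (φ j)) : EuclideanSpace ℝ (Fin m))) =
      P.map (gv φ δ) := by
    intro δ
    rw [Measure.map_congr (hae δ)]
    have e : (fun s : Conf => gv φ δ (arr s)) = gv φ δ ∘ arr := rfl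
    rw [e, ← Measure.map_map (gv_meas (fun j => (hφ j).2.1) δ) arr_meas, QQ_arr hP.ice]
  refine ⟨hY, hg.aemeasurable_limit, ?_⟩
  refine hg.tendsto.congr (fun δ => ?_)
  exact Subtype.ext (hmap δ).symm

/-- The swap identity of the six-vertex measure in infinite volume. -/
def SwapI (c : ℝ) (P : Measure (Ori (ℤ × ℤ))) : Prop :=
  ∀ (E : Finset (Edge (ℤ × ℤ))) (V : Finset (ℤ × ℤ)) (K : ℤ),
    (∀ v, (Sum.inl v ∈ E ∨ Sum.inr v ∈ E) → |v.1| ≤ K ∧ |v.2| ≤ K) →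
    (∀ v ∈ V, |v.1| ≤ K ∧ |v.2| ≤ K) → ∀ ξ ξ' : Ori (ℤ × ℤ),
    (∀ v ∈ V, star v ⊆ E) → (∀ e ∈ E, ξ e ≠ ξ' e → Ends V e) →
    P.real (P152.cyl E ξ) * ∏ v ∈ V, vwt c ξ' v = P.real (P152.cyl E ξ') * ∏ v ∈ V, vwt c ξ v

/-- Gibbs property. -/
theorem QQ_gibbs_of {t : ℝ} (ht : t ≠ 0) (hice : ∀ᵐ ω ∂P, ∀ x y, Ice ω x y)
    (hsw : SwapI (1 / t) P) : Gibbs t (QQ P) := by
  intro n σ ρ h
  rw [QQ_cyl hice, QQ_cyl hice, W_eq t ht, W_eq t ht]
  have key := hsw (ED (2 * ((n + 1 : ℕ) : ℤ)))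
    (VD (2 * ((n + 1 : ℕ) : ℤ))) (2 * ((n + 1 : ℕ) : ℤ))
    (by
      intro v hv
      rw [mem_ED_inl, mem_ED_inr] at hv
      unfold inD at hv
      rw [abs_le, abs_le]
      rcases hv with hv | hv <;> omega)
    (by
      intro v hv
      rw [mem_VD] at hv
      unfold inD at hv
      rw [abs_le, abs_le]
      omega)
    (arr σ) (arr ρ)
    (by
      intro v hv e he
      rw [mem_VD] at hv
      unfold star at he
      rw [Finset.mem_insert, Finset.mem_insert, Finset.mem_insert, Finset.mem_singleton] at he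
      rcases he with rfl | rfl | rfl | rfl
      · rw [mem_ED_inl]; exact ⟨hv.2.2.1, hv.2.2.2⟩
      · rw [mem_ED_inl]; exact ⟨hv.1, hv.2.1⟩
      · rw [mem_ED_inr]; exact ⟨hv.2.1, hv.2.2.2⟩
      · rw [mem_ED_inr]; exact ⟨hv.1, hv.2.2.1⟩)
    (by
      intro e he hne
      have hcf : ∀ q : ℤ × ℤ, ¬ inD (2 * n) q → σ (cf q) = ρ (cf q) := by
        intro q hq
        refine h _ (fun hb => hq ?_)
        rw [mem_B, fc_cf] at hb
        exact hb
      rcases e with v | v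
      · rw [arr_inl, arr_inl] at hne
        have h1 : inD (2 * n) v ∨ inD (2 * n) (v.1, v.2 - 1) := by
          by_contra hcon
          rw [not_or] at hcon
          exact hne (by rw [hcf _ hcon.1, hcf _ hcon.2])
        show v ∈ VD _ ∧ (v.1 + 1, v.2) ∈ VD _
        rw [mem_VD, mem_VD]
        unfold inD at h1 ⊢
        simp only at h1 ⊢
        omega
      · rw [arr_inr, arr_inr] at hne
        have h1 : inD (2 * n) v ∨ inD (2 * n) (v.1 - 1, v.2) := by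
          by_contra hcon
          rw [not_or] at hcon
          exact hne (by rw [hcf _ hcon.1, hcf _ hcon.2])
        show v ∈ VD _ ∧ (v.1, v.2 + 1) ∈ VD _
        rw [mem_VD, mem_VD]
        unfold inD at h1 ⊢
        simp only at h1 ⊢
        omega)
  linear_combination (2⁻¹ * t ^ (VD (2 * ((n + 1 : ℕ) : ℤ))).card) * key

end Vale.Agent.P145.FP
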