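import Vale.Agent.P145.FP.Var
import Vale.Agent.P145.FP.Weak

/-!
Decay of the correlations of the arrows, uniformly in the position along the ring, from the data of
the rings.
-/

namespace Vale.Agent.P145.FP

open Finset Filter Topology MeasureTheory Matrix
open Vale.Agent.P152 (Edge Ori Ice sgb)
open Vale.Agent.P152.GFF.S (ar)
open Vale.Agent.P152.GFF.B4 (Cfg Mt sigM Ush Chain)

section

variable {N : ℕ} [NeZero N] {ψ : Cfg N → ℝ} {T : Mt N}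

lemma U_apply (f : Cfg N → ℝ) (s : Cfg N) : (Ush N).mulVec f s = f (fun j => s (j + 1)) := by
  simp only [Matrix.mulVec, dotProduct, Ush]
  rw [Finset.sum_eq_single (fun j => s (j + 1))]
  · rw [if_pos rfl, one_mul]
  · intro b _ hb
    rw [if_neg hb, zero_mul]
  · intro h; exact absurd (mem_univ _) h

lemma U_sig (hsh : ∀ s : Cfg N, ψ (fun j => s (j + 1)) = ψ s) (y : ZMod N) :
    (Ush N).mulVec ((sigM N y).mulVec ψ) = (sigM N (y + 1)).mulVec ψ := by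
  funext s
  rw [U_apply, sigM, sigM, Matrix.mulVec_diagonal, Matrix.mulVec_diagonal, hsh]

lemma U_dot (f g : Cfg N → ℝ) : (Ush N).mulVec f ⬝ᵥ (Ush N).mulVec g = f ⬝ᵥ g := by
  simp only [dotProduct, U_apply]
  exact Equiv.sum_comp (Equiv.arrowCongr (Equiv.subRight (1 : ZMod N)) (Equiv.refl Bool))
    (fun s => f s * g s)

lemma sig_shift (hsh : ∀ s : Cfg N, ψ (fun j => s (j + 1)) = ψ s) (hU : T * Ush N = Ush N * T)
    (m : ℕ) (k : ℕ) :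
    (T ^ m).mulVec ((sigM N (k : ZMod N)).mulVec ψ) ⬝ᵥ
      (T ^ m).mulVec ((sigM N (k : ZMod N)).mulVec ψ) =
    (T ^ m).mulVec ((sigM N 0).mulVec ψ) ⬝ᵥ (T ^ m).mulVec ((sigM N 0).mulVec ψ) := by
  induction k with
  | zero => simp
  | succ k ih =>
    rw [← ih]
    have e1 : (sigM N ((k + 1 : ℕ) : ZMod N)).mulVec ψ =
        (Ush N).mulVec ((sigM N (k : ZMod N)).mulVec ψ) := by
      rw [U_sig hsh]; push_cast; rfl
    have hc : Commute T (Ush N) := hU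
    have hc2 : T ^ m * Ush N = Ush N * T ^ m := hc.pow_left m
    have e3 : (T ^ m).mulVec ((Ush N).mulVec ((sigM N (k : ZMod N)).mulVec ψ)) =
        (Ush N).mulVec ((T ^ m).mulVec ((sigM N (k : ZMod N)).mulVec ψ)) := by
      rw [Matrix.mulVec_mulVec, hc2, ← Matrix.mulVec_mulVec]
    rw [e1, e3, U_dot]

lemma pow_dot (hT : T.IsSymm) (p q : ℕ) (f g : Cfg N → ℝ) :
    f ⬝ᵥ (T ^ (p + q)).mulVec g = (T ^ p).mulVec f ⬝ᵥ (T ^ q).mulVec g := by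
  rw [pow_add, ← Matrix.mulVec_mulVec, Matrix.dotProduct_mulVec, ← Matrix.mulVec_transpose,
    Matrix.transpose_pow, hT.eq]

lemma dot_cs (f g : Cfg N → ℝ) : (f ⬝ᵥ g) ^ 2 ≤ (f ⬝ᵥ f) * (g ⬝ᵥ g) := by
  unfold dotProduct
  have := Finset.sum_mul_sq_le_sq_mul_sq Finset.univ f g
  simpa only [sq] using this

lemma ring_cs (hsh : ∀ s : Cfg N, ψ (fun j => s (j + 1)) = ψ s) (hT : T.IsSymm)
    (hU : T * Ush N = Ush N * T) (p q : ℕ) (x : ZMod N) :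
    ((sigM N 0).mulVec ψ ⬝ᵥ (T ^ (p + q)).mulVec ((sigM N x).mulVec ψ)) ^ 2 ≤
      ((sigM N 0).mulVec ψ ⬝ᵥ (T ^ (p + p)).mulVec ((sigM N 0).mulVec ψ)) *
      ((sigM N 0).mulVec ψ ⬝ᵥ (T ^ (q + q)).mulVec ((sigM N 0).mulVec ψ)) := by
  have h := sig_shift (ψ := ψ) (T := T) hsh hU q x.val
  rw [ZMod.natCast_zmod_val] at h
  rw [pow_dot hT p q, pow_dot hT p p, pow_dot hT q q, ← h]
  exact dot_cs _ _

end

/-- The bound for the infinite-volume correlations. -/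
lemma corr_cs {NN : ℕ → ℕ} [∀ i, NeZero (NN i)] {k v : ℝ} {e : ℕ → ℝ} {ψ : ∀ i, Cfg (NN i) → ℝ}
    {T : ∀ i, Mt (NN i)} {C : ℤ → ℤ → ℝ} {C0 : ℝ} (h : Chain NN k v e ψ T C C0) (x m : ℤ)
    (p q : ℕ) (hm : m.natAbs = p + q) :
    C x m ^ 2 ≤ C 0 ((p + p : ℕ) : ℤ) * C 0 ((q + q : ℕ) : ℤ) := by
  have h1 := (h.cov x m).pow 2
  have h2 := (h.cov 0 ((p + p : ℕ) : ℤ)).mul (h.cov 0 ((q + q : ℕ) : ℤ))
  refine le_of_tendsto_of_tendsto h1 h2 (Eventually.of_forall (fun i => ?_))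
  simp only [Int.natAbs_natCast, hm, Int.cast_zero]
  exact ring_cs (h.psi_shift i) (h.T_symm i) (h.T_comm_U i) p q _

lemma corr_dec {NN : ℕ → ℕ} [∀ i, NeZero (NN i)] {k v : ℝ} {e : ℕ → ℝ} {ψ : ∀ i, Cfg (NN i) → ℝ}
    {T : ∀ i, Mt (NN i)} {C : ℤ → ℤ → ℝ} {C0 : ℝ} (h : Chain NN k v e ψ T C C0) {ε : ℝ}
    (hε : 0 < ε) : ∃ D : ℕ, ∀ x m : ℤ, (D : ℤ) ≤ |m| → |C x m| ≤ ε := by
  obtain ⟨D, hD⟩ := (Metric.tendsto_atTop.1 h.dec) ε hε
  refine ⟨2 * D + 2, fun x m hm => ?_⟩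
  rw [Int.abs_eq_natAbs] at hm
  set p := m.natAbs / 2 with hp
  have h1 := corr_cs h x m p (m.natAbs - p) (by omega)
  have h2 : D ≤ p + p := by omega
  have h3 : D ≤ (m.natAbs - p) + (m.natAbs - p) := by omega
  have h4 := hD _ h2
  have h5 := hD _ h3
  rw [Real.dist_eq, sub_zero] at h4 h5
  have h6 : C x m ^ 2 ≤ ε ^ 2 := by
    refine h1.trans ((le_abs_self _).trans ?_)
    rw [abs_mul, sq]
    exact mul_le_mul h4.le h5.le (abs_nonneg _) hε.le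
  exact abs_le_of_sq_le_sq h6 hε.le

/-- The hypothesis `HypW` from the interface of the six-vertex model. -/
theorem hyp_pln {c : ℝ} {P : Measure (Ori (ℤ × ℤ))} [IsProbabilityMeasure P]
    (hP : P152.GFF.Pln c P) (hC : P152.GFF.ChP c P) : HypW P := by
  have hice := hP.ice.2
  refine ⟨hice, fun ε hε => ?_, fun a => ?_, ?_⟩
  · obtain ⟨NN, hNN, k, v, e, ψ, Λ, C0, -, -, -, hch⟩ := hC
    obtain ⟨D, hD⟩ := corr_dec hch hε
    exact ⟨D, fun a ha => hD a.2 a.1 ha⟩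
  · have e : (fun (ω : Ori (ℤ × ℤ)) e => ω (Sum.map (· + a) (· + a) e)) =
        P152.GFF.B3.shO a.1 a.2 := by
      funext ω e
      rcases e with v | v <;> rfl
    rw [e]; exact hP.shift _ _
  · obtain ⟨C, hC, hgd⟩ := hP.gd
    exact ⟨4 * C + 8, by positivity, fun q => var_gd hice hC hgd q⟩

end Vale.Agent.P145.FP
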