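import Vale.Agent.P145.FP.ConvA
import Mathlib.MeasureTheory.Measure.Lebesgue.EqHaar

/-!
The linear change of variables between the lattice and the rotated lattice.
-/

namespace Vale.Agent.P145.FP

open Finset Filter Topology MeasureTheory
open Vale.Agent.P152 (Edge Ori Ice sgb pth pth_isHeight)
open Vale.Agent.P152.GFF.S (hcell hbox hint hint_cells cell_zero ar idx_mem)

/-- The test function on the rotated lattice. -/
noncomputable def rot (φ : ℝ × ℝ → ℝ) (x : ℝ × ℝ) : ℝ :=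
  1 / 4 * φ ((x.1 + x.2) / 2, (x.2 - x.1) / 2)

/-- The linear map `(u, v) ↦ (u - v, u + v)`. -/
noncomputable def Tl : (ℝ × ℝ) →ₗ[ℝ] (ℝ × ℝ) :=
  Matrix.toLin (Module.Basis.finTwoProd ℝ) (Module.Basis.finTwoProd ℝ) !![1, -1; 1, 1]

lemma Tl_apply (w : ℝ × ℝ) : Tl w = (w.1 - w.2, w.1 + w.2) := by
  unfold Tl
  rw [Matrix.toLin_finTwoProd_apply]
  refine Prod.ext ?_ ?_ <;> simp only <;> ring

lemma Tl_det : LinearMap.det Tl = 2 := by
  unfold Tl
  rw [LinearMap.det_toLin, Matrix.det_fin_two_of]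
  norm_num

/-- The same map as a homeomorphism. -/
noncomputable def Th : (ℝ × ℝ) ≃ₜ (ℝ × ℝ) where
  toFun w := (w.1 - w.2, w.1 + w.2)
  invFun x := ((x.1 + x.2) / 2, (x.2 - x.1) / 2)
  left_inv w := by refine Prod.ext ?_ ?_ <;> simp only <;> ring
  right_inv w := by refine Prod.ext ?_ ?_ <;> simp only <;> ring
  continuous_toFun := by fun_prop
  continuous_invFun := by fun_prop

lemma rot_eq (φ : ℝ × ℝ → ℝ) (x : ℝ × ℝ) : rot φ x = 1 / 4 * φ (Th.symm x) := rfl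

lemma rot_Th (φ : ℝ × ℝ → ℝ) (w : ℝ × ℝ) : rot φ (Th w) = 1 / 4 * φ w := by
  rw [rot_eq, Homeomorph.symm_apply_apply]

/-- Change of variables. -/
lemma int_Th (G : ℝ × ℝ → ℝ) : ∫ x, G x = 2 * ∫ w, G (Th w) := by
  have h1 : Measure.map Th (volume : Measure (ℝ × ℝ)) = ENNReal.ofReal (1 / 2) • volume := by
    have h := Measure.map_linearMap_addHaar_eq_smul_addHaar (volume : Measure (ℝ × ℝ)) (f := Tl)
      (by rw [Tl_det]; norm_num)
    rw [Tl_det] at h
    have e : (⇑Tl : ℝ × ℝ → ℝ × ℝ) = Th := by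
      funext w
      rw [Tl_apply]
      rfl
    rw [e] at h
    rw [h]
    norm_num
  have h2 := integral_map_equiv (μ := (volume : Measure (ℝ × ℝ))) Th.toMeasurableEquiv G
  have e : (⇑Th.toMeasurableEquiv : ℝ × ℝ → ℝ × ℝ) = Th := rfl
  rw [e, h1, integral_smul_measure, ENNReal.toReal_ofReal (by norm_num), smul_eq_mul] at h2
  rw [← h2]
  ring

/-- Subtracting an integrable function of integral zero does not change the integral. -/
lemma int_sub_zero {a b : ℝ × ℝ → ℝ} (hb : Integrable b) (h0 : ∫ x, b x = 0) :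
    ∫ x, (a x - b x) = ∫ x, a x := by
  by_cases ha : Integrable a
  · rw [integral_sub ha hb, h0, sub_zero]
  · rw [integral_undef ha, integral_undef]
    intro h
    apply ha
    have := h.add hb
    refine this.congr (Eventually.of_forall (fun x => ?_))
    simp

lemma green_Th {z w : ℝ × ℝ} (h : w ≠ z) :
    green (Th z) (Th w) = green z w - (2 * Real.pi)⁻¹ * Real.log (Real.sqrt 2) := by
  unfold green
  have e : (Th z).1 = z.1 - z.2 ∧ (Th z).2 = z.1 + z.2 ∧ (Th w).1 = w.1 - w.2 ∧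
      (Th w).2 = w.1 + w.2 := ⟨rfl, rfl, rfl, rfl⟩
  rw [e.1, e.2.1, e.2.2.1, e.2.2.2]
  have h1 : (z.1 - z.2 - (w.1 - w.2)) ^ 2 + (z.1 + z.2 - (w.1 + w.2)) ^ 2 =
      2 * ((z.1 - w.1) ^ 2 + (z.2 - w.2) ^ 2) := by ring
  have h2 : 0 < (z.1 - w.1) ^ 2 + (z.2 - w.2) ^ 2 := by
    by_contra hcon
    push Not at hcon
    have h3 : (z.1 - w.1) ^ 2 = 0 := by nlinarith [sq_nonneg (z.1 - w.1), sq_nonneg (z.2 - w.2)]
    have h4 : (z.2 - w.2) ^ 2 = 0 := by nlinarith [sq_nonneg (z.1 - w.1), sq_nonneg (z.2 - w.2)]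
    have h5 : z.1 - w.1 = 0 := by simpa using h3
    have h6 : z.2 - w.2 = 0 := by simpa using h4
    exact h (Prod.ext (by linarith) (by linarith))
  rw [h1, Real.sqrt_mul (by norm_num), Real.log_mul (by positivity) (Real.sqrt_pos.2 h2).ne']
  ring

theorem gffCov_rot {φ ψ : ℝ × ℝ → ℝ} (hψ : Integrable ψ) (h0 : ∫ x, ψ x = 0) :
    gffCov (rot φ) (rot ψ) = 1 / 4 * gffCov φ ψ := by
  unfold gffCov
  rw [int_Th]
  have key : ∀ z : ℝ × ℝ, ∫ y, green (Th z) y * rot φ (Th z) * rot ψ y =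
      1 / 8 * ∫ w, green z w * φ z * ψ w := by
    intro z
    rw [int_Th]
    have e1 : ∫ w, green (Th z) (Th w) * rot φ (Th z) * rot ψ (Th w) =
        1 / 16 * ∫ w, (green z w * φ z * ψ w -
          (2 * Real.pi)⁻¹ * Real.log (Real.sqrt 2) * φ z * ψ w) := by
      rw [← integral_const_mul]
      refine integral_congr_ae ?_
      have hz : ∀ᵐ w : ℝ × ℝ, w ≠ z := by
        rw [ae_iff]
        have : {a : ℝ × ℝ | ¬ a ≠ z} = {z} := by ext a; simp
        rw [this]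
        exact measure_singleton z
      filter_upwards [hz] with w hw
      rw [green_Th hw, rot_Th, rot_Th]
      ring
    rw [e1, int_sub_zero (hψ.const_mul _) (by rw [integral_const_mul, h0, mul_zero])]
    ring
  simp only [key]
  rw [integral_const_mul]
  ring

lemma rot_smooth {φ : ℝ × ℝ → ℝ} (h : ContDiff ℝ ((⊤ : ℕ∞) : WithTop ℕ∞) φ) :
    ContDiff ℝ ((⊤ : ℕ∞) : WithTop ℕ∞) (rot φ) := by
  unfold rot
  refine contDiff_const.mul (h.comp ?_)
  exact (((contDiff_fst.add contDiff_snd).div_const 2).prodMk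
    ((contDiff_snd.sub contDiff_fst).div_const 2))

lemma rot_compact {φ : ℝ × ℝ → ℝ} (h : HasCompactSupport φ) : HasCompactSupport (rot φ) := by
  have h1 : HasCompactSupport (φ ∘ Th.symm) := h.comp_homeomorph Th.symm
  have e : rot φ = fun x => (1 / 4 : ℝ) * (φ ∘ Th.symm) x := by
    funext x; rfl
  rw [e]
  exact h1.mul_left

theorem rot_test {φ : ℝ × ℝ → ℝ} (h : Test φ) : P152.GFF.S.Test (rot φ) := by
  refine ⟨rot_smooth h.1, rot_compact h.2.1, ?_⟩
  rw [int_Th]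
  simp only [rot_Th]
  rw [integral_const_mul, h.2.2]
  ring

/-- The sum over the vertices of `ℤ²` as a sum over the even faces. -/
theorem fld_eq {h : ℤ × ℤ → ℤ} {H : Site → ℝ} (hH : ∀ v, H (Sum.inl v) = 1 / 2 * (h (fc (Sum.inl v)) : ℝ))
    {φ : ℝ × ℝ → ℝ} {R : ℝ} (hR : ∀ x : ℝ × ℝ, rot φ x ≠ 0 → |x.1| ≤ R ∧ |x.2| ≤ R) {δ : ℝ}
    (hδ : 0 < δ) {N : ℕ} (hN : R / δ + 1 ≤ N) : fld H δ φ = xs h δ (rot φ) N := by
  classical
  set G : ℤ × ℤ → ℝ := fun q => 2 * ((h q : ℝ) * rot φ (δ * q.1, δ * q.2)) with hG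
  have hz : ∀ q, q ∉ hbox N → G q = 0 := by
    intro q hq
    rw [hG]
    simp only
    have : rot φ (δ * q.1, δ * q.2) = 0 := by
      by_contra hne
      have h1 := hR _ hne
      refine hq (Finset.mem_product.2 ⟨idx_mem hδ hN h1.1 le_rfl ?_, idx_mem hδ hN h1.2 le_rfl ?_⟩)
      · show δ * (q.1 : ℝ) ≤ δ * (q.1 + 1); nlinarith
      · show δ * (q.2 : ℝ) ≤ δ * (q.2 + 1); nlinarith
    rw [this, mul_zero, mul_zero]
  have hfc : ∀ v : ℤ × ℤ, fc (Sum.inl v) = (v.1 - v.2, v.1 + v.2) := fun v => rfl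
  have e1 : ∀ v : ℤ × ℤ, H (Sum.inl v) * φ (δ * v.1, δ * v.2) = G (fc (Sum.inl v)) := by
    intro v
    rw [hH, hG]
    simp only
    rw [hfc]
    unfold rot
    simp only
    have e2 : (δ * ((v.1 - v.2 : ℤ) : ℝ) + δ * ((v.1 + v.2 : ℤ) : ℝ)) / 2 = δ * v.1 := by
      push_cast; ring
    have e3 : (δ * ((v.1 + v.2 : ℤ) : ℝ) - δ * ((v.1 - v.2 : ℤ) : ℝ)) / 2 = δ * v.2 := by
      push_cast; ring
    rw [e2, e3]
    ring
  unfold fld xs
  simp only [e1]
  set gi : ℤ × ℤ → ℤ × ℤ := fun q => ((q.1 + q.2) / 2, (q.2 - q.1) / 2) with hgi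
  set E := (hbox N).filter (fun q => (q.1 + q.2) % 2 = 0) with hE
  have hfg : ∀ q ∈ E, fc (Sum.inl (gi q)) = q := by
    intro q hq
    rw [hE, Finset.mem_filter] at hq
    rw [hfc, hgi]
    refine Prod.ext ?_ ?_ <;> simp only <;> omega
  have hgf : ∀ v : ℤ × ℤ, gi (fc (Sum.inl v)) = v := by
    intro v
    rw [hfc, hgi]
    refine Prod.ext ?_ ?_ <;> simp only <;> omega
  rw [tsum_eq_sum (s := E.image gi)]
  · rw [Finset.sum_image]
    · rw [Finset.sum_congr rfl (fun q hq => by rw [hfg q hq] : ∀ q ∈ E, G (fc (Sum.inl (gi q))) = G q)]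
      rw [hE, Finset.sum_filter, Finset.mul_sum, Finset.mul_sum]
      refine Finset.sum_congr rfl (fun q _ => ?_)
      unfold ev
      split_ifs <;> ring
    · intro a ha b hb hab
      rw [← hfg a ha, ← hfg b hb, hab]
  · intro v hv
    refine hz _ (fun hc => hv ?_)
    rw [Finset.mem_image]
    refine ⟨fc (Sum.inl v), ?_, hgf v⟩
    rw [hE, Finset.mem_filter]
    refine ⟨hc, ?_⟩
    rw [hfc]
    simp only
    omega

end Vale.Agent.P145.FP
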