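import Vale.Agent.P145.FP.ConvB
import Vale.Agent.P145.FP.Rot
import Vale.Agent.P152.GFF.S.Meas

/-!
Transfer of the convergence in law from the arrows to the spins.
-/

namespace Vale.Agent.P145.FP

open Finset Filter Topology MeasureTheory ProbabilityTheory
open Vale.Agent.P152 (Edge Ori Ice sgb pth pth_isHeight sqp sqp_integrable pth_integrable)
open Vale.Agent.P152.GFF.S (hcell hbox hint hint_cells cell_zero ar idx_mem bound_of_compact
  hint_aemeasurable)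

/-- The height function of the arrows, on the sites. -/
noncomputable def Hc (ω : Ori (ℤ × ℤ)) : Site → ℝ := fun x => 1 / 2 * (pth ω (fc x) : ℝ)

lemma sgn_prod {a b : ℤ} (ha : a % 2 = 0) (h : b - a = 1 ∨ b - a = -1) :
    sp (sgn2 a) * sp (sgn2 b) = ((b - a : ℤ) : ℝ) := by
  rcases h with h | h
  · have e : sgn2 a = sgn2 b := by
      unfold sgn2
      rw [decide_eq_decide]
      omega
    rw [e, h]
    unfold sp
    cases sgn2 b <;> simp
  · have e : sgn2 b = !(sgn2 a) := by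
      unfold sgn2
      rw [← decide_not, decide_eq_decide]
      omega
    rw [e, h]
    unfold sp
    cases sgn2 a <;> simp

lemma pth_even {ω : Ori (ℤ × ℤ)} (h : ∀ x y, Ice ω x y) (v : ℤ × ℤ) :
    pth ω (fc (Sum.inl v)) % 2 = 0 := by
  have := pth_parity h (fc (Sum.inl v))
  unfold fc at this ⊢
  simp only at this ⊢
  generalize pth ω (v.1 - v.2, v.1 + v.2) = u at *
  omega

lemma corner_step {ω : Ori (ℤ × ℤ)} (h : ∀ x y, Ice ω x y) (f : ℤ × ℤ) (a b : ℤ)
    (ha : a = 0 ∨ a = 1) (hb : b = 0 ∨ b = 1) :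
    pth ω (fc (Sum.inr f)) - pth ω (fc (Sum.inl (f.1 + a, f.2 + b))) = 1 ∨
    pth ω (fc (Sum.inr f)) - pth ω (fc (Sum.inl (f.1 + a, f.2 + b))) = -1 := by
  unfold fc
  simp only
  rcases ha with rfl | rfl <;> rcases hb with rfl | rfl
  · have h1 := (isHeight_pth h (f.1 - f.2) (f.1 + f.2 + 1)).1
    rw [show f.1 + f.2 + 1 - 1 = f.1 + f.2 by ring] at h1
    rw [show f.1 + 0 - (f.2 + 0) = f.1 - f.2 by ring, show f.1 + 0 + (f.2 + 0) = f.1 + f.2 by ring]
    rcases sgb_cases (ω (Sum.inl (f.1 - f.2, f.1 + f.2 + 1))) with h2 | h2 <;> rw [h2] at h1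
    · left; exact h1
    · right; exact h1
  · have h1 := (isHeight_pth h (f.1 - f.2) (f.1 + f.2 + 1)).2
    rw [show f.1 + 0 - (f.2 + 1) = f.1 - f.2 - 1 by ring,
      show f.1 + 0 + (f.2 + 1) = f.1 + f.2 + 1 by ring]
    rcases sgb_cases (ω (Sum.inr (f.1 - f.2, f.1 + f.2 + 1))) with h2 | h2 <;> rw [h2] at h1
    · right; linarith
    · left; linarith
  · have h1 := (isHeight_pth h (f.1 - f.2 + 1) (f.1 + f.2 + 1)).2
    rw [add_sub_cancel_right] at h1
    rw [show f.1 + 1 - (f.2 + 0) = f.1 - f.2 + 1 by ring,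
      show f.1 + 1 + (f.2 + 0) = f.1 + f.2 + 1 by ring]
    rcases sgb_cases (ω (Sum.inr (f.1 - f.2 + 1, f.1 + f.2 + 1))) with h2 | h2 <;> rw [h2] at h1
    · left; linarith
    · right; linarith
  · have h1 := (isHeight_pth h (f.1 - f.2) (f.1 + f.2 + 1 + 1)).1
    rw [add_sub_cancel_right] at h1
    rw [show f.1 + 1 - (f.2 + 1) = f.1 - f.2 by ring,
      show f.1 + 1 + (f.2 + 1) = f.1 + f.2 + 1 + 1 by ring]
    rcases sgb_cases (ω (Sum.inl (f.1 - f.2, f.1 + f.2 + 1 + 1))) with h2 | h2 <;> rw [h2] at h1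
    · right; linarith
    · left; linarith

lemma Hc_isHeight {ω : Ori (ℤ × ℤ)} (h : ∀ x y, Ice ω x y) : IsHeight (Psi ω) (Hc ω) := by
  intro f a b ha hb
  have h1 := sgn_prod (pth_even h (f.1 + a, f.2 + b)) (corner_step h f a b ha hb)
  show 1 / 2 * (pth ω (fc (Sum.inr f)) : ℝ) - 1 / 2 * (pth ω (fc (Sum.inl (f.1 + a, f.2 + b))) : ℝ) =
    1 / 2 * sp (sgn2 (pth ω (fc (Sum.inl (f.1 + a, f.2 + b))))) *
      sp (sgn2 (pth ω (fc (Sum.inr f))))
  rw [mul_assoc, h1]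
  push_cast
  ring

lemma sp_not (b : Bool) : sp (!b) = - sp b := by unfold sp; cases b <;> simp

lemma isHeight_flip {σ : Conf} {H : Site → ℝ} (h : IsHeight σ H) : IsHeight (flip σ) H := by
  intro f a b ha hb
  rw [h f a b ha hb]
  show _ = 1 / 2 * sp (!(σ (Sum.inl (f.1 + a, f.2 + b)))) * sp (!(σ (Sum.inr f)))
  rw [sp_not, sp_not]
  ring

lemma Hc_zero (ω : Ori (ℤ × ℤ)) : Hc ω (Sum.inl 0) = 0 := by
  have : fc (Sum.inl 0) = 0 := by
    unfold fc
    rfl
  unfold Hc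
  rw [this, P152.pth_zero]
  simp

lemma height_unique {σ : Conf} {H H' : Site → ℝ} (h : IsHeight σ H) (h' : IsHeight σ H')
    (h0 : H (Sum.inl 0) = H' (Sum.inl 0)) : H = H' := by
  have key : ∀ (f : ℤ × ℤ) (a b : ℤ), (a = 0 ∨ a = 1) → (b = 0 ∨ b = 1) →
      (H (Sum.inr f) = H' (Sum.inr f) ↔
        H (Sum.inl (f.1 + a, f.2 + b)) = H' (Sum.inl (f.1 + a, f.2 + b))) := by
    intro f a b ha hb
    have h1 := h f a b ha hb
    have h2 := h' f a b ha hb
    constructor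
    · intro h3; linarith
    · intro h3; linarith
  have hv : ∀ v : ℤ × ℤ, H (Sum.inl v) = H' (Sum.inl v) := by
    intro v
    refine plane_ind (p := fun v => H (Sum.inl v) = H' (Sum.inl v)) h0 ?_ ?_ v
    · intro x y
      have k1 := key (x, y - 1) 0 1 (Or.inl rfl) (Or.inr rfl)
      have k2 := key (x, y - 1) 0 0 (Or.inl rfl) (Or.inl rfl)
      simp only [add_zero, sub_add_cancel] at k1 k2
      exact k1.symm.trans k2
    · intro x y
      have k1 := key (x - 1, y) 0 0 (Or.inl rfl) (Or.inl rfl)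
      have k2 := key (x - 1, y) 1 0 (Or.inr rfl) (Or.inl rfl)
      simp only [add_zero, sub_add_cancel] at k1 k2
      exact k1.symm.trans k2
  funext x
  rcases x with v | f
  · exact hv v
  · have k := key f 0 0 (Or.inl rfl) (Or.inl rfl)
    exact k.2 (hv _)

lemma spin_of_arr {σ : Conf} (h : ∀ x y, Ice (arr σ) x y) :
    σ = Psi (arr σ) ∨ σ = flip (Psi (arr σ)) := by
  have h0 : cf 0 = Sum.inl 0 := cf_fc (Sum.inl 0)
  have key : ∀ ρ : Conf, ρ (Sum.inl 0) = σ (Sum.inl 0) → arr ρ = arr σ → σ = ρ := by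
    intro ρ h1 h2
    funext x
    have h3 := conn (σ := σ) (ρ := ρ) (n := (fc x).1.natAbs + (fc x).2.natAbs)
      (by rw [h0]; exact h1.symm) (fun e _ => by rw [h2]) (fc x) (by
        unfold inD
        omega)
    rwa [cf_fc] at h3
  cases hσ : σ (Sum.inl 0)
  · right
    refine key _ ?_ (by rw [arr_flip, arr_Psi h])
    show (!(Psi (arr σ) (Sum.inl 0))) = σ (Sum.inl 0)
    rw [Psi_zero, hσ]
    rfl
  · left
    refine key _ ?_ (arr_Psi h)
    rw [Psi_zero, hσ]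

lemma Hc_arr {σ : Conf} (h : ∀ x y, Ice (arr σ) x y) : IsHeight σ (Hc (arr σ)) := by
  rcases spin_of_arr h with h1 | h1
  · have := Hc_isHeight h
    rwa [← h1] at this
  · have := isHeight_flip (Hc_isHeight h)
    rwa [← h1] at this

/-! ### Measurability -/

lemma arr_meas : Measurable arr := by
  rw [measurable_pi_iff]
  rintro (v | v)
  · simp only [arr_inl]
    have h : Measurable (fun σ : Conf => (σ (cf v), σ (cf (v.1, v.2 - 1)))) :=
      (measurable_pi_apply (cf v)).prodMk (measurable_pi_apply (cf (v.1, v.2 - 1)))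
    exact (measurable_of_countable (fun p : Bool × Bool => xor (xor p.1 p.2)
      (decide (¬ (v.1 + v.2) % 2 = 0)))).comp h
  · simp only [arr_inr]
    have h : Measurable (fun σ : Conf => (σ (cf v), σ (cf (v.1 - 1, v.2)))) :=
      (measurable_pi_apply (cf v)).prodMk (measurable_pi_apply (cf (v.1 - 1, v.2)))
    exact (measurable_of_countable (fun p : Bool × Bool => xor (xor p.1 p.2)
      (decide ((v.1 + v.2) % 2 = 0)))).comp h

lemma ice_meas (x y : ℤ) : MeasurableSet {ω : Ori (ℤ × ℤ) | Ice ω x y} := by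
  have h : Measurable (fun ω : Ori (ℤ × ℤ) => ((ω (Sum.inl (x - 1, y)), ω (Sum.inr (x, y - 1))),
      (ω (Sum.inl (x, y)), ω (Sum.inr (x, y))))) :=
    ((measurable_pi_apply _).prodMk (measurable_pi_apply _)).prodMk
      ((measurable_pi_apply _).prodMk (measurable_pi_apply _))
  have e : {ω : Ori (ℤ × ℤ) | Ice ω x y} = (fun ω : Ori (ℤ × ℤ) =>
      ((ω (Sum.inl (x - 1, y)), ω (Sum.inr (x, y - 1))),
      (ω (Sum.inl (x, y)), ω (Sum.inr (x, y))))) ⁻¹'
      {p : (Bool × Bool) × (Bool × Bool) | p.1.1.toNat + p.1.2.toNat = p.2.1.toNat + p.2.2.toNat} := by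
    ext ω
    rfl
  rw [e]
  exact h (Set.toFinite _).measurableSet

lemma iceAll_meas : MeasurableSet {σ : Conf | ∀ x y, Ice (arr σ) x y} := by
  have e : {σ : Conf | ∀ x y, Ice (arr σ) x y} = ⋂ x : ℤ, ⋂ y : ℤ, arr ⁻¹' {ω | Ice ω x y} := by
    ext σ
    simp
  rw [e]
  exact MeasurableSet.iInter (fun x => MeasurableSet.iInter (fun y => arr_meas (ice_meas x y)))

lemma supp_fin {φ : ℝ × ℝ → ℝ} (hφ : HasCompactSupport φ) {δ : ℝ} (hδ : δ ≠ 0) :
    ∃ S : Finset (ℤ × ℤ), ∀ v ∉ S, φ (δ * v.1, δ * v.2) = 0 := by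
  obtain ⟨R, hR0, hR⟩ := bound_of_compact hφ
  refine ⟨Icc (-⌈R / |δ|⌉) ⌈R / |δ|⌉ ×ˢ Icc (-⌈R / |δ|⌉) ⌈R / |δ|⌉, fun v hv => ?_⟩
  by_contra hne
  have h1 := hR _ hne
  have hd : 0 < |δ| := abs_pos.2 hδ
  have key : ∀ a : ℤ, |δ * a| ≤ R → a ∈ Icc (-⌈R / |δ|⌉) ⌈R / |δ|⌉ := by
    intro a ha
    rw [abs_mul] at ha
    have h2 : |(a : ℝ)| ≤ R / |δ| := by rw [le_div_iff₀ hd]; linarith
    have h3 : |(a : ℝ)| ≤ (⌈R / |δ|⌉ : ℤ) := h2.trans (Int.le_ceil _)
    have h4 : |a| ≤ ⌈R / |δ|⌉ := by exact_mod_cast h3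
    rw [Finset.mem_Icc]
    exact abs_le.1 h4
  exact hv (Finset.mem_product.2 ⟨key _ h1.1, key _ h1.2⟩)

lemma pth_meas (q : ℤ × ℤ) : Measurable (fun ω : Ori (ℤ × ℤ) => (pth ω q : ℝ)) := by
  obtain ⟨N, h1, h2⟩ := P152.exists_box q
  exact P152.local_measurable (P152.box N) (fun ω ω' h => by rw [P152.pth_local h1 h2 ω ω' h])

lemma fld_meas {φ : ℝ × ℝ → ℝ} (hφ : HasCompactSupport φ) (δ : ℝ) :
    Measurable (fun ω => fld (Hc ω) δ φ) := by
  by_cases hδ : δ = 0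
  · subst hδ
    unfold fld
    simp only [ne_eq, OfNat.ofNat_ne_zero, not_false_eq_true, zero_pow, zero_mul]
    exact measurable_const
  · obtain ⟨S, hS⟩ := supp_fin hφ hδ
    have e : (fun ω => fld (Hc ω) δ φ) = fun ω => δ ^ 2 * ∑ v ∈ S,
        (1 / 2 * (pth ω (fc (Sum.inl v)) : ℝ)) * φ (δ * v.1, δ * v.2) := by
      funext ω
      unfold fld
      congr 1
      rw [tsum_eq_sum (s := S)]
      · rfl
      · intro v hv
        rw [hS v hv, mul_zero]
    rw [e]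
    exact (Finset.measurable_sum _ (fun v _ => ((pth_meas _).const_mul _).mul_const _)).const_mul _

section

variable {P : Measure (Ori (ℤ × ℤ))} [IsProbabilityMeasure P]

omit [IsProbabilityMeasure P] in
lemma QQ_arr (hice : ∀ᵐ ω ∂P, ∀ x y, Ice ω x y) : (QQ P).map arr = P := by
  ext A hA
  rw [Measure.map_apply arr_meas hA, QQ_apply P (arr_meas hA)]
  have e : ∀ᵐ ω ∂P, (arr ⁻¹' A).indicator (1 : Conf → ENNReal) (Psi ω) +
      (arr ⁻¹' A).indicator (1 : Conf → ENNReal) (flip (Psi ω)) = 2 * A.indicator 1 ω := by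
    filter_upwards [hice] with ω hω
    have e1 : ∀ σ : Conf, (arr ⁻¹' A).indicator (1 : Conf → ENNReal) σ =
        A.indicator 1 (arr σ) := by intro σ; rfl
    rw [e1, e1, arr_flip, arr_Psi hω, two_mul]
  rw [lintegral_congr_ae e, lintegral_const_mul _ (measurable_one.indicator hA),
    lintegral_indicator_one hA, ← mul_assoc, ENNReal.inv_mul_cancel (by norm_num) (by norm_num),
    one_mul]

omit [IsProbabilityMeasure P] in
lemma QQ_ice (hice : ∀ᵐ ω ∂P, ∀ x y, Ice ω x y) : ∀ᵐ σ ∂(QQ P), ∀ x y, Ice (arr σ) x y := by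
  refine ae_QQ' iceAll_meas ?_ ?_
  · filter_upwards [hice] with ω hω
    rw [arr_Psi hω]; exact hω
  · filter_upwards [hice] with ω hω
    rw [arr_flip, arr_Psi hω]; exact hω

omit [IsProbabilityMeasure P] in
lemma QQ_height (hice : ∀ᵐ ω ∂P, ∀ x y, Ice ω x y) : ∀ᵐ σ ∂(QQ P), ∃ H, IsHeight σ H := by
  filter_upwards [QQ_ice hice] with σ hσ
  exact ⟨_, Hc_arr hσ⟩

omit [IsProbabilityMeasure P] in
lemma QQ_H (hice : ∀ᵐ ω ∂P, ∀ x y, Ice ω x y) {H : Conf → Site → ℝ}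
    (hH : ∀ᵐ σ ∂(QQ P), IsHeight σ (H σ) ∧ H σ (Sum.inl 0) = 0) :
    ∀ᵐ σ ∂(QQ P), H σ = Hc (arr σ) := by
  filter_upwards [QQ_ice hice, hH] with σ h1 h2
  exact height_unique h2.1 (Hc_arr h1) (by rw [h2.2, Hc_zero])

/-- The vector of the observables. -/
noncomputable def gv {m : ℕ} (φ : Fin m → ℝ × ℝ → ℝ) (δ : ℝ) (ω : Ori (ℤ × ℤ)) :
    EuclideanSpace ℝ (Fin m) := WithLp.toLp 2 (fun j => fld (Hc ω) δ (φ j))

lemma gv_meas {m : ℕ} {φ : Fin m → ℝ × ℝ → ℝ} (hφ : ∀ j, HasCompactSupport (φ j)) (δ : ℝ) :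
    Measurable (gv φ δ) := by
  unfold gv
  exact (WithLp.measurable_toLp 2 (Fin m → ℝ)).comp
    (measurable_pi_lambda _ (fun j => fld_meas (hφ j) δ))

/-- The observables are close. -/
lemma fld_close (hP : Hyp P) {φ : ℝ × ℝ → ℝ} (hφ : Test φ) :
    Tendsto (fun δ : ℝ => ∫ ω, |fld (Hc ω) δ φ - hint (pth ω) δ (rot φ)| ∂P) (𝓝[>] 0) (𝓝 0) := by
  have hc : Continuous (rot φ) := (rot_smooth hφ.1).continuous
  obtain ⟨R, hR0, hR⟩ := bound_of_compact (rot_compact hφ.2.1)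
  obtain ⟨F, hF⟩ := hc.bounded_above_of_compact_support (rot_compact hφ.2.1)
  obtain ⟨L, hL⟩ := ((rot_smooth hφ.1).of_le (m := 1) (by
    exact_mod_cast le_top)).lipschitzWith_of_hasCompactSupport (rot_compact hφ.2.1) one_ne_zero
  have h := xs_close hP (hc.integrable_of_hasCompactSupport (rot_compact hφ.2.1)) (R := R) (F := F)
    (L := L) hR0 hR (fun x => by have := hF x; rwa [Real.norm_eq_abs] at this) L.coe_nonneg
    (fun x y => by
      have := hL.dist_le_mul x y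
      rwa [Real.dist_eq, dist_eq_norm] at this)
  refine h.congr' ?_
  filter_upwards [self_mem_nhdsWithin] with δ hδ
  have hδ0 : 0 < δ := hδ
  have hN := NN_ge R δ
  refine integral_congr_ae (Eventually.of_forall (fun ω => ?_))
  simp only
  rw [← fld_eq (h := pth ω) (H := Hc ω) (fun v => rfl) hR hδ0 (N := NN R δ + 1)
    (by push_cast; linarith)]

end

end Vale.Agent.P145.FP
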