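import Vale.Agent.P145.FP.Uniq

/-!
Decorrelation of even spin products.
-/

namespace Vale.Agent.P145.FP

open Finset Filter Topology MeasureTheory ProbabilityTheory
open Vale.Agent.P152 (Edge Ori Ice sgb pth pth_isHeight sqp sqp_integrable pth_integrable ext'
  local_sum IsLimit)

/-- The product of the spins on a finite set of sites. -/
noncomputable def pr' (X : Finset Site) (σ : Conf) : ℝ := ∏ x ∈ X, sp (σ x)

lemma pr'_flip {X : Finset Site} (hX : Even X.card) (σ : Conf) : pr' X (flip σ) = pr' X σ := by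
  unfold pr'
  have h : ∀ x ∈ X, sp (flip σ x) = (-1) * sp (σ x) := fun x _ => by
    show sp (!(σ x)) = _
    rw [sp_not]; ring
  rw [Finset.prod_congr rfl h, Finset.prod_mul_distrib, Finset.prod_const, hX.neg_one_pow, one_mul]

lemma sp_abs (b : Bool) : |sp b| = 1 := by unfold sp; cases b <;> simp

lemma pr'_abs (X : Finset Site) (σ : Conf) : |pr' X σ| = 1 := by
  unfold pr'
  rw [Finset.abs_prod]
  exact Finset.prod_eq_one (fun x _ => sp_abs _)

lemma sp_meas : Measurable sp := measurable_of_countable _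

lemma pr'_meas (X : Finset Site) : Measurable (pr' X) := by
  unfold pr'
  exact Finset.measurable_prod _ (fun x _ => sp_meas.comp (measurable_pi_apply x))

/-- A box of arrows that determines the spins of a finite set of sites. -/
lemma exists_boxS (X : Finset Site) : ∃ N : ℕ, ∀ x ∈ X, |(fc x).1| ≤ N ∧ |(fc x).2| ≤ N := by
  refine ⟨∑ x ∈ X, ((fc x).1.natAbs + (fc x).2.natAbs), fun x hx => ?_⟩
  have h := Finset.single_le_sum (f := fun x => (fc x).1.natAbs + (fc x).2.natAbs)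
    (fun x _ => Nat.zero_le _) hx
  rw [Int.abs_eq_natAbs, Int.abs_eq_natAbs]
  constructor
  · exact_mod_cast (Nat.le_add_right _ _).trans h
  · exact_mod_cast (Nat.le_add_left _ _).trans h

lemma Psi_local {N : ℕ} {x : Site} (h1 : |(fc x).1| ≤ N) (h2 : |(fc x).2| ≤ N)
    {ω ω' : Ori (ℤ × ℤ)} (h : ∀ e ∈ P152.box N, ω e = ω' e) : Psi ω x = Psi ω' x := by
  unfold Psi
  rw [P152.pth_local h1 h2 ω ω' h]

lemma pr'_local {N : ℕ} {X : Finset Site} (hN : ∀ x ∈ X, |(fc x).1| ≤ N ∧ |(fc x).2| ≤ N)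
    (ω ω' : Ori (ℤ × ℤ)) (h : ∀ e ∈ P152.box N, ω e = ω' e) :
    pr' X (Psi ω) = pr' X (Psi ω') := by
  unfold pr'
  exact Finset.prod_congr rfl (fun x hx => by rw [Psi_local (hN x hx).1 (hN x hx).2 h])

section

variable {P : Measure (Ori (ℤ × ℤ))} [IsProbabilityMeasure P]

/-- Mixing for local functions. -/
lemma mix_local
    (hmix : ∀ (Λ Λ' : Finset (Edge (ℤ × ℤ))) (ξ ξ' : Ori (ℤ × ℤ)), Tendsto (fun a : ℤ × ℤ =>
        P.real (P152.cyl Λ ξ ∩ {ω | (fun e => ω (Sum.map (· + a) (· + a) e)) ∈ P152.cyl Λ' ξ'}))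
          cofinite (𝓝 (P.real (P152.cyl Λ ξ) * P.real (P152.cyl Λ' ξ'))))
    (Λ Λ' : Finset (Edge (ℤ × ℤ))) {f g : Ori (ℤ × ℤ) → ℝ}
    (hf : ∀ ω ω', (∀ e ∈ Λ, ω e = ω' e) → f ω = f ω')
    (hg : ∀ ω ω', (∀ e ∈ Λ', ω e = ω' e) → g ω = g ω') :
    Tendsto (fun a : ℤ × ℤ => ∫ ω, f ω * g (fun e => ω (Sum.map (· + a) (· + a) e)) ∂P) cofinite
      (𝓝 ((∫ ω, f ω ∂P) * ∫ ω, g ω ∂P)) := by
  have e1 : ∀ a : ℤ × ℤ, ∫ ω, f ω * g (fun e => ω (Sum.map (· + a) (· + a) e)) ∂P =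
      ∑ η : Λ → Bool, ∑ η' : Λ' → Bool, f (ext' Λ η) * g (ext' Λ' η') *
        P.real (P152.cyl Λ (ext' Λ η) ∩
          {ω | (fun e => ω (Sum.map (· + a) (· + a) e)) ∈ P152.cyl Λ' (ext' Λ' η')}) := by
    intro a
    have hm : ∀ η η', MeasurableSet (P152.cyl Λ (ext' Λ η) ∩
          {ω : Ori (ℤ × ℤ) | (fun e => ω (Sum.map (· + a) (· + a) e)) ∈
            P152.cyl Λ' (ext' Λ' η')}) := fun η η' =>
      (P152.measurableSet_cyl _ _).inter ((shift_meas a) (P152.measurableSet_cyl _ _))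
    have e2 : ∀ ω : Ori (ℤ × ℤ), f ω * g (fun e => ω (Sum.map (· + a) (· + a) e)) =
        ∑ η : Λ → Bool, ∑ η' : Λ' → Bool, f (ext' Λ η) * g (ext' Λ' η') *
          (P152.cyl Λ (ext' Λ η) ∩ {ω : Ori (ℤ × ℤ) |
            (fun e => ω (Sum.map (· + a) (· + a) e)) ∈ P152.cyl Λ' (ext' Λ' η')}).indicator
            (fun _ => (1 : ℝ)) ω := by
      intro ω
      conv_lhs => rw [local_sum Λ hf ω, local_sum Λ' hg (fun e => ω (Sum.map (· + a) (· + a) e)),
        Finset.sum_mul_sum]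
      refine Finset.sum_congr rfl (fun η _ => Finset.sum_congr rfl (fun η' _ => ?_))
      by_cases h1 : ω ∈ P152.cyl Λ (ext' Λ η) <;>
        by_cases h2 : (fun e => ω (Sum.map (· + a) (· + a) e)) ∈ P152.cyl Λ' (ext' Λ' η') <;>
        simp [Set.indicator, h1, h2]
    simp only [e2]
    have i1 : ∀ η η', Integrable (fun ω => f (ext' Λ η) * g (ext' Λ' η') *
          (P152.cyl Λ (ext' Λ η) ∩ {ω : Ori (ℤ × ℤ) |
            (fun e => ω (Sum.map (· + a) (· + a) e)) ∈ P152.cyl Λ' (ext' Λ' η')}).indicator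
            (fun _ => (1 : ℝ)) ω) P := fun η η' =>
      ((integrable_const (1 : ℝ)).indicator (hm η η')).const_mul _
    rw [integral_finsetSum _ (fun η _ => integrable_finsetSum _ (fun η' _ => i1 η η'))]
    refine Finset.sum_congr rfl (fun η _ => ?_)
    rw [integral_finsetSum _ (fun η' _ => i1 η η')]
    refine Finset.sum_congr rfl (fun η' _ => ?_)
    rw [integral_const_mul]
    congr 1
    exact integral_indicator_one (hm η η')
  simp only [e1]
  have e3 : (∫ ω, f ω ∂P) * ∫ ω, g ω ∂P = ∑ η : Λ → Bool, ∑ η' : Λ' → Bool,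
      f (ext' Λ η) * g (ext' Λ' η') *
        (P.real (P152.cyl Λ (ext' Λ η)) * P.real (P152.cyl Λ' (ext' Λ' η'))) := by
    rw [int_local_sum Λ hf, int_local_sum Λ' hg, Finset.sum_mul_sum]
    refine Finset.sum_congr rfl (fun η _ => Finset.sum_congr rfl (fun η' _ => ?_))
    ring
  rw [e3]
  exact tendsto_finsetSum _ (fun η _ => tendsto_finsetSum _ (fun η' _ =>
    (hmix Λ Λ' (ext' Λ η) (ext' Λ' η')).const_mul _))

/-- Integral of an even function of the spins. -/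
lemma int_even (hice : ∀ᵐ ω ∂P, ∀ x y, Ice ω x y) {F : Conf → ℝ} (hF : Measurable F)
    (hf : ∀ σ, F (flip σ) = F σ) : ∫ σ, F σ ∂(QQ P) = ∫ ω, F (Psi ω) ∂P := by
  have e : ∀ᵐ σ ∂(QQ P), F σ = F (Psi (arr σ)) := by
    filter_upwards [QQ_ice hice] with σ hσ
    rcases spin_of_arr hσ with h | h
    · rw [← h]
    · rw [← hf (Psi (arr σ)), ← h]
  rw [integral_congr_ae e]
  have h := integral_map (μ := QQ P) (φ := arr) arr_meas.aemeasurable (f := fun ω => F (Psi ω))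
    (hF.comp Psi_meas).aestronglyMeasurable
  rw [QQ_arr hice] at h
  exact h.symm

theorem even_mix (hice : ∀ᵐ ω ∂P, ∀ x y, Ice ω x y)
    (hmix : ∀ (Λ Λ' : Finset (Edge (ℤ × ℤ))) (ξ ξ' : Ori (ℤ × ℤ)), Tendsto (fun a : ℤ × ℤ =>
        P.real (P152.cyl Λ ξ ∩ {ω | (fun e => ω (Sum.map (· + a) (· + a) e)) ∈ P152.cyl Λ' ξ'}))
          cofinite (𝓝 (P.real (P152.cyl Λ ξ) * P.real (P152.cyl Λ' ξ'))))
    {X Y : Finset Site} (hX : Even X.card) (hY : Even Y.card) :
    Tendsto (fun a : ℤ × ℤ => ∫ σ, pr' X σ * pr' Y (tr a σ) ∂(QQ P)) cofinite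
      (𝓝 ((∫ σ, pr' X σ ∂(QQ P)) * ∫ σ, pr' Y σ ∂(QQ P))) := by
  obtain ⟨N, hN⟩ := exists_boxS X
  obtain ⟨N', hN'⟩ := exists_boxS Y
  rw [int_even hice (pr'_meas X) (pr'_flip hX), int_even hice (pr'_meas Y) (pr'_flip hY)]
  have h := mix_local hmix (P152.box N) (P152.box N') (f := fun ω => pr' X (Psi ω))
    (g := fun ω => pr' Y (Psi ω)) (pr'_local hN) (pr'_local hN')
  have hinj : Function.Injective (fun a : ℤ × ℤ => (a.1 - a.2, a.1 + a.2)) := by
    intro a b hab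
    have h1 := congrArg Prod.fst hab
    have h2 := congrArg Prod.snd hab
    simp only at h1 h2
    exact Prod.ext (by omega) (by omega)
  refine (h.comp hinj.tendsto_cofinite).congr (fun a => ?_)
  rw [int_even hice (F := fun σ => pr' X σ * pr' Y (tr a σ))
    ((pr'_meas X).mul ((pr'_meas Y).comp (tr_meas a))) (by
    intro σ
    rw [pr'_flip hX, tr_flip, pr'_flip hY])]
  refine integral_congr_ae ?_
  filter_upwards [hice] with ω hω
  show pr' X (Psi ω) * pr' Y (Psi _) = pr' X (Psi ω) * pr' Y (tr a (Psi ω))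
  congr 1
  rcases tr_Psi hω a with h1 | h1
  · rw [h1]
  · rw [h1, pr'_flip hY]

end

end Vale.Agent.P145.FP
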