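import Vale.Agent.P145.FP.Torus
import Vale.Agent.P152.GFF.Gen

/-!
The swap identity in infinite volume for all `0 < c ≤ 2`, from the convergence of the tori.
-/

namespace Vale.Agent.P145.FP

open Finset Filter Topology MeasureTheory
open Vale.Agent.P152 (Edge Ori wt unroll cyl)

/-- The swap identity in infinite volume. -/
theorem swap_torI {c : ℝ} {P : Measure (Ori (ℤ × ℤ))} (hT : P152.GFF.TorI c P)
    {E : Finset (Edge (ℤ × ℤ))} {V : Finset (ℤ × ℤ)} {K : ℤ}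
    (hE : ∀ v, (Sum.inl v ∈ E ∨ Sum.inr v ∈ E) → |v.1| ≤ K ∧ |v.2| ≤ K)
    (hV : ∀ v ∈ V, |v.1| ≤ K ∧ |v.2| ≤ K) {ξ ξ' : Ori (ℤ × ℤ)}
    (hin : ∀ v ∈ V, star v ⊆ E) (hout : ∀ e ∈ E, ξ e ≠ ξ' e → Ends V e) :
    P.real (cyl E ξ) * ∏ v ∈ V, vwt c ξ' v = P.real (cyl E ξ') * ∏ v ∈ V, vwt c ξ v := by
  have hloc : ∀ η : Ori (ℤ × ℤ), ∀ ω ω' : Ori (ℤ × ℤ), (∀ e ∈ E, ω e = ω' e) →
      (cyl E η).indicator (fun _ => (1 : ℝ)) ω = (cyl E η).indicator (fun _ => (1 : ℝ)) ω' := by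
    intro η ω ω' h
    have h1 : ω ∈ cyl E η ↔ ω' ∈ cyl E η := by
      constructor
      · intro h' e he
        rw [← h e he]; exact h' e he
      · intro h' e he
        rw [h e he]; exact h' e he
    by_cases hω : ω ∈ cyl E η
    · rw [Set.indicator_of_mem hω, Set.indicator_of_mem (h1.1 hω)]
    · rw [Set.indicator_of_notMem hω, Set.indicator_of_notMem (fun h' => hω (h1.2 h'))]
  have hint : ∀ η : Ori (ℤ × ℤ), ∫ ω, (cyl E η).indicator (fun _ => (1 : ℝ)) ω ∂P =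
      P.real (cyl E η) := fun η => integral_indicator_one (P152.measurableSet_cyl E η)
  set w := ∏ v ∈ V, vwt c ξ v with hw
  set w' := ∏ v ∈ V, vwt c ξ' v with hw'
  have key : ∀ ε > 0, |P.real (cyl E ξ) * w' - P.real (cyl E ξ') * w| ≤ ε * (|w'| + |w|) := by
    intro ε hε
    obtain ⟨q, hq⟩ := hT E ((cyl E ξ).indicator (fun _ => (1 : ℝ))) (hloc ξ) ε hε
    obtain ⟨q', hq'⟩ := hT E ((cyl E ξ').indicator (fun _ => (1 : ℝ))) (hloc ξ') ε hε
    set l := max (max q q') (2 * K).toNat with hl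
    obtain ⟨M, h1, h2, h3⟩ := ((hq l (by omega)).and ((hq' l (by omega)).and
      (eventually_ge_atTop (2 * K).toNat))).exists
    rw [hint] at h1 h2
    have a1 : 2 * K < ((M + 1 : ℕ) : ℤ) := by omega
    have a2 : 2 * K < ((2 * (l + 1) : ℕ) : ℤ) := by omega
    have hs := torus_swap c (pr_inj a1 a2 hE) (prV_inj a1 a2 hV) hin hout
    rw [← hw, ← hw'] at hs
    unfold P152.GFF.B3.torU at h1 h2
    set Z := ∑ ω : Ori (ZMod (M + 1) × ZMod (2 * (l + 1))), wt c ω with hZ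
    set S := ∑ ω : Ori (ZMod (M + 1) × ZMod (2 * (l + 1))),
      wt c ω * (cyl E ξ).indicator (fun _ => (1 : ℝ)) (unroll ω) with hS
    set S' := ∑ ω : Ori (ZMod (M + 1) × ZMod (2 * (l + 1))),
      wt c ω * (cyl E ξ').indicator (fun _ => (1 : ℝ)) (unroll ω) with hS'
    have hs' : S / Z * w' = S' / Z * w := by
      rw [div_mul_eq_mul_div, div_mul_eq_mul_div, hs]
    have e : P.real (cyl E ξ) * w' - P.real (cyl E ξ') * w =
        -(S / Z - P.real (cyl E ξ)) * w' + (S' / Z - P.real (cyl E ξ')) * w := by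
      linear_combination hs'
    rw [e]
    refine (abs_add_le _ _).trans ?_
    rw [abs_mul, abs_mul, abs_neg, mul_add]
    exact add_le_add (mul_le_mul_of_nonneg_right h1 (abs_nonneg _))
      (mul_le_mul_of_nonneg_right h2 (abs_nonneg _))
  by_contra hne
  have hpos : 0 < |P.real (cyl E ξ) * w' - P.real (cyl E ξ') * w| :=
    abs_pos.2 (sub_ne_zero.2 hne)
  set A := |P.real (cyl E ξ) * w' - P.real (cyl E ξ') * w| with hA
  have hB : 0 ≤ |w'| + |w| := by positivity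
  have h4 := key (A / (2 * (|w'| + |w| + 1))) (by positivity)
  have h5 : A / (2 * (|w'| + |w| + 1)) * (|w'| + |w|) < A := by
    rw [div_mul_eq_mul_div, div_lt_iff₀ (by positivity)]
    nlinarith
  linarith

end Vale.Agent.P145.FP
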