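import Vale.Agent.P145.FP.Even
import Vale.Agent.P145.FP.Dec
import Vale.Agent.P145.FP.TorI

/-!
The theorem on the spin model for a general parameter `t`, from the properties of the six-vertex
limit measure with `c = 1 / t`.
-/

namespace Vale.Agent.P145.FP

open Finset Filter Topology MeasureTheory ProbabilityTheory
open Vale.Agent.P152 (Edge Ori Ice sgb pth IsLimit)
open Vale.Agent.P152.GFF (Pln ChP)
open Vale.Agent.P152.GFF.S (hint)

/-- The conclusion for the parameter `t`: there is an infinite-volume measure of the height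
representation, and its height function converges to `s` times the Gaussian free field. -/
def Concl (t : ℝ) (s : ℝ) (Q : Measure Conf) : Prop :=
  ∃ _ : IsProbabilityMeasure Q, Gibbs t Q ∧ (∀ a : ℤ × ℤ, Q.map (tr a) = Q) ∧
    Q.map flipV = Q ∧ Q.map flipF = Q ∧
    (∀ᵐ σ ∂Q, ∃ H, IsHeight σ H) ∧
    ∀ H : Conf → Site → ℝ, (∀ᵐ σ ∂Q, IsHeight σ (H σ) ∧ H σ (Sum.inl 0) = 0) →
      ∀ (m : ℕ) (φ : Fin m → ℝ × ℝ → ℝ), (∀ j, Test (φ j)) →
        (Matrix.of (fun i j => s ^ 2 * (2 * Real.pi * gffCov (φ i) (φ j)))).PosSemidef ∧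
        TendstoInDistribution (fun (δ : ℝ) (σ : Conf) =>
          (WithLp.toLp 2 (fun j => fld (H σ) δ (φ j)) : EuclideanSpace ℝ (Fin m))) (𝓝[>] 0)
          (id : EuclideanSpace ℝ (Fin m) → EuclideanSpace ℝ (Fin m)) (fun _ => Q)
          (multivariateGaussian 0
            (Matrix.of (fun i j => s ^ 2 * (2 * Real.pi * gffCov (φ i) (φ j)))))

/-- Decorrelation of the even spin products. -/
def Mix (Q : Measure Conf) : Prop :=
  ∀ X Y : Finset Site, Even X.card → Even Y.card → Tendsto (fun a : ℤ × ℤ =>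
    ∫ σ, (∏ x ∈ X, sp (σ x)) * ∏ y ∈ Y, sp (tr a σ y) ∂Q) cofinite
      (𝓝 ((∫ σ, ∏ x ∈ X, sp (σ x) ∂Q) * ∫ σ, ∏ y ∈ Y, sp (σ y) ∂Q))

theorem gen {t : ℝ} (ht : t ≠ 0) {P : Measure (Ori (ℤ × ℤ))} [IsProbabilityMeasure P]
    (hPl : Pln (1 / t) P) (hCh : ChP (1 / t) P) {σ : ℝ}
    (hclt : ∀ h : Ori (ℤ × ℤ) → ℤ × ℤ → ℤ, (∀ᵐ ω ∂P, P152.IsHeight ω (h ω)) →
      ∀ (m : ℕ) (f : Fin m → ℝ × ℝ → ℝ), (∀ j, P152.GFF.S.Test (f j)) →
        (Matrix.of (fun i j => σ ^ 2 * P152.GFF.S.gffCov (f i) (f j))).PosSemidef ∧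
        TendstoInDistribution (fun (δ : ℝ) (ω : Ori (ℤ × ℤ)) =>
          (WithLp.toLp 2 (fun j => hint (h ω) δ (f j)) : EuclideanSpace ℝ (Fin m))) (𝓝[>] 0)
          (id : EuclideanSpace ℝ (Fin m) → EuclideanSpace ℝ (Fin m)) (fun _ => P)
          (multivariateGaussian 0
            (Matrix.of (fun i j => σ ^ 2 * P152.GFF.S.gffCov (f i) (f j))))) :
    Concl t (σ / 2 / √(2 * Real.pi)) (QQ P) := by
  have hP : HypW P := hyp_pln hPl hCh
  have hQ : IsProbabilityMeasure (QQ P) := QQ_prob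
  have hs : ∀ x : ℝ, (σ / 2 / √(2 * Real.pi)) ^ 2 * (2 * Real.pi * x) = (σ / 2) ^ 2 * x := by
    intro x
    have h1 : (0 : ℝ) < 2 * Real.pi := by positivity
    rw [div_pow, Real.sq_sqrt h1.le]
    field_simp
  unfold Concl
  simp only [hs]
  exact ⟨hQ, QQ_gibbs_of ht hP.ice (fun _ _ _ hE hV _ _ hin hout =>
    swap_torI hPl.tor hE hV hin hout), QQ_tr hP.ice hP.tra, QQ_flipV hP.ice hPl.rev,
    QQ_flipF hP.ice hPl.rev, QQ_height hP.ice, fun H hH m φ hφ => law_w hP hclt hH m φ hφ⟩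

end Vale.Agent.P145.FP
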