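import Vale.Agent.P145.FP.MainLo
import Vale.Agent.P152.GFF.E2.Fin
import Vale.Agent.P152.GFF.Hi

/-!
The full-plane theorem for the self-dual Ashkin-Teller model.
-/

namespace Vale.Agent.P145.FP

open Finset Filter Topology MeasureTheory ProbabilityTheory
open Vale.Agent.P152 (Edge Ori Ice sgb pth IsLimit)
open Vale.Agent.P152.GFF (Pln ChP MainC)

/-- The inputs on the six-vertex model for `0 < c ≤ 2`. -/
theorem six_in {c : ℝ} (hc : 0 < c) (hc2 : c ≤ 2) :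
    (∃ P : Measure (Ori (ℤ × ℤ)), Pln c P ∧ ChP c P) ∧ MainC c := by
  refine ⟨?_, P152.GFF.all_of P152.GFF.E2.pln_rng_all hc hc2⟩
  rcases le_or_gt (c ^ 2) 2 with h | h
  · exact P152.GFF.pln_lo hc h
  · obtain ⟨P, hP, hR⟩ := P152.GFF.E2.pln_rng_all c hc h hc2
    exact ⟨P, hP, P152.GFF.hi_chP hc h hc2 hP hR⟩

theorem main_t {t : ℝ} (ht : 0 < t) (ht2 : 1 / t ≤ 2) :
    ∃ (Q : Measure Conf) (s : ℝ), 0 < s ∧ Concl t s Q ∧ (1 / t ≤ √2 → Mix Q) := by
  have hc : 0 < 1 / t := by positivity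
  obtain ⟨⟨P, hPl, hCh⟩, P', hP', hlim', _, σ, hσ, hclt⟩ := six_in hc ht2
  have hPp : IsProbabilityMeasure P := hPl.prob
  have hPP : P = P' := limit_unique hPl.lim hlim'
  subst hPP
  exact ⟨QQ P, σ / 2 / √(2 * Real.pi), by positivity, gen ht.ne' hPl hCh hclt,
    fun h => mix_lo ht h hPl⟩

theorem main_U {U : ℝ} (hU : Real.exp (4 * U) ≤ 3) : ∃ (Q : Measure Conf) (s : ℝ), 0 < s ∧
    Concl (1 / √(1 + Real.exp (4 * U))) s Q ∧ (U ≤ 0 → Mix Q) := by
  have h1 : 0 < 1 + Real.exp (4 * U) := by positivity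
  have h2 : 0 < √(1 + Real.exp (4 * U)) := Real.sqrt_pos.2 h1
  obtain ⟨Q, s, hs, h3, h4⟩ := main_t (t := 1 / √(1 + Real.exp (4 * U))) (by positivity) (by
    rw [one_div_one_div, Real.sqrt_le_left (by norm_num)]
    linarith)
  refine ⟨Q, s, hs, h3, fun h => h4 ?_⟩
  rw [one_div_one_div]
  refine Real.sqrt_le_sqrt ?_
  have h5 : Real.exp (4 * U) ≤ 1 := Real.exp_le_one_iff.2 (by linarith)
  linarith

/-- On the self-dual line with `U ≤ J` one has `e^{4U} ≤ 3`. -/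
lemma exp_le_three {J U : ℝ} (hUJ : U ≤ J) (hself : Real.sinh (2 * J) = Real.exp (-2 * U)) :
    Real.exp (4 * U) ≤ 3 := by
  have h1 : Real.sinh (2 * U) ≤ Real.exp (-2 * U) := by
    rw [← hself]
    exact Real.sinh_le_sinh.2 (by linarith)
  rw [Real.sinh_eq, show -(2 * U) = -2 * U by ring] at h1
  have h2 : Real.exp (2 * U) ≤ 3 * Real.exp (-2 * U) := by linarith
  have h3 : Real.exp (4 * U) = Real.exp (2 * U) * Real.exp (2 * U) := by
    rw [← Real.exp_add]; ring_nf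
  have h4 : Real.exp (-2 * U) * Real.exp (2 * U) = 1 := by
    rw [← Real.exp_add]; ring_nf; exact Real.exp_zero
  have h5 := mul_le_mul_of_nonneg_right h2 (Real.exp_pos (2 * U)).le
  rw [h3]
  linarith

end Vale.Agent.P145.FP
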