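import Vale.Agent.P145.FP.Gen
import Vale.Agent.P152.GFF.Final
import Vale.Agent.P152.GFF.PlnLo
import Vale.Agent.P152.GFF.B3.LimEx

/-!
The full-plane theorem for the self-dual Ashkin-Teller model with `U ≤ 0`.
-/

namespace Vale.Agent.P145.FP

open Finset Filter Topology MeasureTheory ProbabilityTheory
open Vale.Agent.P152 (Edge Ori Ice sgb pth IsLimit)
open Vale.Agent.P152.GFF (Pln ChP MainC)

/-- Decorrelation for `c ≤ √2`. -/
lemma mix_lo {t : ℝ} (ht : 0 < t) (h : 1 / t ≤ √2) {P : Measure (Ori (ℤ × ℤ))}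
    [IsProbabilityMeasure P] (hPl : Pln (1 / t) P) : Mix (QQ P) := by
  have hc : 0 < 1 / t := by positivity
  obtain ⟨P', hPp', hlim', _, _, _, _, _, hmix, _⟩ := P152.GFF.B3.limit_ex (1 / t) hc h
  have hPP : P = P' := limit_unique hPl.lim hlim'
  subst hPP
  exact fun X Y hX hY => even_mix hPl.ice.2 hmix hX hY

theorem main_lo {t : ℝ} (ht : 0 < t) (ht2 : 1 / t ≤ √2) :
    ∃ (Q : Measure Conf) (s : ℝ), 0 < s ∧ Concl t s Q ∧ Mix Q := by
  have hc : 0 < 1 / t := by positivity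
  have hc2 : (1 / t) ^ 2 ≤ 2 := by
    have h := pow_le_pow_left₀ hc.le ht2 2
    rwa [Real.sq_sqrt (by norm_num)] at h
  obtain ⟨P, hPl, hCh⟩ := P152.GFF.pln_lo hc hc2
  obtain ⟨P', hP', hlim', _, σ, hσ, hclt⟩ := P152.GFF.final_main (1 / t) hc hc2
  have hPp : IsProbabilityMeasure P := hPl.prob
  have hPP : P = P' := limit_unique hPl.lim hlim'
  subst hPP
  exact ⟨QQ P, σ / 2 / √(2 * Real.pi), by positivity, gen ht.ne' hPl hCh hclt, mix_lo ht ht2 hPl⟩

theorem main_Ulo {U : ℝ} (hU : U ≤ 0) : ∃ (Q : Measure Conf) (s : ℝ), 0 < s ∧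
    Concl (1 / √(1 + Real.exp (4 * U))) s Q ∧ Mix Q := by
  have h1 : 0 < 1 + Real.exp (4 * U) := by positivity
  have h2 : 0 < √(1 + Real.exp (4 * U)) := Real.sqrt_pos.2 h1
  refine main_lo (by positivity) ?_
  rw [one_div_one_div]
  refine Real.sqrt_le_sqrt ?_
  have h3 : Real.exp (4 * U) ≤ 1 := Real.exp_le_one_iff.2 (by linarith)
  linarith

end Vale.Agent.P145.FP
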