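import Vale.Agent.P145.FP.Main
import Vale.Agent.P152.GFF.GenV

/-!
The full-plane theorem with the value of the constant.
-/

namespace Vale.Agent.P145.FP

open Finset Filter Topology MeasureTheory ProbabilityTheory
open Vale.Agent.P152 (Edge Ori Ice sgb pth IsLimit)
open Vale.Agent.P152.GFF (Pln ChP MainC MainV)
open Vale.Agent.P152.GFF.S (hint)

/-- The constant: `σ² = 1 / arcsin (c / 2)` gives `s = 1 / (π √g)`. -/
lemma s_val {c σ g : ℝ} (hc : 0 < c) (hσ : 0 < σ) (h : σ ^ 2 = 1 / Real.arcsin (c / 2))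
    (hg : g = 8 / Real.pi * Real.arcsin (c / 2)) :
    σ / 2 / √(2 * Real.pi) = 1 / (Real.pi * √g) := by
  have hpi := Real.pi_pos
  have ha : 0 < Real.arcsin (c / 2) := Real.arcsin_pos.2 (by linarith)
  have hg0 : 0 < g := by rw [hg]; positivity
  have h1 : 0 < σ / 2 / √(2 * Real.pi) := by positivity
  have h2 : 0 < 1 / (Real.pi * √g) := by positivity
  have h3 : (σ / 2 / √(2 * Real.pi)) ^ 2 = (1 / (Real.pi * √g)) ^ 2 := by
    rw [div_pow, div_pow, h, Real.sq_sqrt (by positivity), div_pow, mul_pow,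
      Real.sq_sqrt hg0.le, hg]
    field_simp
    norm_num
  exact (pow_left_inj₀ h1.le h2.le two_ne_zero).1 h3

theorem main_tV {t : ℝ} (ht : 0 < t) (ht2 : 1 / t ≤ 2) {q : Prop} (hq : q → MainV (1 / t)) :
    ∃ (Q : Measure Conf) (s : ℝ), 0 < s ∧
      (q → s = 1 / (Real.pi * √(8 / Real.pi * Real.arcsin (1 / t / 2)))) ∧
      Concl t s Q ∧ (1 / t ≤ √2 → Mix Q) := by
  have hc : 0 < 1 / t := by positivity
  by_cases h : q
  · obtain ⟨⟨P, hPl, hCh⟩, -⟩ := six_in hc ht2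
    obtain ⟨P', hP', hlim', _, hclt⟩ := hq h
    have hPp : IsProbabilityMeasure P := hPl.prob
    have hPP : P = P' := limit_unique hPl.lim hlim'
    subst hPP
    have hpos : 0 < 1 / Real.arcsin (1 / t / 2) :=
      one_div_pos.2 (Real.arcsin_pos.2 (by linarith))
    obtain ⟨σ, hσ, e⟩ : ∃ σ : ℝ, 0 < σ ∧ σ ^ 2 = 1 / Real.arcsin (1 / t / 2) :=
      ⟨_, Real.sqrt_pos.2 hpos, Real.sq_sqrt hpos.le⟩
    refine ⟨QQ P, σ / 2 / √(2 * Real.pi), by positivity, fun _ => s_val hc hσ e rfl,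
      gen ht.ne' hPl hCh (fun h hh m f hf => ?_), fun h => mix_lo ht h hPl⟩
    obtain ⟨h1, h2⟩ := hclt h hh m f hf
    rw [e]
    exact ⟨h1, h2⟩
  · obtain ⟨Q, s, hs, h1, h2⟩ := main_t ht ht2
    exact ⟨Q, s, hs, fun h' => absurd h' h, h1, h2⟩

theorem main_UV {U : ℝ} (hU : Real.exp (4 * U) ≤ 3) {q : Prop}
    (hq : q → MainV (√(1 + Real.exp (4 * U)))) : ∃ (Q : Measure Conf) (s : ℝ), 0 < s ∧
    (q → s = 1 / (Real.pi * √(8 / Real.pi * Real.arcsin (√(1 + Real.exp (4 * U)) / 2)))) ∧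
    Concl (1 / √(1 + Real.exp (4 * U))) s Q ∧ (U ≤ 0 → Mix Q) := by
  have h1 : 0 < 1 + Real.exp (4 * U) := by positivity
  have h2 : 0 < √(1 + Real.exp (4 * U)) := Real.sqrt_pos.2 h1
  obtain ⟨Q, s, hs, h0, h3, h4⟩ := main_tV (t := 1 / √(1 + Real.exp (4 * U))) (q := q)
    (by positivity) (by
      rw [one_div_one_div, Real.sqrt_le_left (by norm_num)]
      linarith) (by rw [one_div_one_div]; exact hq)
  rw [one_div_one_div] at h0
  refine ⟨Q, s, hs, h0, h3, fun h => h4 ?_⟩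
  rw [one_div_one_div]
  refine Real.sqrt_le_sqrt ?_
  have h5 : Real.exp (4 * U) ≤ 1 := Real.exp_le_one_iff.2 (by linarith)
  linarith

lemma sqrt_range {U : ℝ} (h0 : 0 ≤ U) (h3 : Real.exp (4 * U) ≤ 3) :
    √2 ≤ √(1 + Real.exp (4 * U)) ∧ √(1 + Real.exp (4 * U)) ≤ 2 := by
  have h2 : 1 ≤ Real.exp (4 * U) := Real.one_le_exp (by linarith)
  refine ⟨Real.sqrt_le_sqrt (by linarith), ?_⟩
  rw [Real.sqrt_le_left (by norm_num)]
  linarith

end Vale.Agent.P145.FP
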