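import Vale.Agent.P145.FP.ConvB
import Vale.Agent.P152.GFF.Gen

/-!
A variance bound of the height from the variance bound for the sums of the arrows.
-/

namespace Vale.Agent.P145.FP

open Finset Filter Topology MeasureTheory
open Vale.Agent.P152 (Edge Ori Ice sgb pth pth_isHeight sqp sqp_integrable)
open Vale.Agent.P152.GFF.S (ar ar_abs ar_measurable GD)

lemma tele (f : ℤ → ℝ) {a b : ℤ} (hab : a ≤ b) :
    ∑ j ∈ Finset.Ioc a b, (f j - f (j - 1)) = f b - f a := by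
  induction b, hab using Int.le_induction with
  | base => simp
  | succ n hn ih =>
    have h1 : Finset.Ioc a (n + 1) = insert (n + 1) (Finset.Ioc a n) := by
      ext j
      rw [Finset.mem_insert, Finset.mem_Ioc, Finset.mem_Ioc]
      omega
    rw [h1, Finset.sum_insert (by simp), ih]
    simp only [add_sub_cancel_right]
    ring

lemma ar_v {ω : Ori (ℤ × ℤ)} {h : ℤ × ℤ → ℤ} (hh : P152.IsHeight ω h) (x y : ℤ) :
    ar ω (Sum.inl (x, y)) = (h (x, y) : ℝ) - h (x, y - 1) := by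
  have h1 := (hh x y).1
  unfold ar sgb
  rw [← h1]
  push_cast
  rfl

lemma ar_h {ω : Ori (ℤ × ℤ)} {h : ℤ × ℤ → ℤ} (hh : P152.IsHeight ω h) (x y : ℤ) :
    ar ω (Sum.inr (x, y)) = (h (x - 1, y) : ℝ) - h (x, y) := by
  have h1 := (hh x y).2
  unfold ar sgb
  rw [← h1]
  push_cast
  rfl

lemma sq_two {a b : ℝ} (h : |a - b| ≤ 1) : a ^ 2 ≤ 2 * b ^ 2 + 2 := by
  have h1 : (a - b) ^ 2 ≤ 1 := by
    rw [← sq_abs]
    exact pow_le_one₀ (abs_nonneg _) h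
  nlinarith [sq_nonneg (a - 2 * b)]

lemma minmax (f : ℤ → ℝ) (y : ℤ) : (f (max 0 y) - f (min 0 y)) ^ 2 = (f y - f 0) ^ 2 := by
  rcases le_total 0 y with h | h
  · rw [max_eq_right h, min_eq_left h]
  · rw [max_eq_left h, min_eq_right h]; ring

lemma card_mm (y : ℤ) : ((Finset.Ioc (min 0 y) (max 0 y)).card : ℝ) = (|y| : ℤ) := by
  rw [Int.card_Ioc]
  rcases le_total 0 y with h | h
  · rw [max_eq_right h, min_eq_left h, abs_of_nonneg h]
    have : ((y - 0).toNat : ℤ) = y := by omega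
    exact_mod_cast this
  · rw [max_eq_left h, min_eq_right h, abs_of_nonpos h]
    have : ((0 - y).toNat : ℤ) = -y := by omega
    exact_mod_cast this

/-- The sum of the horizontal arrows over a vertical segment. -/
noncomputable def Sv (y : ℤ) (ω : Ori (ℤ × ℤ)) : ℝ :=
  ∑ v ∈ ({0} : Finset ℤ) ×ˢ Finset.Ioc (min 0 y) (max 0 y),
    (fun _ : ℤ × ℤ => (1 : ℝ)) v * ((ar ω (Sum.inl (v.1 - 1, v.2)) + ar ω (Sum.inl v)) / 2)

/-- The sum of the vertical arrows over a horizontal segment. -/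
noncomputable def Sh (x y : ℤ) (ω : Ori (ℤ × ℤ)) : ℝ :=
  ∑ v ∈ Finset.Ioc (min 0 x) (max 0 x) ×ˢ ({y} : Finset ℤ),
    (fun _ : ℤ × ℤ => (1 : ℝ)) v * ((ar ω (Sum.inr (v.1, v.2 - 1)) + ar ω (Sum.inr v)) / 2)

lemma Sv_eq {ω : Ori (ℤ × ℤ)} {h : ℤ × ℤ → ℤ} (hh : P152.IsHeight ω h) (y : ℤ) :
    Sv y ω = (((h (-1, max 0 y) : ℝ) - h (-1, min 0 y)) +
      ((h (0, max 0 y) : ℝ) - h (0, min 0 y))) / 2 := by
  unfold Sv
  rw [Finset.sum_product, Finset.sum_singleton]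
  simp only [one_mul, zero_sub]
  rw [← Finset.sum_div, Finset.sum_add_distrib]
  simp only [ar_v hh]
  rw [tele (fun j => (h (-1, j) : ℝ)) (min_le_max), tele (fun j => (h (0, j) : ℝ)) (min_le_max)]

lemma Sh_eq {ω : Ori (ℤ × ℤ)} {h : ℤ × ℤ → ℤ} (hh : P152.IsHeight ω h) (x y : ℤ) :
    Sh x y ω = -((((h (max 0 x, y - 1) : ℝ) - h (min 0 x, y - 1)) +
      ((h (max 0 x, y) : ℝ) - h (min 0 x, y))) / 2) := by
  unfold Sh
  rw [Finset.sum_product]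
  simp only [Finset.sum_singleton, one_mul]
  rw [← Finset.sum_div, Finset.sum_add_distrib]
  simp only [ar_h hh]
  have e : ∀ z : ℤ, ∑ i ∈ Finset.Ioc (min 0 x) (max 0 x), ((h (i - 1, z) : ℝ) - h (i, z)) =
      -((h (max 0 x, z) : ℝ) - h (min 0 x, z)) := by
    intro z
    rw [← tele (fun j => (h (j, z) : ℝ)) (min_le_max), ← Finset.sum_neg_distrib]
    exact Finset.sum_congr rfl (fun i _ => by ring)
  rw [e, e]
  ring

lemma step_h {ω : Ori (ℤ × ℤ)} {h : ℤ × ℤ → ℤ} (hh : P152.IsHeight ω h) (x y : ℤ) :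
    |(h (x - 1, y) : ℝ) - h (x, y)| ≤ 1 := by
  rw [← ar_h hh, ar_abs]

lemma step_v {ω : Ori (ℤ × ℤ)} {h : ℤ × ℤ → ℤ} (hh : P152.IsHeight ω h) (x y : ℤ) :
    |(h (x, y) : ℝ) - h (x, y - 1)| ≤ 1 := by
  rw [← ar_v hh, ar_abs]

lemma sqp_le {ω : Ori (ℤ × ℤ)} (hice : ∀ x y, Ice ω x y) (q : ℤ × ℤ) :
    sqp q ω ≤ 4 * Sv q.2 ω ^ 2 + 4 * Sh q.1 q.2 ω ^ 2 + 8 := by
  have hh := pth_isHeight hice
  have h0 : (pth ω (0, 0) : ℝ) = 0 := by
    have := P152.pth_zero ω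
    rw [show ((0 : ℤ), (0 : ℤ)) = 0 from rfl, this]
    simp
  have h1 : sqp q ω ≤ 2 * ((pth ω (0, q.2) : ℝ) - pth ω (0, 0)) ^ 2 +
      2 * ((pth ω (q.1, q.2) : ℝ) - pth ω (0, q.2)) ^ 2 := by
    have e : sqp q ω = (((pth ω (0, q.2) : ℝ) - pth ω (0, 0)) +
      ((pth ω (q.1, q.2) : ℝ) - pth ω (0, q.2))) ^ 2 := by
      rw [h0]
      unfold sqp
      congr 1
      ring
    rw [e]
    nlinarith [sq_nonneg (((pth ω (0, q.2) : ℝ) - pth ω (0, 0)) -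
      ((pth ω (q.1, q.2) : ℝ) - pth ω (0, q.2)))]
  have h2 : ((pth ω (0, q.2) : ℝ) - pth ω (0, 0)) ^ 2 ≤ 2 * Sv q.2 ω ^ 2 + 2 := by
    rw [← minmax (fun j => (pth ω (0, j) : ℝ)) q.2]
    refine sq_two ?_
    rw [Sv_eq hh]
    have a1 := step_h hh 0 (max 0 q.2)
    have a2 := step_h hh 0 (min 0 q.2)
    rw [zero_sub] at a1 a2
    rw [abs_le] at a1 a2 ⊢
    constructor <;> linarith [a1.1, a1.2, a2.1, a2.2]
  have h3 : ((pth ω (q.1, q.2) : ℝ) - pth ω (0, q.2)) ^ 2 ≤ 2 * Sh q.1 q.2 ω ^ 2 + 2 := by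
    rw [← minmax (fun j => (pth ω (j, q.2) : ℝ)) q.1, Sh_eq hh, neg_sq]
    refine sq_two ?_
    have a1 := step_v hh (max 0 q.1) q.2
    have a2 := step_v hh (min 0 q.1) q.2
    rw [abs_le] at a1 a2 ⊢
    constructor <;> linarith [a1.1, a1.2, a2.1, a2.2]
  linarith

variable {P : Measure (Ori (ℤ × ℤ))} [IsProbabilityMeasure P]

lemma Sv_meas (y : ℤ) : Measurable (Sv y) := by
  unfold Sv
  refine Finset.measurable_sum _ (fun v _ => ?_)
  exact (((ar_measurable _).add (ar_measurable _)).div_const 2).const_mul _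

lemma Sh_meas (x y : ℤ) : Measurable (Sh x y) := by
  unfold Sh
  refine Finset.measurable_sum _ (fun v _ => ?_)
  exact (((ar_measurable _).add (ar_measurable _)).div_const 2).const_mul _

lemma Sv_abs (y : ℤ) (ω : Ori (ℤ × ℤ)) :
    |Sv y ω| ≤ (({0} : Finset ℤ) ×ˢ Finset.Ioc (min 0 y) (max 0 y)).card := by
  unfold Sv
  refine (Finset.abs_sum_le_sum_abs _ _).trans ?_
  rw [Finset.card_eq_sum_ones]
  push_cast
  refine Finset.sum_le_sum (fun v _ => ?_)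
  rw [one_mul, abs_div, abs_two]
  have h1 := (abs_add_le (ar ω (Sum.inl (v.1 - 1, v.2))) (ar ω (Sum.inl v)))
  rw [ar_abs, ar_abs] at h1
  linarith

lemma Sh_abs (x y : ℤ) (ω : Ori (ℤ × ℤ)) :
    |Sh x y ω| ≤ (Finset.Ioc (min 0 x) (max 0 x) ×ˢ ({y} : Finset ℤ)).card := by
  unfold Sh
  refine (Finset.abs_sum_le_sum_abs _ _).trans ?_
  rw [Finset.card_eq_sum_ones]
  push_cast
  refine Finset.sum_le_sum (fun v _ => ?_)
  rw [one_mul, abs_div, abs_two]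
  have h1 := (abs_add_le (ar ω (Sum.inr (v.1, v.2 - 1))) (ar ω (Sum.inr v)))
  rw [ar_abs, ar_abs] at h1
  linarith

lemma sq_int {f : Ori (ℤ × ℤ) → ℝ} (hf : Measurable f) {K : ℝ} (hK : ∀ ω, |f ω| ≤ K) :
    Integrable (fun ω => f ω ^ 2) P := by
  refine Integrable.of_bound (hf.pow_const 2).aestronglyMeasurable (K ^ 2)
    (Eventually.of_forall (fun ω => ?_))
  rw [Real.norm_eq_abs, abs_pow]
  exact pow_le_pow_left₀ (abs_nonneg _) (hK ω) 2

/-- The second moment of the height. -/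
theorem var_gd (hice : ∀ᵐ ω ∂P, ∀ x y, Ice ω x y) {C : ℝ} (hC : 0 ≤ C) (hgd : GD P C)
    (q : ℤ × ℤ) : ∫ ω, sqp q ω ∂P ≤ (4 * C + 8) * (1 + (|q.1| + |q.2| : ℤ)) := by
  have i1 : Integrable (fun ω => Sv q.2 ω ^ 2) P := sq_int (Sv_meas q.2) (Sv_abs q.2)
  have i2 : Integrable (fun ω => Sh q.1 q.2 ω ^ 2) P := sq_int (Sh_meas q.1 q.2) (Sh_abs q.1 q.2)
  have b1 : ∫ ω, Sv q.2 ω ^ 2 ∂P ≤ C * (|q.2| : ℤ) := by
    refine ((hgd (({0} : Finset ℤ) ×ˢ Finset.Ioc (min 0 q.2) (max 0 q.2)) (fun _ => 1)).1).trans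
      (le_of_eq ?_)
    rw [← card_mm]
    simp
  have b2 : ∫ ω, Sh q.1 q.2 ω ^ 2 ∂P ≤ C * (|q.1| : ℤ) := by
    refine ((hgd (Finset.Ioc (min 0 q.1) (max 0 q.1) ×ˢ ({q.2} : Finset ℤ)) (fun _ => 1)).2).trans
      (le_of_eq ?_)
    rw [← card_mm]
    simp
  have i3 : Integrable (fun ω => 4 * Sv q.2 ω ^ 2 + 4 * Sh q.1 q.2 ω ^ 2) P :=
    (i1.const_mul 4).add (i2.const_mul 4)
  have h1 : ∫ ω, sqp q ω ∂P ≤ ∫ ω, (4 * Sv q.2 ω ^ 2 + 4 * Sh q.1 q.2 ω ^ 2 + 8) ∂P := by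
    refine integral_mono_ae (sqp_integrable q) (i3.add (integrable_const 8)) ?_
    filter_upwards [hice] with ω hω
    exact sqp_le hω q
  refine h1.trans ?_
  rw [integral_add i3 (integrable_const 8), integral_add (i1.const_mul 4) (i2.const_mul 4),
    integral_const_mul, integral_const_mul]
  simp only [integral_const, probReal_univ, one_smul]
  have h2 : (0 : ℝ) ≤ ((|q.1| + |q.2| : ℤ) : ℝ) := by
    exact_mod_cast (add_nonneg (abs_nonneg q.1) (abs_nonneg q.2))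
  push_cast at h2 b1 b2 ⊢
  nlinarith [mul_nonneg hC h2]

end Vale.Agent.P145.FP
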